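import Vale.Agent.P218N.Glue.Defs

/-! Monotonicity in the constants of the facts which are collected in `Env`. -/

open Filter Topology Metric Set Complex

noncomputable section

namespace Vale.Agent.P218N.Glue

open Vale.Agent.P218N.End Vale.Agent.P218N.J

namespace EnvP

variable {c C C' K K' ε δ : ℝ}

theorem up {x X : ℝ} (h : x ≤ C * X) (hx : 0 ≤ x) (hC : 1 ≤ C) (hC' : C ≤ C') : x ≤ C' * X := by
  have : 0 ≤ X := nonneg_of_mul_nonneg_right (hx.trans h) (by linarith)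
  nlinarith

theorem up2 {x X Y : ℝ} (h : x ≤ C * X * Y) (hx : 0 ≤ x) (hC : 1 ≤ C) (hC' : C ≤ C') :
    x ≤ C' * X * Y := by
  rw [mul_assoc] at h ⊢
  exact up h hx hC hC'

theorem up3 {x X Y Z : ℝ} (h : x ≤ C * X * Y * Z) (hx : 0 ≤ x) (hC : 1 ≤ C) (hC' : C ≤ C') :
    x ≤ C' * X * Y * Z := by
  rw [mul_assoc, mul_assoc] at h ⊢
  exact up h hx hC hC'

theorem down {x : ℝ} (h : x ≤ 1 / C') (hC : 1 ≤ C) (hC' : C ≤ C') : x ≤ 1 / C :=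
  h.trans (one_div_le_one_div_of_le (by linarith) hC')

theorem nrm0 (Γ : Ctr) (μ : ℤ → ℝ) (w : BC) (j : EJ) : 0 ≤ Γ.nrm μ w j :=
  (norm_nonneg _).trans (le_max_left _ _)

theorem dsz0 (Γ : Ctr) (s : ℤ → Icc (0 : ℝ) 1) (φ : BC) (d ω : WD) (f : WB) :
    0 ≤ Γ.dsz s φ d ω f := by
  unfold Ctr.dsz
  positivity

theorem ap_mono {Γ : Ctr} {μ : ℤ → ℝ} {s : ℤ → Icc (0 : ℝ) 1} {φ : BC} {E : EJ → WB} {j₀ : EJ}
    {A A' : ℝ} (h : APfor Γ μ s φ E j₀ δ C ε A) (hC : 1 ≤ C) (hC' : C ≤ C') (hA : A ≤ A') :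
    APfor Γ μ s φ E j₀ δ C' ε A' := fun j₁ j₂ a b c d =>
  ⟨up (h j₁ j₂ a b c d).1 (nrm0 _ _ _ _) hC hC', (h j₁ j₂ a b c d).2.trans (by
    gcongr
    exact dsz0 _ _ _ _ _ _)⟩

theorem ex_mono {X : Type} [NormedAddCommGroup X] [NormedSpace ℂ X] {U : Set X} {Γ : X → Ctr}
    {μ : ℤ → ℝ} {s : ℤ → Icc (0 : ℝ) 1} {φ : X → BC} {E : X → EJ → WB} {j₀ : X → EJ}
    (h : EXfor U Γ μ s φ E j₀ δ C) (hC' : C ≤ C') : EXfor U Γ μ s φ E j₀ δ C' :=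
  fun j₁ f d₀ d₁ ω a b c d e g => h j₁ f d₀ d₁ ω a b c d e fun x hx =>
    ⟨(g x hx).1, (g x hx).2.1, le_trans (by
      have := dsz0 (Γ x) s (φ x) (d₁ x) (ω x) (E x (j₁ x) - f x)
      gcongr) (g x hx).2.2⟩

theorem far_mono (h : FarB c C ε δ K) (hC : 1 ≤ C) (hC' : C ≤ C') : FarB c C' ε δ K :=
  ⟨fun T a γ s φ h1 h2 h3 h4 => ⟨ap_mono (h.1 T a γ s φ h1 h2 h3 h4).1 hC hC' le_rfl,
    fun j a1 a2 a3 => up ((h.1 T a γ s φ h1 h2 h3 h4).2 j a1 a2 a3) (nrm0 _ _ _ _) hC hC'⟩,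
  fun X _ _ U T a γ s φ h1 h2 h3 h4 h5 h6 =>
    ⟨ex_mono (h.2 X U T a γ s φ h1 h2 h3 h4 h5 h6).1 hC', (h.2 X U T a γ s φ h1 h2 h3 h4 h5 h6).2⟩⟩

theorem na_mono (h : NaB C K) (hC : 1 ≤ C) (hC' : C ≤ C') (hK : K ≤ K') : NaB C' K' :=
  fun T P a a' γ j w h1 h2 h3 h4 h5 h6 h7 =>
    let ⟨b1, b2, b3, b4⟩ := h T P a a' γ j w (hK.trans h1) h2 h3 h4 h5 h6 h7
    ⟨b1, up b2 (nrm0 _ _ _ _) hC hC', up2 b3 (norm_nonneg _) hC hC',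
      fun t => up3 (b4 t) (norm_nonneg _) hC hC'⟩

theorem conv_mono (h : ConvB c C K) (hC : 1 ≤ C) (hC' : C ≤ C') (hK : K ≤ K') : ConvB c C' K' :=
  fun K T θ a a' γ h1 h2 h3 h4 h5 h6 h7 h8 =>
    let ⟨b1, b2, b3⟩ := h K T θ a a' γ (hK.trans h1) h2 h3 h4 h5 h6 h7 h8
    ⟨b1, fun j hj =>
      let ⟨d1, d2, d3, d4, d5, d6, d7⟩ := b2 j hj
      ⟨d1, d2, up d3 (nrm0 _ _ _ _) hC hC', d4, fun e1 e2 => d5 (down e1 hC hC') (down e2 hC hC'),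
        fun j' w hj' => up (d6 j' w hj') (nrm0 _ _ _ _) hC hC', d7⟩, b3⟩

theorem pt_mono (h : PtB c C K) (hC : 1 ≤ C) (hC' : C ≤ C') (hK : K ≤ K') : PtB c C' K' :=
  ⟨fun K a a' ζ u d π h1 h2 h3 h4 h5 h6 h7 h8 h9 h10 =>
    let ⟨b1, b2, b3, b4, b5, b6⟩ := h.1 K a a' ζ u d π (hK.trans h1) h2 h3 h4 h5 h6 h7 h8 h9 h10
    ⟨up2 b1 (norm_nonneg _) hC hC', up2 b2 (norm_nonneg _) hC hC', up2 b3 (norm_nonneg _) hC hC',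
      up b4 (norm_nonneg _) hC hC', fun d' π' => up2 (b5 d' π') (norm_nonneg _) hC hC', b6⟩,
  fun T hT =>
    let ⟨b1, b2, b3, b4⟩ := h.2 T (hK.trans hT)
    ⟨b1, b2, b3, fun a a' d π h1 h2 => ⟨up2 (b4 a a' d π h1 h2).1 (norm_nonneg _) hC hC',
      up3 (b4 a a' d π h1 h2).2 (norm_nonneg _) hC hC'⟩⟩⟩

theorem cut_mono {clp : ℝ → Path → Path} {cut : ℝ → Path → ℂ → EJ → EJ} (h : CutB clp cut c C K)
    (hC : 1 ≤ C) (hC' : C ≤ C') (hK : K ≤ K') : CutB clp cut c C' K' :=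
  fun K T P γ h1 h2 h3 h4 h5 h6 h7 =>
    let ⟨b1, b2, b3, b4, b5, b6, b7⟩ := h K T P γ (hK.trans h1) h2 h3 h4 h5 h6 h7
    ⟨b1, b2, b3, b4, b5, b6, fun a j e1 e2 e3 =>
      let ⟨d1, d2, d3, d4, d5, d6, d7⟩ := b7 a j e1 e2 e3
      ⟨d1, d2, d3, d4, d5, fun w w' hw => up (d6 w w' hw) (nrm0 _ _ _ _) hC hC',
        fun f1 f2 w w' A B f3 f4 f5 f6 =>
          up (d7 f1 (down f2 hC hC') w w' A B f3 f4 f5 f6) (norm_nonneg _) hC hC'⟩⟩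

theorem as0_mono (h : As0B c C K) (hC : 1 ≤ C) (hC' : C ≤ C') (hK : K ≤ K') : As0B c C' K' :=
  fun K T m₁ m₂ a γ j h1 h2 h3 h4 h5 h6 h7 h8 h9 =>
    up (h K T m₁ m₂ a γ j (hK.trans h1) h2 h3 h4 h5 h6 h7 (down h8 hC hC') h9) (norm_nonneg _) hC hC'

theorem lagC_mono (h : LagC c C K) (hC : 1 ≤ C) (hC' : C ≤ C') : LagC c C' K := fun T hT =>
  let ⟨b1, b2, b3⟩ := h T hT
  ⟨fun X _ _ U a γ j h1 h2 h3 h4 h5 h6 => b1 X U a γ j h1 h2 h3 h4 h5 fun x hx =>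
      ⟨(h6 x hx).1, (h6 x hx).2.1, down (h6 x hx).2.2 hC hC'⟩,
    fun X _ _ U a γ j h1 h2 h3 h4 => b2 X U a γ j h1 h2 h3 fun x hx =>
      ⟨(h4 x hx).1, (h4 x hx).2.1, down (h4 x hx).2.2.1 hC hC', (h4 x hx).2.2.2⟩,
    fun a γ j B h1 h2 h3 =>
      let ⟨d1, d2⟩ := b3 a γ j B h1 h2 (down h3 hC hC')
      ⟨d1, fun hB => ⟨fun t₀ t₁ ht => up3 ((d2 hB).1 t₀ t₁ ht) (norm_nonneg _) hC hC',
        fun t da dy => by
          have := (d2 hB).2 t da dy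
          simp only [mul_assoc] at this ⊢
          exact up this (norm_nonneg _) hC hC'⟩⟩⟩

theorem lagK_mono {cc B T : ℝ} {ka kd : WD} (h : LagK cc ka kd B C T) (hC : 1 ≤ C) (hC' : C ≤ C') :
    LagK cc ka kd B C' T := fun γ hγ =>
  let ⟨b1, b2⟩ := h γ hγ
  ⟨fun X _ _ U k h1 h2 h3 => b1 X U k h1 h2 fun x hx => ⟨down (h3 x hx).1 hC hC', (h3 x hx).2⟩,
    fun k h1 h2 =>
      let ⟨d1, d2, d3, d4⟩ := b2 k (down h1 hC hC') h2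
      ⟨d1, d2, fun t₀ t₁ ht => up (d3 t₀ t₁ ht) (norm_nonneg _) hC hC',
        fun t dy => up2 (d4 t dy) (norm_nonneg _) hC hC'⟩⟩

theorem cylEnd_mono {v : ℝ × ℝ → ℝ} {jS : Path → EJ} {dS πS : ℝ → WD} {Z Z' : ℝ}
    (h : CylEnd v jS dS πS Z C) (hZ : Z ≤ Z') (h0 : 0 ≤ Z') (hC : C ≤ C') :
    CylEnd v jS dS πS Z' C' :=
  ⟨fun T γ a => h.sol T γ (hZ.trans a), fun T γ a => h.ev_y T γ (hZ.trans a),
    fun T γ a => h.trs T γ (hZ.trans a), fun T γ a b => (h.dec T γ (hZ.trans a) b).trans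
      (mul_le_mul_of_nonneg_right hC (Real.rpow_nonneg (h0.trans a) _)),
    fun T T' γ γ' φ a => h.cmp T T' γ γ' φ (hZ.trans a), fun T γ a => h.real T γ (hZ.trans a)⟩

theorem coneEnd_mono {f : ℝ × ℝ → ℝ} {cc : ℝ} {ka kd : WD} {jS : Path → EJ} {dS πS : ℝ → WD}
    {Z Z' B B' : ℝ} (h : ConeEnd f cc ka kd jS dS πS Z B) (hZ : Z ≤ Z') (hB : B ≤ B') :
    ConeEnd f cc ka kd jS dS πS Z' B' :=
  ⟨fun T γ a => h.sol T γ (hZ.trans a), fun T γ a => h.ev_y T γ (hZ.trans a),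
    fun T γ a => h.trs T γ (hZ.trans a), fun δ hδ =>
      let ⟨Z₁, h1⟩ := h.ref δ hδ
      ⟨Z₁, fun T γ a b =>
        let ⟨r, n⟩ := h1 T γ a b
        ⟨⟨r.jet, r.y2, r.op.trans hB, r.oq, r.pt⟩, n.trans hB⟩⟩,
    fun T T' γ γ' φ a => h.cmp T T' γ γ' φ (hZ.trans a), fun T γ a => h.real T γ (hZ.trans a),
    h.kd_eq, h.ka_real⟩

variable {J0 Cy Co : Type} [Fintype J0] [Fintype Cy] [Fintype Co]

theorem core_mono {S : Sys J0 Cy Co} {Cb Cb' r₀ : ℝ} (h : CoreL S C ε Cb r₀) (hC : C ≤ C')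
    (hb : Cb ≤ Cb') : CoreL S C' ε Cb' r₀ :=
  ⟨h.hol, h.holF, h.zero, fun p p' a b i => (h.lip1 p p' a b i).trans (by gcongr),
    fun p p' a b i => (h.lip2 p p' a b i).trans (by gcongr),
    fun p p' a b i => (h.lip3 p p' a b i).trans (by gcongr),
    fun p a => (h.bdd p a).trans hb, h.dF, h.rest0, h.real⟩

end EnvP

end Vale.Agent.P218N.Glue
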