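import Vale.Agent.P218N.Glue.AsB

/-! The asymptotics of the slopes. -/

open Filter Topology Metric Set Complex
open scoped ComplexConjugate

noncomputable section

namespace Vale.Agent.P218N.Glue

open Vale.Agent.P218N.End Vale.Agent.P218N.J Vale.Agent.P218N.J.PolyP

namespace AsP

theorem R0_AA (γ : Path) (a : ℂ) (j : EJ) (t : ℝ) (h4 : 4 ≤ ‖γ.ze t‖) (hr : rh a (γ.ze t) ≠ 0) :
    ‖(R0v a γ j t - 2) / (γ.ze t - 2) - γ.AA a j t‖ ≤ 4 * ‖tr t j.y2‖ ^ 2 / uu a (γ.ze t) := by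
  set d := ibr (tr t j.y2) with hd
  have h1 : d.c 0 = j.y2.c 0 t := by rw [hd, ibr, c_mult symb_y]; simp [br]
  have h2 : ((1 + d) ^ 2).c 0 = 1 + d.c 0 + d.c 0 + (d * d).c 0 := by
    rw [show (1 + d) ^ 2 = 1 + d + d + d * d by ring]
    rfl
  have h3 : ‖d‖ ≤ ‖tr t j.y2‖ := (norm_mult_apply_le symb_y _).trans_eq (one_mul _)
  have h5 : ‖d.c 0 ^ 2 - (d * d).c 0‖ ≤ 2 * ‖tr t j.y2‖ ^ 2 := by
    have k1 := (d.norm_c_le 0).trans h3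
    have k2 := ((d * d).norm_c_le 0).trans (norm_mul_le d d)
    have k3 := norm_sub_le (d.c 0 ^ 2) ((d * d).c 0)
    rw [norm_pow] at k3
    nlinarith [norm_nonneg d, norm_nonneg (d.c 0)]
  have h6 : ‖γ.ze t‖ / 2 ≤ ‖γ.ze t - 2‖ := by
    have := norm_sub_norm_le (γ.ze t) 2
    rw [Complex.norm_ofNat] at this
    linarith
  have h7 := norm_pos_iff.2 hr
  rw [AA_eq, ← hd, h2, R0v, ← h1, ← sub_div, show rh a (γ.ze t) * (1 + d.c 0) ^ 2 - 2 -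
    (rh a (γ.ze t) * (1 + d.c 0 + d.c 0 + (d * d).c 0) - 2) =
      rh a (γ.ze t) * (d.c 0 ^ 2 - (d * d).c 0) by ring, norm_div, norm_mul, uu, norm_div]
  calc _ ≤ ‖rh a (γ.ze t)‖ * (2 * ‖tr t j.y2‖ ^ 2) / (‖γ.ze t‖ / 2) := by gcongr
    _ = _ := by field_simp; ring

theorem num1 {C α u₀ u u₁ m₁ m₂ m q n : ℝ} (hC : 1 ≤ C) (hα : 0 ≤ α) (h0 : 0 < u₀) (h1 : u₀ ≤ u)
    (h2 : u ≤ u₁) (m0 : 0 ≤ m) (m2 : m ≤ m₂) (m3 : m ^ 2 / u ≤ m₂ ^ 2 / u₁)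
    (q1 : q ≤ 1) (n0 : 0 ≤ n) (n1 : n ≤ m₁ + m) :
    4 * n ^ 2 / u + C * (m₁ ^ 2 / u₀ + m ^ 2 / u + m₁ * (α + 1 / u₀) ^ 2 +
      m * ((α + 1 / u) ^ 2 + q * (1 / u₀) * (α + 1 / u₀)) +
      α ^ 2 * (1 / u₀ + α * (1 + Real.log (u / u₀)) + α ^ 2 * u)) ≤
    C * (9 * (m₁ ^ 2 / u₀) + 9 * (m₂ ^ 2 / u₁) + (m₁ + 2 * m₂) * (α + 1 / u₀) ^ 2 +
      α ^ 2 * (1 / u₀ + α * (1 + Real.log (u₁ / u₀)) + α ^ 2 * u₁)) := by
  have hu : 0 < u := h0.trans_le h1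
  have e1 : 4 * n ^ 2 / u ≤ C * (8 * (m₁ ^ 2 / u₀) + 8 * (m₂ ^ 2 / u₁)) := by
    have k1 : m₁ ^ 2 / u ≤ m₁ ^ 2 / u₀ := by gcongr
    calc _ ≤ (8 * m₁ ^ 2 + 8 * m ^ 2) / u := by
          gcongr
          nlinarith [sq_nonneg (m₁ - m), pow_le_pow_left₀ n0 n1 2]
      _ = 1 * (8 * (m₁ ^ 2 / u) + 8 * (m ^ 2 / u)) := by ring
      _ ≤ _ := by gcongr
  have e2 : m * ((α + 1 / u) ^ 2 + q * (1 / u₀) * (α + 1 / u₀)) ≤ 2 * m₂ * (α + 1 / u₀) ^ 2 := by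
    calc _ ≤ m * ((α + 1 / u₀) ^ 2 + 1 * (α + 1 / u₀) * (α + 1 / u₀)) := by
          gcongr
          exact le_add_of_nonneg_left hα
      _ = 2 * m * (α + 1 / u₀) ^ 2 := by ring
      _ ≤ _ := by gcongr
  have e3 : α ^ 2 * (1 / u₀ + α * (1 + Real.log (u / u₀)) + α ^ 2 * u) ≤
      α ^ 2 * (1 / u₀ + α * (1 + Real.log (u₁ / u₀)) + α ^ 2 * u₁) := by gcongr
  have e4 := mul_le_mul_of_nonneg_left (add_le_add (add_le_add m3 e2) e3) (zero_le_one.trans hC)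
  nlinarith

theorem num2 {C N ρ w O e α i m₁ m₂ r a₁ u L z : ℝ} (hC : 1 ≤ C) (hN : 1 ≤ N) (hw : 0 ≤ w)
    (hO : 1 ≤ O) (α0 : 0 ≤ α) (α1 : α ≤ N * ρ) (i0 : 0 ≤ i) (i1 : i ≤ N * ρ) (he : N * ρ ≤ e)
    (hs : α ^ 2 * u ≤ 40 * e + 20 * (1 / O)) (m1 : m₁ ≤ e) (a1 : a₁ ≤ e * ρ ^ 2) (r0 : 0 ≤ r)
    (r1 : r ≤ e) (u0 : 0 < u) (u1 : 1 / u ≤ N ^ 2 * ρ ^ 2 * O) (r2 : r ^ 2 / u ≤ e * ρ ^ 2)
    (hL : α * L ≤ e) (hz : z ≤ e * ρ ^ 2) (m2 : m₂ = C ^ 2 * w + C ^ 4 * (w / O + α ^ 2 * u) + r) :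
    C * (9 * a₁ + 9 * (m₂ ^ 2 / u) + (m₁ + 2 * m₂) * (α + i) ^ 2 +
      α ^ 2 * (i + α * L + α ^ 2 * u)) + z ≤
      ρ ^ 2 * (2000 * C ^ 9 * N ^ 2 * (w + w ^ 2 * O + 1 / O + e)) := by
  have e0 : 0 ≤ e := r0.trans r1
  have O0 : 0 < O := by linarith
  obtain ⟨X, hX⟩ : ∃ X, X = w + w ^ 2 * O + 1 / O + e := ⟨_, rfl⟩
  have p1 : 0 ≤ w ^ 2 * O := by positivity
  have p2 : 0 ≤ 1 / O := by positivity
  have X1 : w ≤ X := by linarith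
  have X2 : w ^ 2 * O ≤ X := by linarith
  have X3 : α ^ 2 * u ≤ 40 * X := by linarith
  have X4 : e ≤ X := by linarith
  have X0 := e0.trans X4
  obtain ⟨F, hF⟩ : ∃ F, F = (N * ρ) ^ 2 * X := ⟨_, rfl⟩
  have F0 : 0 ≤ F := by rw [hF]; positivity
  have F1 : e * ρ ^ 2 ≤ F := by
    calc _ = 1 ^ 2 * ρ ^ 2 * e := by ring
      _ ≤ N ^ 2 * ρ ^ 2 * X := by gcongr
      _ = _ := by rw [hF]; ring
  have c4 : 1 ≤ C ^ 4 := one_le_pow₀ hC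
  have c8 : C ^ 4 ≤ C ^ 8 := pow_le_pow_right₀ hC (by norm_num)
  have m3 : m₂ ≤ C ^ 4 * (2 * w) + C ^ 4 * (α ^ 2 * u) + r := by
    have k1 : C ^ 2 * w ≤ C ^ 4 * w := by gcongr; norm_num
    have k2 : C ^ 4 * (w / O) ≤ C ^ 4 * w := by gcongr; exact div_le_self hw hO
    linarith
  have m0 : 0 ≤ m₂ := by rw [m2]; positivity
  have g1 : m₂ ^ 2 / u ≤ 135 * (C ^ 8 * F) := by
    have k1 : w ^ 2 / u ≤ F := by
      calc _ = w ^ 2 * (1 / u) := by ring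
        _ ≤ w ^ 2 * (N ^ 2 * ρ ^ 2 * O) := by gcongr
        _ = (N * ρ) ^ 2 * (w ^ 2 * O) := by ring
        _ ≤ _ := by rw [hF]; gcongr
    have k2 : α ^ 2 * (α ^ 2 * u) ≤ 40 * F := by
      calc _ ≤ (N * ρ) ^ 2 * (40 * X) := by gcongr
        _ = _ := by rw [hF]; ring
    calc _ ≤ 3 * ((C ^ 4 * (2 * w)) ^ 2 + (C ^ 4 * (α ^ 2 * u)) ^ 2 + r ^ 2) / u := by
          gcongr
          nlinarith [pow_le_pow_left₀ m0 m3 2, sq_nonneg (C ^ 4 * (2 * w) - r),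
            sq_nonneg (C ^ 4 * (2 * w) - C ^ 4 * (α ^ 2 * u)), sq_nonneg (C ^ 4 * (α ^ 2 * u) - r)]
      _ = 3 * (4 * C ^ 8 * (w ^ 2 / u) + C ^ 8 * (α ^ 2 * (α ^ 2 * u)) + 1 * (r ^ 2 / u)) := by
          field_simp
          ring
      _ ≤ 3 * (4 * C ^ 8 * F + C ^ 8 * (40 * F) + C ^ 8 * F) := by
          gcongr
          · exact c4.trans c8
          · exact r2.trans F1
      _ = _ := by ring
  have g2 : (m₁ + 2 * m₂) * (α + i) ^ 2 ≤ 348 * (C ^ 8 * F) := by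
    have k1 : m₁ + 2 * m₂ ≤ 87 * (C ^ 8 * X) := by
      have l1 : C ^ 4 * (2 * w) ≤ C ^ 8 * (2 * X) := by gcongr
      have l2 : C ^ 4 * (α ^ 2 * u) ≤ C ^ 8 * (40 * X) := by gcongr
      have l3 : e ≤ C ^ 8 * X := X4.trans (le_mul_of_one_le_left X0 (c4.trans c8))
      linarith
    calc _ ≤ 87 * (C ^ 8 * X) * (2 * (N * ρ)) ^ 2 := by gcongr; linarith
      _ = _ := by rw [hF]; ring
  have g3 : α ^ 2 * (i + α * L + α ^ 2 * u) ≤ 42 * F := by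
    calc _ ≤ α ^ 2 * (42 * X) := by gcongr; linarith
      _ ≤ (N * ρ) ^ 2 * (42 * X) := by gcongr
      _ = _ := by rw [hF]; ring
  have g4 : F ≤ C ^ 8 * F := le_mul_of_one_le_left F0 (c4.trans c8)
  have g5 : C ^ 8 * F ≤ C * (C ^ 8 * F) := le_mul_of_one_le_left (F0.trans g4) hC
  calc _ ≤ C * (1614 * (C ^ 8 * F)) + C * (C ^ 8 * F) := by
        gcongr
        · linarith
        · linarith
    _ ≤ 2000 * (C * (C ^ 8 * F)) := by linarith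
    _ = _ := by rw [hF, hX]; ring

end AsP

open AsP

namespace Env

variable {J0 Cy Co : Type} [Fintype J0] [Fintype Cy] [Fintype Co] {S : Sys J0 Cy Co} (E : Env S)

theorem as_core {a : ℂ} {γ γ' : Path} {φ : ℝ → ℝ} {t₀ P Q m₁ m₂ : ℝ} {j : EJ}
    (ha : ‖a‖ ≤ 1 / E.K) (h : AdmP (1 / 100) E.K S.T a γ) (hp : γ.Pre P) (ho : γ'.Ok)
    (hφ : Rep φ γ γ' t₀) (h0 : P ≤ (γ.ze t₀).re) (hQ : S.T ≤ Q) (hP : Q ≤ P) (hj : γ.IsCyl a j)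
    (h1 : 0 ≤ m₁) (h2 : 0 ≤ m₂) (hm : m₁ + m₂ ≤ 1 / E.C)
    (hpt : ∀ t ∈ Icc (0 : ℝ) 1, ptN (γ.cyl a) muCyl j t ≤
      m₁ * (uu a Q / uu a (γ.ze t)) ^ (9 / 10 : ℝ) +
        m₂ * (uu a (γ.ze t) / uu a (γ.ze 1)) ^ (3 / 5 : ℝ)) :
    ∃ t ∈ Icc (0 : ℝ) 1, γ.ze t = Q ∧ ‖(R0v a γ j t₀ - 2) / (γ.ze t₀ - 2) +
      a ^ 2 * sE a (γ.ze t₀) - (γ.AA a j t + a ^ 2 * sE a Q)‖ ≤
      E.C * (9 * (m₁ ^ 2 / uu a Q) + 9 * (m₂ ^ 2 / uu a (γ.ze 1)) +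
        (m₁ + 2 * m₂) * (‖a‖ + 1 / uu a Q) ^ 2 + ‖a‖ ^ 2 * (1 / uu a Q +
          ‖a‖ * (1 + Real.log (uu a (γ.ze 1) / uu a Q)) + ‖a‖ ^ 2 * uu a (γ.ze 1))) := by
  obtain ⟨-, -, -, -, c1, c2, -⟩ := E.as_cst
  have hc : (0 : ℝ) < 1 / 100 := by norm_num
  have z0 : (0 : ℝ) ∈ Icc (0 : ℝ) 1 := ⟨le_rfl, zero_le_one⟩
  have z1 : (1 : ℝ) ∈ Icc (0 : ℝ) 1 := ⟨zero_le_one, le_rfl⟩
  obtain ⟨χ, γ'', k1, k2, k3⟩ := exists_part E.sub E.rp hc h hp ho hφ h0 hQ hP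
  obtain ⟨l1, -, -, -, l2⟩ := transfer E.htr hc c1 (by linarith) h k1.ok k2 hj
  obtain ⟨-, w1, -, w2, -⟩ := E.wt E.K S.T a γ le_rfl c2 ha h
  obtain ⟨-, w3, -, w4, -⟩ := E.wt E.K Q a γ'' le_rfl (c2.trans hQ) ha k1
  have e1 : γ''.ze 1 = γ.ze t₀ := by rw [k2.eq 1 z1, k3]
  have u0 : 0 < uu a Q := k1.st ▸ (w4 0).1
  have u1 : uu a (γ.ze t₀) ≤ uu a (γ.ze 1) := w1 (k3 ▸ (k2.maps z1).2)
  have u2 : ∀ t ∈ Icc (0 : ℝ) 1, uu a Q ≤ uu a (γ''.ze t) ∧ uu a (γ''.ze t) ≤ uu a (γ.ze t₀) :=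
    fun t ht => ⟨k1.st ▸ w3 ht.1, e1 ▸ w3 ht.2⟩
  have u3 := (w2 t₀).1
  have u4 := (w2 1).1
  have q0 : 0 < uu a (γ.ze t₀) / uu a (γ.ze 1) := div_pos u3 u4
  have q1 : uu a (γ.ze t₀) / uu a (γ.ze 1) ≤ 1 := (div_le_one u4).2 u1
  obtain ⟨m, hm'⟩ : ∃ m, m = m₂ * (uu a (γ.ze t₀) / uu a (γ.ze 1)) ^ (3 / 5 : ℝ) := ⟨_, rfl⟩
  have m0 : 0 ≤ m := by rw [hm']; positivity
  have m1 : m ≤ m₂ := hm' ▸ mul_le_of_le_one_right h2 (Real.rpow_le_one q0.le q1 (by norm_num))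
  have m2 : m ^ 2 / uu a (γ.ze t₀) ≤ m₂ ^ 2 / uu a (γ.ze 1) := by
    have := Real.rpow_le_rpow_of_exponent_ge q0 q1 (show (1 : ℝ) ≤ 3 / 5 * (2 : ℕ) by norm_num)
    rw [Real.rpow_mul_natCast q0.le, Real.rpow_one] at this
    rw [hm', mul_pow]
    calc _ ≤ m₂ ^ 2 * (uu a (γ.ze t₀) / uu a (γ.ze 1)) / uu a (γ.ze t₀) := by gcongr
      _ = _ := by field_simp
  have p1 : ∀ t ∈ Icc (0 : ℝ) 1, ptN (γ''.cyl a) muCyl (j.cmp χ) t ≤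
      m₁ * (uu a Q / uu a (γ''.ze t)) ^ (4 / 5 : ℝ) +
        m * (uu a (γ''.ze t) / uu a (γ''.ze 1)) ^ (11 / 20 : ℝ) := fun t ht => by
    have v0 := (w4 t).1
    rw [(l2 t ht).1]
    refine (hpt _ (k2.maps ht)).trans (add_le_add ?_ ?_)
    · rw [← k2.eq t ht]
      exact mul_le_mul_of_nonneg_left (Real.rpow_le_rpow_of_exponent_ge (div_pos u0 v0)
        ((div_le_one v0).2 (u2 t ht).1) (by norm_num)) h1
    · rw [← k2.eq t ht, hm', e1, mul_assoc, show uu a (γ''.ze t) / uu a (γ.ze 1) =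
        uu a (γ.ze t₀) / uu a (γ.ze 1) * (uu a (γ''.ze t) / uu a (γ.ze t₀)) by field_simp,
        Real.mul_rpow q0.le (div_pos v0 u3).le]
      gcongr m₂ * (_ * ?_)
      exact Real.rpow_le_rpow_of_exponent_ge (div_pos v0 u3) ((div_le_one u3).2 (u2 t ht).2)
        (by norm_num)
  have A := E.as0 E.K Q m₁ m a γ'' (j.cmp χ) le_rfl (c2.trans hQ) ha k1 l1 h1 m0 (by linarith) p1
  have v1 := e1 ▸ (u2 1 z1).1
  have n1 : ‖tr t₀ j.y2‖ ≤ m₁ + m := by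
    have b1 := p1 1 z1
    rw [(l2 1 z1).1, k3, div_self (w4 1).1.ne', Real.one_rpow, mul_one, e1] at b1
    have b2 := mul_le_of_le_one_right h1 (Real.rpow_le_one (div_pos u0 u3).le
      ((div_le_one u3).2 v1) (show (0 : ℝ) ≤ 4 / 5 by norm_num))
    unfold ptN at b1
    linarith [norm_nonneg (tr t₀ j.op), norm_nonneg (tr t₀ j.oq), norm_nonneg (tr t₀ j.pt),
      norm_nonneg (tr t₀ ((γ.cyl a).piJ muCyl j))]
  have B := R0_AA γ a j t₀ (by linarith [h.T_le hc t₀, re_le_norm (γ.ze t₀)])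
    (right_ne_zero_of_mul (norm_pos_iff.1 (lt_of_lt_of_le (by linarith) (h.big t₀))))
  simp only [(l2 1 z1).2, (l2 0 z0).2, k3, e1] at A
  refine ⟨χ 0, k2.maps z0, by rw [← k2.eq 0 z0, k1.st], le_trans ?_ ((add_le_add B A).trans
    (num1 (by linarith [E.hC]) (norm_nonneg a) u0 v1 u1 m0 m1 m2 (Real.rpow_le_one
      (div_pos u0 u3).le ((div_le_one u3).2 v1) (by norm_num)) (norm_nonneg _) n1))⟩
  refine le_trans (le_of_eq ?_) (norm_add_le _ _)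
  congr 1
  ring

theorem as_gen {X : XT J0 Cy} {rX : ℝ} (h1 : E.S2pr X rX) (h2 : E.AQ X rX) (M : ℝ) (hM : 1 ≤ M) :
    ∃ B > 0, ∀ e > 0, e ≤ 1 / E.C ^ 8 → ∃ ρ₀ > 0, ∀ ρ, 0 < ρ → ρ ≤ ρ₀ →
    ∀ (d : TD Cy Co) β b (u : TU Cy Co), E.Gd M ρ d u.a → ‖β‖ < rX → ‖b‖ < E.r →
    E.TS X d β b u → ∀ i φ γ' t₀, γ'.Ok → Rep φ (d.γ i) γ' t₀ →
      1 / (M * ρ) ≤ ((d.γ i).ze t₀).re →
      ‖(R0v (u.a i) (d.γ i) (u.j i) t₀ - 2) / ((d.γ i).ze t₀ - 2) +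
        u.a i ^ 2 * sE (u.a i) ((d.γ i).ze t₀) - β i‖ ≤ ρ ^ 2 * (B * (‖d.ω i‖ +
        ‖d.ω i‖ ^ 2 * ‖Om (u.a i) ((d.γ i).ze 1)‖ + 1 / ‖Om (u.a i) ((d.γ i).ze 1)‖ + e)) := by
  obtain ⟨C₁, c1, ρ₁, r1, H1⟩ := h1 M hM
  obtain ⟨C₂, c2, ρ₂, r2, H2⟩ := h2 M hM
  obtain ⟨-, b1, b2, b3, b4, b5, -⟩ := E.as_cst
  obtain ⟨N, hN⟩ : ∃ N, N = 3 * C₂ * M := ⟨_, rfl⟩
  have N1 : M ≤ N := by nlinarith
  have N2 : 3 * C₂ ≤ N := by nlinarith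
  have N3 := hM.trans N1
  have hC : 1 ≤ E.C := by linarith [E.hC]
  have T0 : 0 < S.T := by linarith
  have d0 := E.δ₁0
  refine ⟨2000 * E.C ^ 9 * N ^ 2, by positivity, fun e e0 e1 => ?_⟩
  obtain ⟨ρ₃, r3, H3⟩ := small [N, C₂ * S.T, E.C ^ 2 * (S.T * N) ^ 18,
    (E.C ^ 2 * (S.T * N) ^ 18) ^ 2 * N, C₁ * N ^ 12, C₁ ^ 2 * N ^ 4, 20 * N ^ 3, C₂] e0
  refine ⟨min ρ₃ (min ρ₁ ρ₂), by positivity, fun ρ p0 p1 d β b u hG hβ hb hT i φ γ' t₀ ho hφ ht => ?_⟩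
  simp only [le_min_iff] at p1
  obtain ⟨σ, s0, rfl, s1, s2⟩ := H3 ρ p0 p1.1
  simp only [List.forall_mem_cons] at s2
  obtain ⟨a1, a2, a3, a4, a5, a6, a7, a8, -⟩ := s2
  obtain ⟨Q, q1, q2, q3⟩ := H2 _ p0 p1.2.2
  have e2 : e ≤ 1 := e1.trans (by rw [div_le_one (by positivity)]; exact one_le_pow₀ hC)
  have q4 : S.T ≤ Q := le_trans (by
    rw [le_div_iff₀ (by positivity)]
    linarith [le_sm (by positivity) s0 s1 a2 20 (by norm_num)]) q1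
  obtain ⟨x, y, z, x0, y0, z0, hx, hy, hz, g1, g2, g3, -, g5, g6, g7⟩ := E.as_geo hG i hM N1 s0
    (le_trans (by rw [div_le_div_iff₀ (by positivity) (by positivity)]; nlinarith) q1) q2 q4
  have hP := (H1 _ p0 p1.2.1 d β b u hG hβ hb hT).pt i
  have hA := q3 d β b u hG hβ hb hT i
  obtain ⟨-, w1, -, w2, -, w3, -⟩ := E.wt E.K S.T _ _ le_rfl b5 (E.as_slope hT i) (hG.adm i)
  have hO := (hG.adm i).big 1
  have hw := hG.om i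
  have hα := (hG.al i).trans (show M * σ ^ 20 ≤ N * σ ^ 20 by gcongr)
  have n1 := le_sm (by positivity) s0 s1 a1 20 (by norm_num)
  have hs : ‖u.a i‖ ^ 2 * x ^ 20 ≤ 40 * e + 20 * (1 / ‖Om (u.a i) ((d.γ i).ze 1)‖) := by
    have k1 := g7.trans (re_le_norm _)
    have k2 : 1 / ‖(d.γ i).ze 1‖ ≤ N * σ ^ 20 :=
      ((one_div_le (by positivity) (lt_of_lt_of_le (by positivity) k1)).1 k1).trans (by gcongr)
    linarith [hx ▸ (w2 1).2.2]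
  obtain ⟨m₁, m1⟩ : ∃ m, m = E.C ^ 2 * E.δ₁ * (z / y) ^ 18 := ⟨_, rfl⟩
  obtain ⟨r, hr⟩ : ∃ r, r = C₁ * σ ^ 27 * x ^ 12 := ⟨_, rfl⟩
  have m2 : m₁ ≤ E.C ^ 2 * (S.T * N) ^ 18 * σ ^ 18 := by
    calc _ ≤ E.C ^ 2 * 1 * (S.T * (N * σ)) ^ 18 := by
          rw [m1, div_eq_mul_one_div]
          gcongr
      _ = _ := by ring
  have m0 : 0 ≤ m₁ := by rw [m1]; positivity
  have m3 := m2.trans (le_sm (by positivity) s0 s1 a3 18 (by norm_num))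
  have r0 : 0 ≤ r := by rw [hr]; positivity
  have r3 : r ≤ e := by
    calc _ ≤ C₁ * σ ^ 27 * (N / σ ^ 2) ^ 12 := by rw [hr]; gcongr
      _ = C₁ * N ^ 12 * σ ^ 3 := by field_simp
      _ ≤ _ := le_sm (by positivity) s0 s1 a5 3 (by norm_num)
  have O0 : 0 < ‖Om (u.a i) ((d.γ i).ze 1)‖ := by linarith
  obtain ⟨t, t1, t2, t3⟩ := E.as_core (m₁ := m₁) (m₂ := E.C ^ 2 * ‖d.ω i‖ + E.C ^ 4 *
    (‖d.ω i‖ / ‖Om (u.a i) ((d.γ i).ze 1)‖ + ‖u.a i‖ ^ 2 * x ^ 20) + r) (E.as_slope hT i) (hG.adm i)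
    (hG.pre i) ho hφ ht q4 (q2.trans (by gcongr; linarith)) (hT.ms.cyl i) m0 (by positivity)
    (by
      have k1 : 1 / ‖Om (u.a i) ((d.γ i).ze 1)‖ ≤ 1 / E.C ^ 8 := by gcongr; linarith
      have k2 : ‖d.ω i‖ / ‖Om (u.a i) ((d.γ i).ze 1)‖ ≤ 1 / E.C ^ 8 :=
        (div_le_self (norm_nonneg _) (by linarith)).trans (hw.trans b1)
      have k3 : 64 ≤ E.C ^ 3 := (by linarith [E.hC] : 64 ≤ E.C).trans (le_self_pow₀ hC (by norm_num))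
      have k4 : 1 ≤ E.C ^ 4 := one_le_pow₀ hC
      have k5 : ‖u.a i‖ ^ 2 * x ^ 20 ≤ 60 * (1 / E.C ^ 8) := by linarith
      calc _ ≤ E.C ^ 4 * (1 / E.C ^ 8) + (E.C ^ 4 * (1 / E.C ^ 8) + E.C ^ 4 * (1 / E.C ^ 8 +
            60 * (1 / E.C ^ 8)) + E.C ^ 4 * (1 / E.C ^ 8)) := by
            gcongr
            · exact (m3.trans e1).trans (le_mul_of_one_le_left (by positivity) k4)
            · norm_num
            · exact hw.trans b1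
            · exact (r3.trans e1).trans (le_mul_of_one_le_left (by positivity) k4)
        _ = 64 / E.C ^ 3 * (1 / E.C) := by field_simp; norm_num
        _ ≤ _ := mul_le_of_le_one_left (by positivity) ((div_le_one (by positivity)).2 k3))
    (fun t ht => by
      have v0 := (w2 t).1
      have v1 := (w2 1).1
      have k1 := (w3 t).trans (Real.self_le_rpow_of_le_one (div_pos v0 v1).le
        ((div_le_one v1).2 (w1 ht.2)) (show (3 / 5 : ℝ) ≤ 1 by norm_num))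
      have k2 : (uu (u.a i) S.T / uu (u.a i) ((d.γ i).ze t)) ^ (9 / 10 : ℝ) =
          (z / y) ^ 18 * (uu (u.a i) Q / uu (u.a i) ((d.γ i).ze t)) ^ (9 / 10 : ℝ) := by
        rw [← rpd z0.le y0.le 18 (p := 9 / 10) (by norm_num), ← Real.mul_rpow (by positivity)
          (by rw [hy]; positivity), hy, hz]
        congr 1
        field_simp
      have k3 := hP t ht
      rw [k2, AsP.rp s0.le 27 (by norm_num)] at k3
      nth_rw 2 [hx] at k3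
      nth_rw 1 [hx] at k3
      rw [AsP.rp x0.le 12 (by norm_num), ← hr] at k3
      have k4 := mul_le_mul_of_nonneg_left k1 (show 0 ≤ E.C ^ 2 * ‖d.ω i‖ by positivity)
      rw [m1]
      linarith)
  have t4 := hA t t1 t2
  rw [hx, hy] at t3
  rw [AsP.rp s0.le 46 (by norm_num)] at t4
  refine le_trans ?_ ((add_le_add t3 t4).trans (num2 hC N3 (norm_nonneg _) (by linarith)
    (norm_nonneg _) hα (by positivity) g2 n1 hs m3 ?_ r0 r3 (by positivity) ?_ ?_ ?_ ?_ rfl))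
  · refine le_trans (le_of_eq ?_) (norm_add_le _ _)
    congr 1
    ring
  · calc _ ≤ (E.C ^ 2 * (S.T * N) ^ 18 * σ ^ 18) ^ 2 * (N * σ ^ 20) := by
          rw [div_eq_mul_one_div]
          gcongr
      _ = (E.C ^ 2 * (S.T * N) ^ 18) ^ 2 * N * σ ^ 16 * (σ ^ 20) ^ 2 := by ring
      _ ≤ _ := by gcongr; exact le_sm (by positivity) s0 s1 a4 16 (by norm_num)
  · rw [div_le_iff₀ (by positivity)]
    linarith
  · calc _ = C₁ ^ 2 * σ ^ 54 * x ^ 4 := by rw [hr]; field_simp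
      _ ≤ C₁ ^ 2 * σ ^ 54 * (N / σ ^ 2) ^ 4 := by gcongr
      _ = C₁ ^ 2 * N ^ 4 * σ ^ 6 * (σ ^ 20) ^ 2 := by field_simp
      _ ≤ _ := by gcongr; exact le_sm (by positivity) s0 s1 a6 6 (by norm_num)
  · have k1 := Real.log_le_sub_one_of_pos (div_pos x0 y0)
    have k2 : x / y ≤ N / σ ^ 2 * (N * σ) := by rw [div_eq_mul_one_div x]; gcongr
    rw [← div_pow, Real.log_pow]
    calc _ ≤ ‖u.a i‖ * (20 * (N / σ ^ 2 * (N * σ))) := by gcongr; push_cast; linarith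
      _ ≤ N * σ ^ 20 * (20 * (N / σ ^ 2 * (N * σ))) := by gcongr
      _ = 20 * N ^ 3 * σ ^ 19 := by field_simp
      _ ≤ _ := le_sm (by positivity) s0 s1 a7 19 (by norm_num)
  · calc _ = C₂ * σ ^ 6 * (σ ^ 20) ^ 2 := by ring
      _ ≤ _ := by gcongr; exact le_sm (by positivity) s0 s1 a8 6 (by norm_num)

theorem as {X : XT J0 Cy} {rX : ℝ} (h1 : E.S2pr X rX) (h2 : E.AQ X rX) : E.AS X rX := by
  intro M hM
  obtain ⟨B, B0, H⟩ := E.as_gen h1 h2 M hM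
  obtain ⟨-, -, -, -, c1, c2, -⟩ := E.as_cst
  have hC : 1 ≤ E.C := by linarith [E.hC]
  refine ⟨2 * B, by positivity, fun η η0 => ?_⟩
  obtain ⟨ρ₀, r0, H⟩ := H (min (1 / E.C ^ 8) (η / B)) (by positivity) (min_le_left _ _)
  refine ⟨ρ₀, r0, fun ρ p0 p1 d β b u hG hβ hb hT i => ⟨?_, fun hω φ γ' t₀ ho hφ ht => ?_⟩⟩
  · have k1 : 1 / (M * ρ) ≤ ((d.γ i).ze 1).re := by
      obtain ⟨t, ht, -, k⟩ := hG.pre i
      exact k.trans ((hG.adm i).mono_re (by norm_num) ht.2)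
    have k2 := H ρ p0 p1 d β b u hG hβ hb hT i id _ 1 (hG.adm i).ok (Rep.refl _) k1
    have k3 : (d.γ i).ze 1 - 2 ≠ 0 := fun h => by
      have := (hG.adm i).T_le (by norm_num) 1
      rw [sub_eq_zero.1 h, re_ofNat] at this
      linarith
    rw [R0v, hT.y0, rh, add_zero, one_pow, mul_one, add_sub_cancel_left,
      mul_div_cancel_right₀ _ k3] at k2
    refine k2.trans (mul_le_mul_of_nonneg_left ?_ (by positivity))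
    have k4 : B * min (1 / E.C ^ 8) (η / B) ≤ η := (le_div_iff₀' B0).1 (min_le_right _ _)
    have k5 : 0 ≤ B * (‖d.ω i‖ + ‖d.ω i‖ ^ 2 * ‖Om (u.a i) ((d.γ i).ze 1)‖ +
      1 / ‖Om (u.a i) ((d.γ i).ze 1)‖) := by positivity
    linarith
  · refine (H ρ p0 p1 d β b u hG hβ hb hT i φ γ' t₀ ho hφ ht).trans ?_
    have k1 : 1 / ‖Om (u.a i) ((d.γ i).ze 1)‖ ≤ 1 :=
      div_le_one_of_le₀ (by linarith [(hG.adm i).big 1]) (norm_nonneg _)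
    have k2 : min (1 / E.C ^ 8) (η / B) ≤ 1 :=
      (min_le_left _ _).trans (div_le_one_of_le₀ (one_le_pow₀ hC) (by positivity))
    rw [hω, norm_zero]
    calc _ ≤ ρ ^ 2 * (B * 2) := by gcongr; linarith
      _ = _ := by ring

end Env

end Vale.Agent.P218N.Glue
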