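import Vale.Agent.P218N.Glue.Stmt
import Vale.Agent.P218N.End.Ap
import Vale.Agent.P218N.End.Hol

/-! The field `cone`: change of the truncation of the conical ends. -/

open Filter Topology Metric Set Complex
open scoped ComplexConjugate

noncomputable section

namespace Vale.Agent.P218N.Glue

open Vale.Agent.P218N.End Vale.Agent.P218N.J

variable {J0 Cy Co : Type} [Fintype J0] [Fintype Cy] [Fintype Co]

namespace ConeP

theorem norm_le_nrm (Γ : Ctr) (μ : ℤ → ℝ) (j : EJ) : ‖j‖ ≤ Γ.nrm μ 1 j := by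
  rw [Ctr.nrm, EJ.wt_one]
  exact le_max_left _ _

theorem pi_le_nrm (Γ : Ctr) (μ : ℤ → ℝ) (j : EJ) (t : ℝ) : ‖tr t (Γ.piJ μ j)‖ ≤ Γ.nrm μ 1 j := by
  have := le_max_right ‖j.wt 1‖ ‖W.C (1 : BC) * Γ.piJ μ j‖
  rw [map_one, one_mul] at this
  refine (norm_tr_apply_le t _).trans ?_
  rwa [Ctr.nrm, map_one, one_mul]

theorem cauchy {B : Type*} [NormedAddCommGroup B] [NormedSpace ℂ B] {f : ℂ → B} {R : ℝ}
    (hd : DifferentiableOn ℂ f (ball 0 4)) (b : B) (hb : ∀ p ∈ ball (0 : ℂ) 4, ‖f p - b‖ ≤ R)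
    {p : ℂ} (hp : p ∈ ball (0 : ℂ) 2) : ‖fderiv ℂ f p 1‖ ≤ R := by
  have h1 : ball p 2 ⊆ ball 0 4 := ball_subset_ball' (by linarith [mem_ball.1 hp])
  have h2 := norm_fderiv_le_of_bdd (f := fun q => f q - b) two_pos
    ((hd.mono h1).sub_const b) fun q hq => hb q (h1 hq)
  rw [fderiv_sub_const] at h2
  have := (fderiv ℂ f p).le_opNorm 1
  rw [norm_one, mul_one] at this
  linarith

variable {S : Sys J0 Cy Co} (E : Env S)

theorem consts : E.δ ≤ 1 / (2 * E.C) ∧ 8 * E.δ₁ ≤ E.δ₀ ∧ E.ε ≤ 1 ∧ 1 ≤ E.K ∧ E.K ≤ S.T := by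
  have c1 := E.hC
  have c8 : 2 * E.C ≤ E.C ^ 8 := by
    have : E.C ^ 2 ≤ E.C ^ 8 := pow_le_pow_right₀ (by linarith) (by norm_num)
    nlinarith
  have e1 : E.ε * (2 * E.C) ≤ 1 := le_trans (mul_le_mul_of_nonneg_left c8 E.ε0.le) E.hε
  have e2 : E.ε ≤ 1 := by nlinarith [E.ε0]
  have e3 : E.δ₁ * (2 * E.C) ≤ E.δ₀ := le_trans (mul_le_mul_of_nonneg_left c8 E.δ₁0.le) E.hδ₁
  have e4 : E.δ₀ * (2 * E.C) ≤ E.δ := le_trans (mul_le_mul_of_nonneg_left c8 E.δ₀0.le) E.hδ₀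
  have e5 : E.δ₁ ≤ 1 := by nlinarith [E.δ₁0, E.δ₀0, E.hδ]
  have e6 : 1 ≤ E.K := by
    by_contra h
    nlinarith [E.hK, E.δ₁0]
  refine ⟨?_, by nlinarith [E.δ₁0], e2, e6, by nlinarith [E.hT]⟩
  rw [le_div_iff₀ (by linarith)]
  nlinarith [E.hδ]

theorem ksmall {γ : Path} (hγ : γ.RealP S.T) {e : Co} {k : EJ}
    (h : γ.cone.nrm (muCone (S.cc e)) 1 (k - S.kS e γ) ≤ E.δ) :
    ‖k.y2‖ ≤ 1 / E.C ∧ ‖k.op‖ ≤ E.BK + 1 := by
  have h1 := (norm_le_nrm _ _ _).trans h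
  obtain ⟨k1, k2, -⟩ := E.kref e γ hγ
  have c1 := (consts E).1
  have c2 := E.hC
  have c3 : 1 / E.C = 2 * (1 / (2 * E.C)) := by field_simp
  have c4 : 1 / (2 * E.C) ≤ 1 := by rw [div_le_one (by linarith)]; linarith
  have e1 : k.y2 = (k - S.kS e γ).y2 + (S.kS e γ).y2 := by simp
  have e2 : k.op = (k - S.kS e γ).op + (S.kS e γ).op := by simp
  constructor
  · rw [e1]
    linarith [norm_add_le (k - S.kS e γ).y2 (S.kS e γ).y2, (k - S.kS e γ).norm_y2_le]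
  · rw [e2]
    linarith [norm_add_le (k - S.kS e γ).op (S.kS e γ).op, (k - S.kS e γ).norm_op_le]

variable {E} {X : XT J0 Cy} {β : Cy → ℂ} {b : J0 → ℂ} {γ : Cy → Path} {Rc R' : ℝ}

/-- restriction of the conical ends -/
theorem step1 (hr : E.Restr) (hT : S.T < R') (hR : R' ≤ Rc) {u : TU Cy Co}
    (hu : E.TS X ⟨γ, 0, Rc, 0⟩ β b u) (hk : ∀ e, (sg S.T Rc).cone.nrm (muCone (S.cc e)) 1
      (u.k e - S.kS e (sg S.T Rc)) ≤ 2 * E.δ₁) :
    ∃ (ωc : Co → WD) (u₁ : TU Cy Co), u₁.a = u.a ∧ ‖ωc‖ ≤ 2 * E.δ₁ ∧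
      E.TS X ⟨γ, 0, R', ωc⟩ β b u₁ ∧ ‖E.tv X ⟨γ, 0, Rc, 0⟩ β b u - E.tv X ⟨γ, 0, R', ωc⟩ β b u₁‖ ≤
        Fintype.card Co * (E.C * Real.exp (-(R' / 5))) := by
  obtain ⟨r1, e1⟩ := E.sub.1 S.T R' hT.le
  obtain ⟨r2, -⟩ := E.sub.1 S.T Rc (hT.le.trans hR)
  obtain ⟨ψ, s1, s2⟩ := E.sub.2.1 (sg S.T R') S.T Rc r1 (hT.trans_le hR) (by simpa [e1] using hR)
  have m1 : (1 : ℝ) ∈ Icc (0 : ℝ) 1 := ⟨zero_le_one, le_rfl⟩
  obtain ⟨k1, k2, k3⟩ := hr E.δ _ _ γ γ _ _ (fun _ => sg S.T R') _ (fun _ => id) (fun _ => ψ) le_rfl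
    hu.ms (fun i => ⟨hu.sa i, hu.adm i, (hu.adm i).ok,
      ⟨continuousOn_id, mapsTo_id _, fun _ _ => rfl⟩, rfl⟩) fun e => ⟨r2, r1, s1, s2⟩
  refine ⟨fun e => (sg S.T R').piK (S.cc e) ((u.k e).cmp ψ) 1 -
    (sg S.T R').piK (S.cc e) (S.kS e (sg S.T R')) 1,
    ⟨u.a, u.π, fun i => (u.j i).cmp id, fun e => (u.k e).cmp ψ⟩, rfl, ?_,
    ⟨k1, hu.adm, hu.sa, fun i => ?_, fun i => ?_, fun e => by simp⟩, ?_⟩
  · refine (pi_norm_le_iff_of_nonneg (by linarith [E.δ₁0])).2 fun e => ?_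
    rw [(k3 e 1 m1).1, (k3 e 1 m1).2.1, Path.piK, Path.piK, ← map_sub, ← Ctr.piJ_sub]
    exact (pi_le_nrm _ _ _ _).trans (hk e)
  · have := congrArg (fun d : WD => d.c 0) (k2 i 1 m1).1
    simp only [c_tr, id] at this
    exact this.trans (hu.y0 i)
  · exact (k2 i 1 m1).2.1.trans (hu.om i)
  · have e2 : E.tv X ⟨γ, 0, Rc, 0⟩ β b u - E.tv X ⟨γ, 0, R', fun e =>
        (sg S.T R').piK (S.cc e) ((u.k e).cmp ψ) 1 - (sg S.T R').piK (S.cc e) (S.kS e (sg S.T R')) 1⟩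
        β b ⟨u.a, u.π, fun i => (u.j i).cmp id, fun e => (u.k e).cmp ψ⟩ =
        ∑ e, (sg S.T Rc).FKI (S.cc e) (S.ka e) (u.k e) (ψ 1) 1 := by
      simp only [Env.tv, Sys.val]
      rw [Finset.sum_congr rfl fun i _ => (k2 i 1 m1).2.2.2,
        Finset.sum_congr rfl fun e _ => (k3 e 1 m1).2.2,
        Finset.sum_congr rfl fun e _ => (((E.lagK e _ r2).2 (u.k e)
          (ksmall E r2 (hu.ms.ncone e)).1 (ksmall E r2 (hu.ms.ncone e)).2).2.1 0 (ψ 1) 1).symm,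
        Finset.sum_add_distrib]
      simp only [id]
      ring
    rw [e2, ← Finset.card_univ, ← nsmul_eq_mul]
    refine (norm_sum_le _ _).trans (Finset.sum_le_card_nsmul _ _ _ fun e _ => ?_)
    have := ((E.lagK e _ r2).2 (u.k e) (ksmall E r2 (hu.ms.ncone e)).1
      (ksmall E r2 (hu.ms.ncone e)).2).2.2.1 (ψ 1) 1 (s1.maps m1).2
    rwa [← s1.eq 1 m1, e1, Complex.ofReal_re] at this

/-- the family `p • ωc` -/
theorem step2 (hf : E.Fv) {M ρ : ℝ} (hM : 1 ≤ M) (hρ : 0 < ρ) (hMρ : 2 * (M * ρ) ≤ 1)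
    (hT : S.T ≤ R') {ωc : Co → WD} {U : ℂ → TU Cy Co} (hU : HolU (ball 0 4) U) {ah : Cy → ℂ}
    (h : ∀ p ∈ ball (0 : ℂ) 4, E.TS X ⟨γ, 0, R', p • ωc⟩ β b (U p) ∧
      E.Gd M ρ ⟨γ, 0, R', p • ωc⟩ (U p).a ∧ ∀ i, ‖(U p).a i - ah i‖ ≤ M * ρ) :
    ‖E.tv X ⟨γ, 0, R', ωc⟩ β b (U 1) - E.tv X ⟨γ, 0, R', 0⟩ β b (U 0)‖ ≤
      Fintype.card Co * (E.C * Real.exp (-(R' / 5))) +
        2 * E.C * (M ^ 2 + 4) ^ 2 * Real.exp (M ^ 2 + 3) * M ^ 3 / ρ *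
          ∑ i, Real.exp (-(((γ i).ze 1).re / 4)) := by
  obtain ⟨r1, e1⟩ := E.sub.1 S.T R' hT
  obtain ⟨c1, -, c3, c4, c5⟩ := consts E
  have c0 := E.hC
  have c6 : E.δ ≤ 1 / E.C := c1.trans (by gcongr; linarith)
  have c7 : E.δ ≤ 1 := c6.trans (by rw [div_le_one (by linarith)]; linarith)
  have dp : DifferentiableOn ℂ (fun p => ((b, X (β, b), (U p).π) : CP J0 Cy Co)) (ball 0 4) :=
    (differentiableOn_const _).prodMk ((differentiableOn_const _).prodMk hU.π)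
  obtain ⟨d1, d2⟩ := hf ℂ (ball 0 4) (fun p => (b, X (β, b), (U p).π)) (fun p => (U p).a)
    (fun _ => γ) (fun p => (U p).j) (fun _ => sg S.T R') (fun p => (U p).k) isOpen_ball dp hU.a
    (fun _ => differentiableOn_const _) (fun _ => differentiableOn_const _) hU.j hU.k (fun _ => r1)
    fun p hp => ⟨(h p hp).1.ms, fun i => ⟨(h p hp).1.sa i, (h p hp).2.1.adm i⟩⟩
  have sub : ball (0 : ℂ) 2 ⊆ ball 0 4 := ball_subset_ball (by norm_num)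
  have := (convex_ball (0 : ℂ) 2).norm_image_sub_le_of_norm_deriv_le
    (C := Fintype.card Co * (E.C * Real.exp (-(R' / 5))) +
      2 * E.C * (M ^ 2 + 4) ^ 2 * Real.exp (M ^ 2 + 3) * M ^ 3 / ρ *
        ∑ i, Real.exp (-(((γ i).ze 1).re / 4)))
    (fun p hp => d1.differentiableAt (isOpen_ball.mem_nhds (sub hp))) (fun p hp => ?_)
    (x := 0) (y := 1) (mem_ball_self two_pos) (by simp)
  · rw [sub_zero, norm_one, mul_one] at this
    exact this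
  have hp' := sub hp
  have z : fderiv ℂ (fun p => ((b, X (β, b), (U p).π) : CP J0 Cy Co)) p 1 =
      (0, 0, fderiv ℂ (fun p => (U p).π) p 1) := by
    have := ((hasFDerivAt_const b p).prodMk ((hasFDerivAt_const (X (β, b)) p).prodMk
      (hU.π.differentiableAt (isOpen_ball.mem_nhds hp')).hasFDerivAt)).fderiv
    rw [this]
    rfl
  rw [← fderiv_apply_one_eq_deriv, d2 γ (fun _ _ => rfl) p hp' 1, z, E.core.rest0, zero_add,
    add_comm (Fintype.card Co * _ : ℝ)]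
  refine (norm_add_le _ _).trans (add_le_add ?_ ?_)
  · rw [Finset.mul_sum]
    refine (norm_sum_le _ _).trans (Finset.sum_le_sum fun i _ => ?_)
    obtain ⟨t1, g1, -⟩ := h p hp'
    have T0 : 0 < S.T := by linarith
    have a1 : ‖(U p).a i‖ ≤ 1 / E.K := by
      rw [le_div_iff₀ (by linarith)]
      exact (mul_le_mul_of_nonneg_left c5 (norm_nonneg _)).trans ((t1.sa i).trans c3)
    have rhb : ∀ t, ‖rh ((U p).a i) ((γ i).ze t)‖ ≤ M ^ 2 + 3 := fun t => by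
      have k1 : ‖(γ i).ze t - 2‖ ≤ M / ρ + 2 := (norm_sub_le _ _).trans (by
        simpa using g1.up i t)
      have k2 := mul_le_mul (g1.al i) k1 (norm_nonneg _) (by positivity)
      have k3 : M * ρ * (M / ρ + 2) = M ^ 2 + 2 * (M * ρ) := by field_simp
      refine (norm_add_le _ _).trans ?_
      rw [norm_mul, Complex.norm_ofNat]
      linarith
    have f1 := (((E.lagC S.T c5).2.2 _ _ _ _ a1 (g1.adm i)
      ((norm_le_nrm _ _ _).trans ((t1.ms.ncyl i).trans c6))).2 rhb).2 1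
      (fderiv ℂ (fun q => (U q).a i) p 1) (fderiv ℂ (fun q => (U q).j i) p 1).y
    have b1 : ‖fderiv ℂ (fun q => (U q).a i) p 1‖ ≤ M * ρ :=
      cauchy (differentiableOn_pi.1 hU.a i) (ah i) (fun q hq => (h q hq).2.2 i) hp
    have b2 : ‖(fderiv ℂ (fun q => (U q).j i) p 1).y‖ ≤ 1 := (EJ.norm_y_le _).trans
      (cauchy (differentiableOn_pi.1 hU.j i) 0 (fun q hq => by
        rw [sub_zero]; exact (norm_le_nrm _ _ _).trans (((h q hq).1.ms.ncyl i).trans c7)) hp)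
    have b3 : uu ((U p).a i) ((γ i).ze 1) ≤ (M / ρ) ^ 2 := by
      have k1 : 1 ≤ ‖Om ((U p).a i) ((γ i).ze 1)‖ := c4.trans ((g1.adm i).big 1)
      have k2 : ‖(γ i).ze 1‖ ≤ M / ρ := g1.up i 1
      rw [Om, norm_mul] at k1
      have k3 : 0 < ‖rh ((U p).a i) ((γ i).ze 1)‖ := by
        rcases (norm_nonneg (rh ((U p).a i) ((γ i).ze 1))).eq_or_lt with h0 | h0
        · rw [← h0, mul_zero] at k1
          linarith
        · exact h0
      rw [uu, norm_div, div_le_iff₀ k3]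
      have k4 := mul_le_mul_of_nonneg_left k1 (norm_nonneg ((γ i).ze 1))
      have k5 : ‖(γ i).ze 1‖ * ‖(γ i).ze 1‖ ≤ (M / ρ) ^ 2 := by
        rw [sq]; exact mul_self_le_mul_self (norm_nonneg _) k2
      nlinarith
    have b4 : ‖(fderiv ℂ (fun q => (U q).j i) p 1).y‖ +
        uu ((U p).a i) ((γ i).ze 1) * ‖fderiv ℂ (fun q => (U q).a i) p 1‖ ≤ 2 * M ^ 3 / ρ := by
      have k1 := mul_le_mul b3 b1 (norm_nonneg _) (by positivity)
      have k2 : (M / ρ) ^ 2 * (M * ρ) = M ^ 3 / ρ := by field_simp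
      have k3 : 1 ≤ M ^ 3 / ρ := by
        rw [le_div_iff₀ hρ]
        nlinarith [one_le_pow₀ (n := 3) hM]
      rw [mul_div_assoc]
      linarith
    refine f1.trans ((mul_le_mul_of_nonneg_left b4 (by positivity)).trans (le_of_eq ?_))
    ring
  · rw [← Finset.card_univ, ← nsmul_eq_mul]
    refine (norm_sum_le _ _).trans (Finset.sum_le_card_nsmul _ _ _ fun e _ => ?_)
    obtain ⟨k1, k2⟩ := ksmall E r1 ((h p hp').1.ms.ncone e)
    have f1 := ((E.lagK e _ r1).2 _ k1 k2).2.2.2 1 (fderiv ℂ (fun q => (U q).k e) p 1).y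
    have b2 : ‖(fderiv ℂ (fun q => (U q).k e) p 1).y‖ ≤ 1 := (EJ.norm_y_le _).trans
      (cauchy (differentiableOn_pi.1 hU.k e) (S.kS e (sg S.T R')) (fun q hq =>
        (norm_le_nrm _ _ _).trans (((h q hq).1.ms.ncone e).trans c7)) hp)
    rw [e1, Complex.ofReal_re] at f1
    exact f1.trans (mul_le_of_le_one_right (by positivity) b2)

/-- the estimate for `R' ≤ Rc` -/
theorem main {rX : ℝ} (h : E.Ctx X rX) {M : ℝ} (hM : 1 ≤ M) : ∃ K₁ : ℝ, ∃ ρ₀ > 0, ∀ K', K₁ ≤ K' →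
    ∀ ρ, 0 < ρ → ρ ≤ ρ₀ → ∀ (β : Cy → ℂ) (b : J0 → ℂ) (γ : Cy → Path) (Rc R' : ℝ) (ah : Cy → ℂ)
      (rd : Cy → ℝ) (u u' : TU Cy Co), R' ≤ Rc → 1 / (M * ρ) ≤ R' → ‖β‖ < rX → ‖b‖ < E.r →
      E.GdD M K' ρ ah rd ⟨γ, 0, R', 0⟩ → (∀ i, rd i ≤ M * ρ) → E.TS X ⟨γ, 0, Rc, 0⟩ β b u →
      E.TS X ⟨γ, 0, R', 0⟩ β b u' → (∀ i, ‖u.a i - ah i‖ ≤ rd i / 2) →
      (∀ i, ‖u'.a i - ah i‖ ≤ rd i / 2) →
      ‖E.tv X ⟨γ, 0, Rc, 0⟩ β b u - E.tv X ⟨γ, 0, R', 0⟩ β b u'‖ ≤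
        2 * Fintype.card Co * E.C * Real.exp (-(R' / 5)) +
          2 * E.C * (M ^ 2 + 4) ^ 2 * Real.exp (M ^ 2 + 3) * M ^ 3 / ρ *
            ∑ i, Real.exp (-(((γ i).ze 1).re / 4)) := by
  obtain ⟨Kf, Kf0, ρf, ρf0, hf⟩ := h.fin M hM
  obtain ⟨CM, CM0, ha⟩ := h.as M hM
  obtain ⟨ρa, ρa0, ha⟩ := ha 1 one_pos
  obtain ⟨CP, -, ρp, ρp0, hp⟩ := h.s2pr M hM
  obtain ⟨-, c2, -, c4, c5⟩ := consts E
  have T0 : 0 < S.T := by linarith
  refine ⟨max (2 * Kf) (8 * (CM + 1)), min (min ρf ρa) (min ρp (1 / (2 * M * S.T))),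
    by positivity, fun K' hK ρ ρ0 hρ β b γ Rc R' ah rd u u' hR hlo hβ hb hG hrd hu hu' h1 h2 => ?_⟩
  have K1 : 2 * Kf ≤ K' := (le_max_left _ _).trans hK
  have K2 : 8 * (CM + 1) ≤ K' := (le_max_right _ _).trans hK
  obtain ⟨hf1, hf2⟩ := hf ρ ρ0 (hρ.trans ((min_le_left _ _).trans (min_le_left _ _)))
  have ha := ha ρ ρ0 (hρ.trans ((min_le_left _ _).trans (min_le_right _ _)))
  have hp := hp ρ ρ0 (hρ.trans ((min_le_right _ _).trans (min_le_left _ _)))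
  have r1 := hρ.trans ((min_le_right _ _).trans (min_le_right _ _))
  rw [le_div_iff₀ (by positivity)] at r1
  have Mρ : 0 < M * ρ := by positivity
  have r2 : 2 * (M * ρ) ≤ 1 := by nlinarith
  have hT : S.T < R' := lt_of_lt_of_le (by rw [lt_div_iff₀ Mρ]; nlinarith) hlo
  have rad : ∀ i, K' * ρ ^ 2 ≤ rd i := fun i => by simpa using hG.rad i
  have rd0 : ∀ i, 0 ≤ rd i := fun i => le_trans (mul_nonneg (by linarith) (sq_nonneg _)) (rad i)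
  have gd : ∀ (R : ℝ) (ω : Co → WD) (a : Cy → ℂ), R' ≤ R → ‖ω‖ ≤ E.δ₀ →
      (∀ i, ‖a i - ah i‖ ≤ rd i) → E.Gd M ρ ⟨γ, 0, R, ω⟩ a := fun R ω a hR hω ha =>
    have g := hG.gd a ha
    ⟨g.al, g.adm, g.up, g.pre, hlo.trans hR, g.om, fun e => (norm_le_pi_norm ω e).trans hω⟩
  have z0 : ‖(0 : Co → WD)‖ ≤ E.δ₀ := by simpa using E.δ₀0.le
  obtain ⟨ωc, u₁, a1, w1, t1, v1⟩ := step1 h.restr hT hR hu fun e => by
    simpa using (hp _ β b u (gd Rc 0 _ hR z0 fun i => by linarith [h1 i, rd0 i]) hβ hb hu).nk e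
  have w2 : ∀ p ∈ ball (0 : ℂ) 4, ‖p • ωc‖ ≤ E.δ₀ := fun p hp => by
    rw [norm_smul]
    have := mul_le_mul (mem_ball_zero_iff.1 hp).le w1 (norm_nonneg _) (by norm_num)
    linarith
  have tri : ∀ (a : Cy → ℂ) i, ‖a i - ah i‖ ≤ ‖a i - u'.a i‖ + rd i / 2 := fun a i => by
    linarith [norm_sub_le_norm_sub_add_norm_sub (a i) (u'.a i) (ah i), h2 i]
  obtain ⟨U, hU, hs⟩ := hf1 ℂ (ball 0 4) (fun p => ⟨γ, 0, R', p • ωc⟩) (fun _ => β) (fun _ => b)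
    u'.a (fun i => rd i / 2)
    ⟨isOpen_ball, fun _ _ _ _ => rfl, fun i => by dsimp only; exact differentiableOn_const _,
      fun i => by dsimp only; exact differentiableOn_const _,
      by dsimp only; exact differentiableOn_const _, by fun_prop, fun i _ _ _ _ => by
        obtain ⟨t₁, k1, k2, k3⟩ := (hG.gd ah fun i => by simpa using rd0 i).pre i
        exact ⟨t₁, k1, fun t ht => ⟨k2 t ht, rfl⟩, k3⟩⟩
    (differentiableOn_const _) (differentiableOn_const _) fun p hp =>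
      ⟨⟨fun a ha => gd R' _ a le_rfl (w2 p hp) fun i => by linarith [tri a i, ha i], fun i => by
        have := mul_le_mul_of_nonneg_right K1 (sq_nonneg ρ)
        simp only [Pi.zero_apply, norm_zero]
        linarith [rad i]⟩, hβ, hb, fun i => by
        have g := gd R' 0 u'.a le_rfl z0 fun i => by linarith [h2 i, rd0 i]
        refine (ha _ β b u' g hβ hb hu' i).1.trans ?_
        have k1 : 1 / ‖Om (u'.a i) ((γ i).ze 1)‖ ≤ 1 :=
          div_le_one_of_le₀ (c4.trans ((g.adm i).big 1)) (norm_nonneg _)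
        have k2 := mul_le_mul_of_nonneg_left k1 CM0
        have k3 := mul_le_mul_of_nonneg_right K2 (sq_nonneg ρ)
        have k4 := mul_le_mul_of_nonneg_left (add_le_add_left k2 1) (sq_nonneg ρ)
        simp only [Pi.zero_apply, norm_zero]
        linarith [rad i]⟩
  have gD : ∀ ω : Co → WD, ‖ω‖ ≤ E.δ₀ → E.GdD M Kf ρ ah rd ⟨γ, 0, R', ω⟩ := fun ω hω =>
    ⟨fun a ha => gd R' ω a le_rfl hω ha, fun i => by
      have := mul_le_mul_of_nonneg_right K1 (sq_nonneg ρ)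
      have := mul_nonneg Kf0.le (sq_nonneg ρ)
      simp only [Pi.zero_apply, norm_zero]
      linarith [rad i]⟩
  have m0 : (0 : ℂ) ∈ ball (0 : ℂ) 4 := mem_ball_self (by norm_num)
  have m1 : (1 : ℂ) ∈ ball (0 : ℂ) 4 := by simp
  have q0 := hs 0 m0
  have q1 := hs 1 m1
  simp only [zero_smul] at q0
  simp only [one_smul] at q1
  have e0 : U 0 = u' := hf2 _ β b ah rd _ _ (gD 0 z0) hβ hb q0.1 hu' fun i =>
    ⟨by linarith [tri (U 0).a i, q0.2 i], by linarith [h2 i, rd0 i]⟩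
  have e1 : U 1 = u₁ := hf2 _ β b ah rd _ _ (gD ωc (by simpa using w2 1 m1)) hβ hb q1.1 t1 fun i =>
    ⟨by linarith [tri (U 1).a i, q1.2 i], by rw [a1]; linarith [h1 i, rd0 i]⟩
  have v2 := step2 h.fv hM ρ0 r2 hT.le hU (ah := u'.a) fun p hp => ⟨(hs p hp).1,
    gd R' _ _ le_rfl (w2 p hp) fun i => by linarith [tri (U p).a i, (hs p hp).2 i, rd0 i],
    fun i => by linarith [(hs p hp).2 i, hrd i, rd0 i]⟩
  rw [e0, e1] at v2
  linarith [norm_sub_le_norm_sub_add_norm_sub (E.tv X ⟨γ, 0, Rc, 0⟩ β b u)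
    (E.tv X ⟨γ, 0, R', ωc⟩ β b u₁) (E.tv X ⟨γ, 0, R', 0⟩ β b u')]

theorem mem_I (rX : ℝ) (i : Cy) : Sum.inr i ∈ (E.par rX).I :=
  Finset.mem_map_of_mem _ (Finset.mem_univ i)

theorem gdD {rX M K' ρ : ℝ} {ah : J0 ⊕ Cy → ℂ} {rd : J0 ⊕ Cy → ℝ} {x : Cfg (J0 ⊕ Cy)}
    {ξ : J0 ⊕ Cy → ℂ} (h : Good (E.par rX) M K' ρ ah rd x ξ) :
    E.GdD M K' ρ (fun i => ah (.inr i)) (fun i => rd (.inr i)) (td Co x) :=
  ⟨fun a ha => ⟨fun i => by
      linarith [norm_le_norm_add_norm_sub' (a i) (ah (.inr i)), ha i, h.sm _ (mem_I rX i)],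
    fun i => h.adm _ (mem_I rX i) _ (mem_closedBall_iff_norm.2 (ha i)),
    fun i => h.up _ (mem_I rX i), fun i => h.pre _ (mem_I rX i), h.rc.1,
    fun i => h.om _ (mem_I rX i), fun e => by simpa [td] using E.δ₀0.le⟩,
    fun i => h.rad _ (mem_I rX i)⟩

end ConeP

namespace Env

variable {S : Sys J0 Cy Co} (E : Env S) {X : XT J0 Cy} {rX : ℝ}

theorem lcone (h : E.Ctx X rX) : LCone (E.par rX) (E.Sol X) := by
  intro M hM
  obtain ⟨K₁, ρ₀, ρ0, H⟩ := ConeP.main h hM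
  obtain ⟨c₁, CX, P₀, hc⟩ := h.coord
  have c0 := E.hC
  refine ⟨K₁, 2 * Fintype.card Co * E.C +
    2 * E.C * (M ^ 2 + 4) ^ 2 * Real.exp (M ^ 2 + 3) * M ^ 3, fun K' C hK hC ε _ =>
    ⟨ρ₀, ρ0, fun ρ h0 h1 ah rd x ξ o R' o' g g' s s' f f' hω => ?_⟩⟩
  obtain ⟨π, k, s1, s2⟩ := s
  obtain ⟨π', k', s1', s2'⟩ := s'
  have e0 : (fun i => x.ω (.inr i)) = 0 := funext fun i => hω _ (ConeP.mem_I rX i)
  have G := ConeP.gdD (E := E) g
  have G' := ConeP.gdD (E := E) g'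
  simp only [td, e0] at s1 s2 s1' s2' G G'
  have hβ : ‖fun i => ξ (.inr i)‖ < rX := lt_of_le_of_lt
    ((pi_norm_le_iff_of_nonneg (norm_nonneg _)).2 fun i => norm_le_pi_norm ξ _) g.xi
  have hb : ‖fun i => ξ (.inl i)‖ < E.r := lt_of_le_of_lt
    ((pi_norm_le_iff_of_nonneg (norm_nonneg _)).2 fun i => norm_le_pi_norm ξ _)
    (lt_of_lt_of_le g.xi hc.rX1)
  have hrd : ∀ i : Cy, rd (.inr i) ≤ M * ρ := fun i => by
    linarith [g.sm _ (ConeP.mem_I rX i), norm_nonneg (ah (.inr i))]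
  have es : ∑ i ∈ (E.par rX).I, Real.exp (-(((x.γ i).ze 1).re / 4)) =
      ∑ i : Cy, Real.exp (-(((x.γ (.inr i)).ze 1).re / 4)) := Finset.sum_map _ _ _
  have p1 : 0 ≤ 2 * Fintype.card Co * E.C := by positivity
  have p2 : 0 ≤ 2 * E.C * (M ^ 2 + 4) ^ 2 * Real.exp (M ^ 2 + 3) * M ^ 3 := by positivity
  have fin : ∀ R : ℝ, 2 * Fintype.card Co * E.C * Real.exp (-(R / 5)) +
      2 * E.C * (M ^ 2 + 4) ^ 2 * Real.exp (M ^ 2 + 3) * M ^ 3 / ρ *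
        ∑ i : Cy, Real.exp (-(((x.γ (.inr i)).ze 1).re / 4)) ≤ C * Real.exp (-(R / 5)) +
      C / ρ * ∑ i : Cy, Real.exp (-(((x.γ (.inr i)).ze 1).re / 4)) := fun R => by
    gcongr <;> linarith
  rw [s2, s2', es]
  rcases le_total R' x.Rc with hR | hR
  · rw [min_eq_right hR]
    exact (H K' hK ρ h0 h1 _ _ _ _ _ _ _ _ _ hR g'.rc.1 hβ hb G' hrd s1 s1'
      (fun i => f _ (ConeP.mem_I rX i)) fun i => f' _ (ConeP.mem_I rX i)).trans (fin _)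
  · rw [min_eq_left hR, norm_sub_rev]
    exact (H K' hK ρ h0 h1 _ _ _ _ _ _ _ _ _ hR g.rc.1 hβ hb G hrd s1' s1
      (fun i => f' _ (ConeP.mem_I rX i)) fun i => f _ (ConeP.mem_I rX i)).trans (fin _)

end Env

end Vale.Agent.P218N.Glue
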