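import Vale.Agent.P218N.Glue.Stmt

/-! The glued problem: the preliminary coordinates. -/

open Filter Topology Metric Set Complex
open scoped ComplexConjugate

noncomputable section

namespace Vale.Agent.P218N.Glue

open Vale.Agent.P218N.End Vale.Agent.P218N.J

variable {J0 Cy Co : Type} [Fintype J0] [Fintype Cy] [Fintype Co]

namespace Co0

/-- conjugation as a conjugate linear map -/
def cjFL (ι : Type) : (ι → WD) →L⋆[ℂ] (ι → WD) where
  toFun := cjF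
  map_add' a b := funext fun i => map_add W.cjL (a i) (b i)
  map_smul' c a := funext fun i => map_smulₛₗ W.cjL c (a i)
  cont := continuous_pi fun i => (W.cjL (A := ℂ)).continuous.comp (continuous_apply i)

variable {S : Sys J0 Cy Co} (E : Env S)
include E

theorem T_ge : 100000 ≤ S.T := by
  have hC := E.hC
  have h1 : 1 ≤ E.C ^ 8 := one_le_pow₀ (by linarith)
  have h2 : E.ε ≤ 1 := (le_mul_of_one_le_right E.ε0.le h1).trans E.hε
  have h3 : E.δ₀ ≤ 1 := ((le_mul_of_one_le_right E.δ₀0.le h1).trans E.hδ₀).trans (E.hδ.trans h2)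
  have h4 : E.δ₁ ≤ 1 := ((le_mul_of_one_le_right E.δ₁0.le h1).trans E.hδ₁).trans h3
  have h5 : 1 ≤ E.K := by
    by_contra h
    have h6 := h1.trans E.hK
    have h7 := E.δ₁0
    nlinarith
  nlinarith [E.hT]

theorem rs {l h Q : ℝ} {R : Co → ℝ} (h1 : S.T ≤ Q) (h2 : l ≤ Q) (h3 : Q ≤ h) (h4 : ∀ e, Q ≤ R e) :
    S.RS l h (fun _ => sg S.T Q) fun e => sg S.T (R e) :=
  ⟨fun _ => ⟨(E.sub.1 _ _ h1).1, by rw [(E.sub.1 _ _ h1).2]; exact ⟨h2, h3⟩⟩, fun e =>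
    ⟨(E.sub.1 _ _ (h1.trans (h4 e))).1, by
      rw [(E.sub.1 _ _ (h1.trans (h4 e))).2]; exact h2.trans (h4 e)⟩⟩

theorem cons (h2 : E.S1cons) {l Q : ℝ} {R : Co → ℝ} {γ : Cy → Path} {γc : Co → Path}
    {a b x π j k x' π' j' k'} (a1 : S.T ≤ l) (a2 : l ≤ Q) (a3 : S.T < Q) (a4 : ∀ e, Q ≤ R e)
    (a5 : S.RS l Q γ γc) (a6 : ∀ e, ((γc e).ze 1).re ≤ R e) (a7 : ‖a‖ < E.c₀ / Q)
    (a8 : E.S1 a b (fun _ => sg S.T Q) (fun e => sg S.T (R e)) x π j k)
    (a9 : E.S1 a b γ γc x' π' j' k') : ‖x - x'‖ ≤ S.T ^ (27 / 20 : ℝ) * l ^ (-(27 / 20) : ℝ) := by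
  choose φ hφ using fun i => E.sub.2.1 (γ i) S.T Q (a5.cyl i).1 a3 (a5.cyl i).2.2
  choose ψ hψ using fun e => E.sub.2.1 (γc e) S.T (R e) (a5.cone e).1 (a3.trans_le (a4 e)) (a6 e)
  have hT : 0 ≤ S.T := le_trans (by norm_num) (T_ge E)
  refine (h2 l Q _ _ _ _ φ ψ a b x π j k x' π' j' k' a1 a2 (rs E a3.le a2 le_rfl a4) a5 hφ hψ a7
    a8 a9).trans_eq ?_
  rw [Real.div_rpow hT (hT.trans a1), Real.rpow_neg (hT.trans a1), div_eq_mul_inv]

end Co0

namespace Env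

variable {S : Sys J0 Cy Co} (E : Env S)

open Co0 in
theorem coord0 (h1 : E.S1ex) (h2 : E.S1cons) (h3 : E.S1lip) (h4 : E.S1sym) : E.Coord0 := by
  have hT := T_ge E
  have hc := E.c₀0
  obtain ⟨k₀, hk₀⟩ := pow_unbounded_of_one_lt S.T (one_lt_two (α := ℝ))
  have hk : ∀ k, k₀ ≤ k → S.T < 2 ^ k := fun k h => hk₀.trans_le (pow_le_pow_right₀ one_le_two h)
  have hrs : ∀ k, k₀ ≤ k → S.RS 0 (2 ^ k) (fun _ => sg S.T (2 ^ k : ℝ))
      fun _ => sg S.T (2 ^ k : ℝ) := fun k h =>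
    rs E (hk k h).le (by positivity) le_rfl fun _ => le_rfl
  choose! f π j kk hf _ _ _ hs using fun k (h : k₀ ≤ k) => h1 (2 ^ k) _ _ (hk k h).le (hrs k h)
  have hle : ∀ k : ℕ, (2 : ℝ) ^ k ≤ 2 ^ (k + 1) := fun k => pow_le_pow_right₀ one_le_two k.le_succ
  have hsub : ∀ (k : ℕ) (a : Cy → ℂ), ‖a‖ < E.c₀ / 2 ^ (k + 1) → ‖a‖ < E.c₀ / 2 ^ k := fun k a h =>
    h.trans_le (div_le_div_of_nonneg_left hc.le (by positivity) (hle k))
  have hTp : 0 ≤ S.T ^ (27 / 20 : ℝ) := by positivity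
  obtain ⟨g, C', C0, g1, g2, g3, g4, g5⟩ := E.zlim (Cy → ℂ) (J0 → ℂ) (Cy → WD) 1 k₀ (27 / 20) E.c₀
    E.r (E.μ + S.T ^ (27 / 20 : ℝ)) f (by norm_num) (by norm_num) hc hf
    (fun z hz => (hs k₀ le_rfl z.1 z.2 (mem_ball_zero_iff.1 hz.1)
      (mem_ball_zero_iff.1 hz.2)).xb.trans (le_add_of_nonneg_right hTp))
    (fun k h z hz => by
      have a1 := mem_ball_zero_iff.1 hz.1
      have a2 := mem_ball_zero_iff.1 hz.2
      refine (cons E h2 (hk k h).le (hle k) (hk _ (h.trans k.le_succ)) (fun _ => le_rfl)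
        (rs E (hk k h).le le_rfl (hle k) fun _ => le_rfl)
        (fun _ => by rw [(E.sub.1 _ _ (hk k h).le).2]; exact hle k) a1
        (hs _ (h.trans k.le_succ) z.1 z.2 a1 a2) (hs k h z.1 z.2 (hsub k _ a1) a2)).trans ?_
      gcongr
      exact le_add_of_nonneg_left E.μ0.le)
  have hb0 : (0 : J0 → ℂ) ∈ ball (0 : J0 → ℂ) E.r := mem_ball_self E.r0
  have hz : ∀ k : ℕ, ‖(0 : Cy → ℂ)‖ < E.c₀ / 2 ^ k := fun k => by rw [norm_zero]; positivity
  refine ⟨fun z => g 0 z + g 1 z, E.c₀ / 4, C' + 2 * (S.T ^ (27 / 20 : ℝ) * 2 ^ (27 / 20 : ℝ)),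
    max (2 * S.T) (2 ^ k₀), E.r0, le_rfl, by positivity, by linarith, by positivity,
    ((g1 0 zero_le_one).1.add (g1 1 le_rfl).1).mono (prod_mono (subset_univ _) subset_rfl),
    ?_, ?_, ?_, ?_⟩
  · intro P γ γc a b x π' j' k' hP hR ha hb hx
    have p1 : 2 * S.T ≤ P := (le_max_left _ _).trans hP
    have p0 : 0 < P := by linarith
    obtain ⟨m, m1, m2⟩ := exists_nat_pow_near (show 1 ≤ P by linarith) (one_lt_two (α := ℝ))
    have m3 : k₀ ≤ m + 1 :=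
      ((pow_lt_pow_iff_right₀ one_lt_two).1 (((le_max_right _ _).trans hP).trans_lt m2)).le
    have a1 : ‖a‖ < E.c₀ / 2 ^ (m + 1 + 1) := by
      refine ha.trans_le ?_
      rw [div_div]
      refine div_le_div_of_nonneg_left hc.le (by positivity) ?_
      rw [pow_succ, pow_succ]
      linarith
    have a2 := hsub _ _ a1
    have r1 : ∀ e, (2 : ℝ) ^ (m + 1) ≤ max (2 ^ (m + 1)) ((γc e).ze 1).re := fun e => le_max_left _ _
    obtain ⟨x₁, π₁, j₁, k₁, -, -, -, -, s₁⟩ := h1 (2 ^ (m + 1)) _ _ (hk _ m3).le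
      (rs E (hk _ m3).le (by positivity) le_rfl r1)
    have l1 : S.T ≤ P / 2 := by linarith
    have l2 : P / 2 ≤ 2 ^ (m + 1) := by linarith
    have b1 := cons E h2 l1 l2 (hk _ m3) r1 ⟨fun i => ⟨(hR.cyl i).1, (hR.cyl i).2.1,
      (hR.cyl i).2.2.trans m2.le⟩, hR.cone⟩ (fun e => le_max_right _ _) a2 (s₁ a b a2 hb) hx
    have b2 := cons E h2 l1 l2 (hk _ m3) r1 (rs E (hk _ m3).le l2 le_rfl fun _ => le_rfl)
      (fun e => by rw [(E.sub.1 _ _ (hk _ m3).le).2]; exact r1 e) a2 (s₁ a b a2 hb)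
      (hs _ m3 a b a2 hb)
    have b3 := g2 _ m3 (a, b) ⟨mem_ball_zero_iff.2 a1, mem_ball_zero_iff.2 hb⟩
    rw [Finset.sum_range_succ, Finset.sum_range_one] at b3
    have b4 : ((2 : ℝ) ^ (m + 1)) ^ (-(27 / 20) : ℝ) ≤ P ^ (-(27 / 20) : ℝ) :=
      Real.rpow_le_rpow_of_nonpos p0 m2.le (by norm_num)
    have b5 : (P / 2) ^ (-(27 / 20) : ℝ) = 2 ^ (27 / 20 : ℝ) * P ^ (-(27 / 20) : ℝ) := by
      rw [Real.div_rpow p0.le zero_le_two, Real.rpow_neg zero_le_two, div_inv_eq_mul, mul_comm]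
    rw [b5] at b1 b2
    have b6 := mul_le_mul_of_nonneg_left b4 C0
    calc _ = ‖(f (m + 1) (a, b) - (g 0 (a, b) + g 1 (a, b))) + (x₁ (a, b) - f (m + 1) (a, b)) -
          (x₁ (a, b) - x)‖ := by congr 1; abel
      _ ≤ _ := (norm_sub_le _ _).trans (add_le_add ((norm_add_le _ _).trans
          (add_le_add (b3.trans b6) b2)) b1)
      _ = _ := by ring
  · intro β β' b _ _ hb i
    have hb' := mem_ball_zero_iff.2 hb
    obtain ⟨a1, a2⟩ := g4 le_rfl b hb'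
    have hτ : 0 ≤ S.τ := by rw [Sys.τ]; linarith
    have a3 := a2 (ContinuousLinearMap.pi fun i => ((S.τ : ℂ) • (ContinuousLinearMap.proj i :
      (Cy → ℂ) →L[ℂ] ℂ)).smulRight (1 : WD)) (S.τ / 100) 2 0 one_lt_two (fun k h v hv => by
        have a4 := hsub k v (mem_ball_zero_iff.1 hv)
        rw [zero_mul, add_zero, pi_norm_le_iff_of_nonneg (by positivity)]
        exact h3 _ _ _ v b _ _ _ _ _ _ _ _ (hk k h).le (hrs k h) a4 (hs k h v b a4 hb)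
          (hs k h 0 b (hz k) hb)) (β - β')
    have a4 := a1 (β - β') β'
    rw [sub_add_cancel] at a4
    refine le_trans (le_of_eq ?_) (((norm_le_pi_norm _ i).trans a3).trans_eq (by ring))
    congr 1
    simp only [(g3 b hb' β).1, (g3 b hb' β').1, a4, Pi.add_apply, Pi.sub_apply]
    congr 1
    abel
  · have a1 : g 1 (0, 0) = 0 := by simpa using ((g1 1 le_rfl).2 0 hb0).1 0 0
    have a2 : g 0 (0, 0) = 0 := by
      refine tendsto_nhds_unique (g3 0 hb0 0).2 (tendsto_const_nhds.congr' ?_)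
      filter_upwards [eventually_ge_atTop k₀] with k h
      obtain ⟨b1, b2⟩ := h4 _ _ _ (hk k h).le (hrs k h)
      exact (b2 _ _ _ _ _ _ (hz k) b1).1 _ _ _ _ (hs k h 0 0 (hz k) (by simpa using E.r0))
    show g 0 (0, 0) + g 1 (0, 0) = 0
    rw [a1, a2, add_zero]
  · intro β b _ hb
    have a1 := g5 (starL ℂ : (Cy → ℂ) ≃L⋆[ℂ] (Cy → ℂ)) star (cjFL Cy) (fun v => norm_star v)
      norm_star fun k h z hz => by
        have b1 := mem_ball_zero_iff.1 hz.1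
        have b2 := mem_ball_zero_iff.1 hz.2
        have b3 : ‖star z.1‖ < E.c₀ / 2 ^ k := by rwa [norm_star]
        obtain ⟨-, b4⟩ := h4 _ _ _ (hk k h).le (hrs k h)
        exact (b4 _ _ _ _ _ _ b3 (hs k h _ _ b3 (by rwa [norm_star]))).1 _ _ _ _
          (b4 _ _ _ _ _ _ b1 (hs k h _ _ b1 b2)).2
    exact (congrArg₂ (· + ·) (a1 0 zero_le_one β b (mem_ball_zero_iff.2 hb))
      (a1 1 le_rfl β b (mem_ball_zero_iff.2 hb))).trans (map_add (cjFL Cy) _ _).symm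

end Env

end Vale.Agent.P218N.Glue
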