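import Vale.Agent.P218N.Glue.Fv
import Vale.Agent.P218N.End.ApiBas

/-! The glued problem: the easy fields of the interface to the block JUMP. -/

open Filter Topology Metric Set Complex

noncomputable section

namespace Vale.Agent.P218N.Glue

open Vale.Agent.P218N.End Vale.Agent.P218N.J FvP

variable {J0 Cy Co : Type} [Fintype J0] [Fintype Cy] [Fintype Co] {S : Sys J0 Cy Co} {E : Env S}
  {X : XT J0 Cy} {rX M K' ρ : ℝ}

namespace Env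

theorem mem_I (E : Env S) (rX : ℝ) (i : Cy) : (Sum.inr i : J0 ⊕ Cy) ∈ (E.par rX).I :=
  Finset.mem_map.2 ⟨i, Finset.mem_univ _, rfl⟩

theorem forall_I {q : J0 ⊕ Cy → Prop} : (∀ i ∈ (E.par rX).I, q i) ↔ ∀ i, q (.inr i) := by
  refine ⟨fun h i => h _ (E.mem_I rX i), fun h i hi => ?_⟩
  obtain ⟨i, -, rfl⟩ := Finset.mem_map.1 hi
  exact h i

theorem GdD.mono {ah : Cy → ℂ} {rd : Cy → ℝ} {d : TD Cy Co} (h : E.GdD M K' ρ ah rd d) {K₀ : ℝ}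
    (hK : K₀ ≤ K') : E.GdD M K₀ ρ ah rd d :=
  ⟨h.gd, fun i => le_trans (by gcongr) (h.rad i)⟩

theorem T_le_of {R : ℝ} (E : Env S) (hM : 1 ≤ M) (hρ : 0 < ρ) (h : ρ ≤ 1 / (M * S.T))
    (hR : 1 / (M * ρ) ≤ R) : S.T ≤ R := by
  have hT := T_pos E
  refine le_trans ?_ hR
  rw [le_div_iff₀ (by positivity)] at h ⊢
  linarith

theorem Ctx.rX_le (h : E.Ctx X rX) : rX ≤ E.r := let ⟨_, _, _, h⟩ := h.coord; h.rX1

/-- holomorphy and first variation of the value of a family of solutions -/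
theorem Ctx.fv' (h : E.Ctx X rX) {Y : Type} [NormedAddCommGroup Y] [NormedSpace ℂ Y] {U : Set Y}
    {P R : ℝ} {d : Y → TD Cy Co} {β : Y → Cy → ℂ} {b : Y → J0 → ℂ} {u : Y → TU Cy Co}
    (hd : HolD U P d) (hβ : DifferentiableOn ℂ β U) (hb : DifferentiableOn ℂ b U) (hu : HolU U u)
    (hR : S.T ≤ R) (H : ∀ p ∈ U, (d p).Rc = R ∧ ‖β p‖ < rX ∧ ‖b p‖ < E.r ∧
      E.TS X (d p) (β p) (b p) (u p) ∧ ∀ i, AdmP (1 / 100) E.K S.T ((u p).a i) ((d p).γ i)) :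
    DifferentiableOn ℂ (fun p => E.tv X (d p) (β p) (b p) (u p)) U ∧
    ∀ γ₀ : Cy → Path, (∀ p ∈ U, (d p).γ = γ₀) → ∀ p ∈ U, ∀ v,
      fderiv ℂ (fun p => E.tv X (d p) (β p) (b p) (u p)) p v =
        S.rest (b p, X (β p, b p), (u p).π)
          (fderiv ℂ (fun p => ((b p, X (β p, b p), (u p).π) : CP J0 Cy Co)) p v) +
        ∑ i, (γ₀ i).FluxCyl ((u p).a i) ((u p).j i) 1 (fderiv ℂ (fun p => (u p).a i) p v)
          (fderiv ℂ (fun p => (u p).j i) p v).y +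
        ∑ e, (sg S.T R).FluxCone (S.cc e) (S.ka e) ((u p).k e) 1
          (fderiv ℂ (fun p => (u p).k e) p v).y := by
  obtain ⟨_, _, _, hc⟩ := h.coord
  have h1 := h.fv Y U (fun p => (b p, X (β p, b p), (u p).π)) (fun p => (u p).a) (fun p => (d p).γ)
    (fun p => (u p).j) (fun _ => sg S.T R) (fun p => (u p).k) hd.op
    (hb.prodMk ((hc.hol.comp (hβ.prodMk hb) fun p hp => ⟨mem_ball_zero_iff.2 (H p hp).2.1,
      mem_ball_zero_iff.2 (H p hp).2.2.1⟩).prodMk hu.π)) hu.a hd.ze hd.g hu.j hu.k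
    (fun _ => (E.sub.1 _ _ hR).1) fun p hp => ⟨(H p hp).1 ▸ (H p hp).2.2.2.1.ms,
      fun i => ⟨(H p hp).2.2.2.1.sa i, (H p hp).2.2.2.2 i⟩⟩
  have e : ∀ p ∈ U, E.tv X (d p) (β p) (b p) (u p) = S.val (b p, X (β p, b p), (u p).π) (u p).a
      (d p).γ (u p).j (fun _ => sg S.T R) (u p).k := fun p hp => by rw [tv, (H p hp).1]
  refine ⟨h1.1.congr e, fun γ₀ hγ p hp v => ?_⟩
  rw [Filter.EventuallyEq.fderiv_eq (mem_of_superset (hd.op.mem_nhds hp) e)]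
  exact h1.2 γ₀ hγ p hp v

variable {ah : J0 ⊕ Cy → ℂ} {rd : J0 ⊕ Cy → ℝ} {x : Cfg (J0 ⊕ Cy)} {ξ : J0 ⊕ Cy → ℂ}
  {o : Out (J0 ⊕ Cy)}

theorem good_gd (h : Good (E.par rX) M K' ρ ah rd x ξ) :
    E.GdD M K' ρ (fun i => ah (.inr i)) (fun i => rd (.inr i)) (td Co x) ∧
      ‖fun i => ξ (.inr i)‖ < rX ∧ ‖fun i => ξ (.inl i)‖ < rX := by
  have h0 : 0 < rX := (norm_nonneg _).trans_lt h.xi
  refine ⟨⟨fun a ha => ⟨fun i => ?_, fun i => h.adm _ (E.mem_I rX i) _ (mem_closedBall_iff_norm.2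
    (ha i)), fun i => h.up _ (E.mem_I rX i), fun i => h.pre _ (E.mem_I rX i), h.rc.1,
    fun i => h.om _ (E.mem_I rX i), fun _ => norm_zero.trans_le E.δ₀0.le⟩,
    fun i => h.rad _ (E.mem_I rX i)⟩, (pi_norm_lt_iff h0).2 fun i =>
      (norm_le_pi_norm ξ _).trans_lt h.xi, (pi_norm_lt_iff h0).2 fun i =>
      (norm_le_pi_norm ξ _).trans_lt h.xi⟩
  linarith [norm_le_norm_add_norm_sub' (a i) (ah (.inr i)), ha i, h.sm _ (E.mem_I rX i)]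

theorem good_half (h : Good (E.par rX) M K' ρ ah rd x ξ) (h' : Half (E.par rX) ah rd o) :
    E.Gd M ρ (td Co x) fun i => o.a (.inr i) :=
  (good_gd h).1.gd _ fun i => by
    linarith [h' _ (E.mem_I rX i), norm_nonneg (o.a (.inr i) - ah (.inr i))]

theorem lex (h : E.Ctx X rX) : LEx (E.par rX) (E.Sol X) := by
  intro M hM
  obtain ⟨K₀, -, ρ₀, hρ₀, hf⟩ := h.fin M hM
  have hT := T_pos E
  refine ⟨K₀, 0, fun K' C hK _ ε _ => ⟨min ρ₀ (1 / (M * S.T)), by positivity,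
    fun ρ hρ hρ' Y _ _ U x ξ ah rd hin hcom H => ?_⟩⟩
  have hd : HolD U (1 / (M * ρ)) fun p => td Co (x p) := by
    refine ⟨hin.op, hin.rc, fun i => hin.ze _ (E.mem_I rX i), fun i => hin.g _ (E.mem_I rX i),
      differentiableOn_pi.2 fun i => hin.ω _ (E.mem_I rX i), differentiableOn_const _,
      fun i p hp q hq => ?_⟩
    obtain ⟨t₁, h1, h2⟩ := hcom _ (E.mem_I rX i)
    exact ⟨t₁, h1, fun t ht => ⟨((h2 p hp).2 t ht).1, (((h2 p hp).2 t ht).2 q hq).symm⟩,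
      (h2 p hp).1⟩
  have hβ : DifferentiableOn ℂ (fun p i => ξ p (.inr i)) U :=
    differentiableOn_pi.2 fun i => differentiableOn_pi.1 hin.xi _
  have hb : DifferentiableOn ℂ (fun p i => ξ p (.inl i)) U :=
    differentiableOn_pi.2 fun i => differentiableOn_pi.1 hin.xi _
  have g := fun p hp => good_gd (E := E) (H p hp).1
  obtain ⟨u, hu, h1⟩ := (hf ρ hρ (hρ'.trans (min_le_left _ _))).1 Y U _ _ _ _ _ hd hβ hb
    fun p hp => ⟨(g p hp).1.mono hK, (g p hp).2.1, (g p hp).2.2.trans_le h.rX_le,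
      fun i => (H p hp).2 _ (E.mem_I rX i)⟩
  refine ⟨fun p => ⟨Sum.elim 0 (u p).a, Sum.elim 0 (u p).j, E.tv X (td Co (x p))
    (fun i => ξ p (.inr i)) (fun i => ξ p (.inl i)) (u p)⟩, ⟨fun p hp => ?_,
    forall_I.2 (differentiableOn_pi.1 hu.a), forall_I.2 (differentiableOn_pi.1 hu.j)⟩,
    fun p hp => ⟨⟨(u p).π, (u p).k, (h1 p hp).1, rfl⟩, forall_I.2 (h1 p hp).2⟩⟩
  refine (h.fv' hd hβ hb hu (E.T_le_of hM hρ (hρ'.trans (min_le_right _ _)) (H p hp).1.rc.1)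
    fun q hq => ⟨hin.rc q hq p hp, (g q hq).2.1, (g q hq).2.2.trans_le h.rX_le, (h1 q hq).1,
      ((g q hq).1.gd _ fun i => ?_).adm⟩).1 p hp
  linarith [(h1 q hq).2 i, norm_nonneg ((u q).a i - ah (.inr i))]

theorem luq (h : E.Ctx X rX) : LUq (E.par rX) (E.Sol X) := by
  intro M hM
  obtain ⟨K₀, -, ρ₀, hρ₀, hf⟩ := h.fin M hM
  refine ⟨K₀, 0, fun K' C hK _ ε _ => ⟨ρ₀, hρ₀, fun ρ hρ hρ' ah rd x ξ o o' g ⟨π, k, h1, h2⟩
    ⟨π', k', h1', h2'⟩ h3 h3' => ?_⟩⟩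
  have e := (hf ρ hρ hρ').2 _ _ _ _ _ _ _ ((good_gd g).1.mono hK) (good_gd g).2.1
    ((good_gd g).2.2.trans_le h.rX_le) h1 h1' fun i => by
      have a := h3 _ (E.mem_I rX i)
      have a' := h3' _ (E.mem_I rX i)
      have := norm_nonneg (o.a (.inr i) - ah (.inr i))
      exact ⟨a.trans (by linarith), a'.trans (by linarith)⟩
  exact ⟨by rw [h2, h2', e], forall_I.2 fun i =>
    ⟨congrFun (congrArg TU.a e) i, congrFun (congrArg TU.j e) i⟩⟩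

theorem las (h : E.Ctx X rX) : LAs (E.par rX) (E.Sol X) := by
  intro M hM
  obtain ⟨CM, -, hf⟩ := h.as M hM
  refine ⟨0, CM, fun K' C _ hC ε hε => ?_⟩
  obtain ⟨ρ₀, hρ₀, hf⟩ := hf ε hε
  refine ⟨ρ₀, hρ₀, fun ρ hρ hρ' ah rd x ξ o g ⟨π, k, h1, _⟩ h3 => forall_I.2 fun i => ?_⟩
  refine (hf ρ hρ hρ' _ _ _ (tu o π k) (good_half g h3) (good_gd g).2.1
    ((good_gd g).2.2.trans_le h.rX_le) h1 i).1.trans ?_
  simp only [td, tu]
  gcongr

theorem lns (h : E.Ctx X rX) : LNs (E.par rX) (E.Sol X) := by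
  intro M hM
  refine ⟨0, 5 * E.C, fun K' C _ hC ε hε => ?_⟩
  obtain ⟨ρ₀, hρ₀, hf⟩ := h.ns M hM ε hε
  refine ⟨ρ₀, hρ₀, fun ρ hρ hρ' ah rd x ξ o g ⟨π, k, h1, _⟩ h3 => forall_I.2 fun i t ht => ?_⟩
  refine ((le_add_of_nonneg_right (norm_nonneg _)).trans (hf ρ hρ hρ' _ _ _ (tu o π k)
    (good_half g h3) (good_gd g).2.1 ((good_gd g).2.2.trans_le h.rX_le) h1 i t ht)).trans ?_
  simp only [td]
  gcongr

theorem lbdd (E : Env S) (X : XT J0 Cy) (rX : ℝ) : LBdd (E.par rX) (E.Sol X) := by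
  intro M hM
  have hT := T_pos E
  have hC : 0 ≤ E.C := by linarith [E.hC]
  refine ⟨0, E.Cb + ∑ _i : Cy, E.C * (1 + (4 + M ^ 2)) * Real.exp (4 + M ^ 2) + ∑ _e : Co, E.C,
    fun K' C _ hC' ε _ => ⟨1 / (M * S.T), by positivity,
    fun ρ hρ hρ' ah rd x ξ o g ⟨π, k, h1, h2⟩ h3 => le_trans ?_ hC'⟩⟩
  have gd := good_half g h3
  have hr := (E.sub.1 _ _ (E.T_le_of hM hρ hρ' g.rc.1)).1
  have hx : ∀ s : ℝ, 0 ≤ s → Real.exp (-s) ≤ 1 := fun s hs => Real.exp_le_one_iff.2 (by linarith)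
  rw [h2]
  refine norm_add₃_le.trans (add_le_add (add_le_add (E.core.bdd _ h1.ms.ball)
    (norm_sum_le_of_le _ fun i _ => ?_)) (norm_sum_le_of_le _ fun e _ => ?_))
  · refine ((((E.lagC S.T (KT E)).2.2 _ _ _ (4 + M ^ 2) (a_le E (h1.sa i)) (gd.adm i)
      (ms_j E h1.ms i)).2 fun t => ?_).1 0 1 zero_le_one).trans (mul_le_of_le_one_right
        (by positivity) (hx _ (by linarith [AB.T_le (by norm_num) (gd.adm i) 0])))
    have a1 : M * ρ ≤ 1 := by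
      rw [le_div_iff₀ (by positivity)] at hρ'
      nlinarith [KT E, K_ge E, mul_pos (one_pos.trans_le hM) hρ]
    have a2 : ‖((td Co x).γ i).ze t - 2‖ ≤ M / ρ + 2 :=
      (norm_sub_le _ _).trans (add_le_add (gd.up i t) Complex.norm_two.le)
    have a3 := mul_le_mul (gd.al i) a2 (norm_nonneg _) (by positivity)
    have a4 : M * ρ * (M / ρ + 2) = M ^ 2 + 2 * (M * ρ) := by field_simp
    refine (norm_add_le _ _).trans ?_
    rw [Complex.norm_two, norm_mul]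
    exact (add_le_add le_rfl a3).trans (by linarith)
  · obtain ⟨a1, a2⟩ := ms_k E h1.ms (e := e) hr
    exact (((E.lagK e _ hr).2 _ a1 a2).2.2.1 0 1 zero_le_one).trans
      (mul_le_of_le_one_right hC (hx _ (by linarith [hr.T_le 0])))

theorem lfv (h : E.Ctx X rX) : LFv (E.par rX) (E.Sol X) := by
  intro M hM
  obtain ⟨CM, -, ρ₀, hρ₀, hf⟩ := h.s2ex M hM
  have hT := T_pos E
  have hC : 0 ≤ E.C := by linarith [E.hC]
  refine ⟨0, ∑ _e : Co, 4 * E.C, fun K' C _ hC' ε _ => ⟨min ρ₀ (1 / (M * S.T)), by positivity,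
    fun ρ hρ hρ' ah rd x ξ ω o s hs hω ho H p hp => ?_⟩⟩
  have hp' : p ∈ ball (0 : ℂ) s := ball_subset_ball (half_le_self hs.le) hp
  have g := fun q hq => good_gd (E := E) (H q hq).1
  have gd := fun q hq => good_half (E := E) (H q hq).1 (H q hq).2.2
  have hR : S.T ≤ x.Rc := E.T_le_of hM hρ (hρ'.trans (min_le_right _ _)) (H p hp').1.rc.1
  have hd : HolD (ball (0 : ℂ) s) (1 / (M * ρ)) fun q => td Co (J0 := J0) ⟨x.Rc, x.γ, ω q⟩ := by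
    refine ⟨isOpen_ball, fun _ _ _ _ => rfl, fun i => differentiableOn_const (x.γ (.inr i)).ze,
      fun i => differentiableOn_const (x.γ (.inr i)).g, differentiableOn_pi.2 fun i => hω _ (E.mem_I rX i),
      differentiableOn_const _, fun i _ _ _ _ => ?_⟩
    obtain ⟨t₁, h1, h2, h3⟩ := (gd p hp').pre i
    exact ⟨t₁, h1, fun t ht => ⟨h2 t ht, rfl⟩, h3⟩
  have ha : DifferentiableOn ℂ (fun q i => (o q).a (.inr i)) (ball 0 s) :=
    differentiableOn_pi.2 fun i => ho.a _ (E.mem_I rX i)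
  obtain ⟨β, u, -, hu, h1⟩ := hf ρ hρ (hρ'.trans (min_le_left _ _)) ℂ _ _ _
    (fun _ i => ξ (.inl i)) hd ha (differentiableOn_const _)
    fun q hq => ⟨gd q hq, (g q hq).2.2.trans_le h.rX_le⟩
  have h2 : ∀ q ∈ ball (0 : ℂ) s, E.TS X (td Co ⟨x.Rc, x.γ, ω q⟩) (fun i => ξ (.inr i))
      (fun i => ξ (.inl i)) (tu (o q) (u q).π (u q).k) ∧ (o q).v = E.tv X (td Co ⟨x.Rc, x.γ, ω q⟩)
        (fun i => ξ (.inr i)) (fun i => ξ (.inl i)) (tu (o q) (u q).π (u q).k) := fun q hq => by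
    obtain ⟨π, k, a1, a2⟩ := (H q hq).2.1
    rw [← (h.s2uq _ _ _ _ (tu (o q) π k) (u q) hR (gd q hq).adm (h1 q hq).1 (g q hq).2.1
      (h1 q hq).2.1 ((g q hq).2.2.trans_le h.rX_le) a1 (h1 q hq).2.2.1).2]
    exact ⟨a1, a2⟩
  have h3 := (h.fv' (u := fun q => tu (o q) (u q).π (u q).k) hd (differentiableOn_const _)
    (differentiableOn_const _) ⟨ha, hu.π, differentiableOn_pi.2 fun i => ho.j _ (E.mem_I rX i),
      hu.k⟩ hR fun q hq => ⟨rfl, (g q hq).2.1, (g q hq).2.2.trans_le h.rX_le, (h2 q hq).1,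
      (gd q hq).adm⟩).2 (fun i => x.γ (.inr i)) (fun _ _ => rfl) p hp' 1
  have hn := isOpen_ball.mem_nhds hp'
  rw [((hasFDerivAt_const _ p).prodMk ((hasFDerivAt_const _ p).prodMk
    (hu.π.differentiableAt hn).hasFDerivAt)).fderiv, ← Filter.EventuallyEq.fderiv_eq
    (mem_of_superset hn fun q hq => (h2 q hq).2)] at h3
  obtain ⟨hr, h1'⟩ := E.sub.1 _ _ hR
  rw [show deriv (fun q => (o q).v) p = _ from h3, par, Finset.sum_map]
  refine (congrArg norm (?_ : _ = ∑ e, (sg S.T x.Rc).FluxCone (S.cc e) (S.ka e) ((u p).k e) 1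
    (fderiv ℂ (fun q => (u q).k e) p 1).y)).trans_le ((norm_sum_le_of_le _
      (n := fun _ => 4 * E.C / s * Real.exp (-(x.Rc / 5))) fun e _ => ?_).trans ?_)
  · rw [sub_eq_iff_eq_add', ContinuousLinearMap.prod_apply, ContinuousLinearMap.prod_apply,
      _root_.zero_apply, _root_.zero_apply, E.core.rest0, zero_add]
    rfl
  · obtain ⟨a1, a2⟩ := ms_k E (h2 p hp').1.ms (e := e) hr
    have hsub : ball p (s / 2) ⊆ ball 0 s := ball_subset_ball' (by linarith [mem_ball.1 hp])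
    have a3 := norm_fderiv_le_of_bdd (f := fun q => (u q).k e - S.kS e (sg S.T x.Rc)) (M := 1)
      (half_pos hs) (((differentiableOn_pi.1 hu.k e).mono hsub).sub_const _) fun q hq =>
        ((le_nrm _ _ _).trans ((h2 q (hsub hq)).1.ms.ncone e)).trans (by linarith [E.hδ, eps' E])
    rw [fderiv_sub_const] at a3
    have a4 : ‖(fderiv ℂ (fun q => (u q).k e) p 1).y‖ ≤ 4 / s :=
      (EJ.norm_y_le _).trans (((fderiv ℂ (fun q => (u q).k e) p).le_of_opNorm_le a3 1).trans_eq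
        (by rw [norm_one]; ring))
    refine (((E.lagK e _ hr).2 _ a1 a2).2.2.2 1 _).trans ?_
    rw [h1', ofReal_re]
    exact (mul_le_mul_of_nonneg_left a4 (by positivity)).trans_eq (by ring)
  · rw [← Finset.sum_mul, ← Finset.sum_div]
    gcongr

theorem sol_rep {x' : Cfg (J0 ⊕ Cy)} (h : E.Sol X x ξ o) (hR : x'.Rc = x.Rc)
    (H : ∀ i, x'.ω (.inr i) = x.ω (.inr i) ∧ (x'.γ (.inr i)).Ok ∧
      ∃ φ, Rep φ (x.γ (.inr i)) (x'.γ (.inr i)) 1) :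
    ∃ o', E.Sol X x' ξ o' ∧ o'.v = o.v ∧ o'.a = o.a := by
  obtain ⟨π, k, h1, h2⟩ := h
  have hR' : (td Co x').Rc = (td Co x).Rc := hR
  choose hω ho φ hφ using H
  have sb : ∀ i, Sub (φ i) (x.γ (.inr i)) (x'.γ (.inr i)) := fun i =>
    ⟨(hφ i).cont, (hφ i).maps, (hφ i).eq⟩
  have hK := K_ge E
  have t := fun i => E.htr _ _ _ (1 / 200) (by norm_num) (h1.adm i).ok (ho i) (sb i)
    (AB.re_g (h1.adm i)) fun t => le_trans (by linarith [KT E])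
      (AB.T_le_norm (by norm_num) (h1.adm i) t)
  have t' := fun i => (t i).2.2.2.1 _ _ _ _ (by linarith) (h1.adm i) (h1.ms.cyl i).1
  have c0 : ∀ i, φ i (cl 0) = 0 := fun i => by rw [cl_of_mem ⟨le_rfl, zero_le_one⟩, (hφ i).zero]
  have c1 : ∀ i, φ i (cl 1) = 1 := fun i => by rw [cl_of_mem ⟨zero_le_one, le_rfl⟩, (hφ i).one]
  have n1 : ∀ i f, ‖W.C 1 * cmpW (φ i) f‖ ≤ ‖W.C 1 * f‖ := fun i f =>
    ((t i).2.1 f 1 1 1 zero_le_one (fun _ _ => by simp) fun _ => by simp).trans_eq (one_mul _)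
  have pc : ∀ i s, (x'.γ (.inr i)).piC (o.a (.inr i)) ((o.j (.inr i)).cmp (φ i)) s =
      (x.γ (.inr i)).piC (o.a (.inr i)) (o.j (.inr i)) (φ i (cl s)) := fun i s =>
    (congrArg (tr s) (t' i).2.2.1).trans ((t i).1 _ s)
  have y2 : ∀ i s, tr s ((o.j (.inr i)).cmp (φ i)).y2 = tr (φ i (cl s)) (o.j (.inr i)).y2 :=
    fun i s => (t i).1 _ s
  refine ⟨⟨o.a, Sum.elim 0 fun i => (o.j (.inr i)).cmp (φ i), o.v⟩, ⟨π, k, ⟨⟨h1.ms.ball,
    fun i => ⟨(t' i).1, (t' i).2.1.trans ((congrArg _ (h1.ms.cyl i).2).trans (map_zero _))⟩,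
    fun i => le_trans (max_le_max ?_ ?_) (h1.ms.ncyl i), fun i => (h1.ms.my i).trans ?_,
    fun i => (h1.ms.mp i).trans ?_, hR' ▸ h1.ms.cone, hR' ▸ h1.ms.ncone, h1.ms.ky, hR' ▸ h1.ms.kp⟩,
    fun i => E.rp.1 _ _ _ _ _ _ _ _ (by norm_num) (h1.adm i) (ho i) (hφ i), h1.sa, fun i => ?_,
    fun i => ((pc i 1).trans ?_).trans ((h1.om i).trans (hω i).symm), hR' ▸ h1.oc⟩,
    h2.trans ?_⟩, rfl, rfl⟩
  · exact EJ.norm_le _ ((n1 i _).trans (EJ.norm_y2_le (EJ.wt 1 _)))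
      ((n1 i _).trans (EJ.norm_op_le (EJ.wt 1 _))) ((n1 i _).trans (EJ.norm_oq_le (EJ.wt 1 _)))
      ((n1 i _).trans (EJ.norm_pt_le (EJ.wt 1 _)))
  · exact (congrArg (fun f => ‖W.C 1 * f‖) (t' i).2.2.1).trans_le (n1 i _)
  · exact congrArg _ ((y2 i 0).trans (by rw [c0]; rfl)).symm
  · exact congrArg₂ _ ((y2 i 0).trans (by rw [c0]; rfl)).symm
      ((pc i 0).trans (by rw [c0]; rfl)).symm
  · exact (c_tr ..).symm.trans ((congrArg (·.c 0) (y2 i 1)).trans (by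
      rw [c1, c_tr]; exact h1.y0 i))
  · rw [c1]; rfl
  · simp only [tv, Sys.val, td, tu, hR, Sum.elim_inr]
    congr 2
    refine Finset.sum_congr rfl fun i _ => ?_
    have := E.rp2 _ _ _ _ _ _ _ le_rfl (by linarith [KT E]) ((a_le E (h1.sa i)).trans
      (one_div_le_one_div_of_le (by linarith) (by linarith))) (h1.adm i) (ho i) (sb i)
      (h1.ms.cyl i).1 ((ms_j E h1.ms i).trans (one_div_le_one_div_of_le (by norm_num)
        (by linarith [E.hC]))) 0 ⟨le_rfl, zero_le_one⟩ 1 ⟨zero_le_one, le_rfl⟩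
    rw [(hφ i).zero, (hφ i).one] at this
    exact this.symm

theorem spec0 [DecidableEq J0] [DecidableEq Cy] (h : E.Ctx X rX) (h1 : LRes (E.par rX) (E.Sol X))
    (h2 : LCone (E.par rX) (E.Sol X)) : Spec0 (E.par rX) (E.Sol X) := by
  have hK := K_ge E
  refine ⟨one_div_pos.2 (by norm_num), le_rfl, by change _ ≤ E.K; linarith, KT' E,
    let ⟨_, _, _, h⟩ := h.coord; h.rX0, E.δ₀0, E.hδ.trans (eps' E),
    fun x ξ o ⟨π, k, a, _⟩ => forall_I.2 fun i => ⟨a.ms.cyl i, (le_nrm _ _ _).trans (a.ms.ncyl i),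
      a.y0 i, ?_⟩, fun x x' ξ o a hR H => ?_, fun M hM => ?_⟩
  · have hz := fun t => le_trans (by linarith [KT E] : 1 ≤ S.T)
      (AB.T_le_norm (by norm_num) (a.adm i) t)
    have e := congrArg (·.c 0) (a.om i)
    simp only [Path.piC, c_tr] at e
    rw [(admP_pg' (by norm_num) hz (by linarith) (a.adm i)).c_piJ (a.ms.cyl i).1, EJ.c_y,
      BoundedContinuousFunction.smul_apply, a.y0 i, (admP_cv hz (by linarith) (a.adm i)).io] at e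
    refine Eq.trans ?_ e
    simp only [muCyl, td, tu]
    push_cast
    rw [smul_zero, mul_zero, add_zero]
    congr 2
    ring
  · obtain ⟨o', a1, a2, a3⟩ := sol_rep a hR fun i =>
      let b := H _ (E.mem_I rX i); ⟨b.1, b.2.2⟩
    exact ⟨o', a1, a2, fun i _ => congrFun a3 i⟩
  · obtain ⟨K1, C1, f1⟩ := lex h M hM
    obtain ⟨K2, C2, f2⟩ := luq h M hM
    obtain ⟨K3, C3, f3⟩ := h1 M hM
    obtain ⟨K4, C4, f4⟩ := lfv h M hM
    obtain ⟨K5, C5, f5⟩ := h2 M hM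
    obtain ⟨K6, C6, f6⟩ := las h M hM
    obtain ⟨K7, C7, f7⟩ := lns h M hM
    obtain ⟨K8, C8, f8⟩ := lbdd E X rX M hM
    obtain ⟨K', k0, k1, k2, k3, k4, k5, k6, k7, k8⟩ : ∃ K', 0 ≤ K' ∧ K1 ≤ K' ∧ K2 ≤ K' ∧ K3 ≤ K' ∧
        K4 ≤ K' ∧ K5 ≤ K' ∧ K6 ≤ K' ∧ K7 ≤ K' ∧ K8 ≤ K' :=
      ⟨max 0 (max K1 (max K2 (max K3 (max K4 (max K5 (max K6 (max K7 K8))))))), by simp⟩
    obtain ⟨C, c0, c1, c2, c3, c4, c5, c6, c7, c8⟩ : ∃ C, 0 ≤ C ∧ C1 ≤ C ∧ C2 ≤ C ∧ C3 ≤ C ∧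
        C4 ≤ C ∧ C5 ≤ C ∧ C6 ≤ C ∧ C7 ≤ C ∧ C8 ≤ C :=
      ⟨max 0 (max C1 (max C2 (max C3 (max C4 (max C5 (max C6 (max C7 C8))))))), by simp⟩
    refine ⟨K', C, k0, c0, fun ε hε => ?_⟩
    obtain ⟨r1, p1, g1⟩ := f1 K' C k1 c1 ε hε
    obtain ⟨r2, p2, g2⟩ := f2 K' C k2 c2 ε hε
    obtain ⟨r3, p3, g3⟩ := f3 K' C k3 c3 ε hε
    obtain ⟨r4, p4, g4⟩ := f4 K' C k4 c4 ε hε
    obtain ⟨r5, p5, g5⟩ := f5 K' C k5 c5 ε hε
    obtain ⟨r6, p6, g6⟩ := f6 K' C k6 c6 ε hε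
    obtain ⟨r7, p7, g7⟩ := f7 K' C k7 c7 ε hε
    obtain ⟨r8, p8, g8⟩ := f8 K' C k8 c8 ε hε
    refine ⟨min r1 (min r2 (min r3 (min r4 (min r5 (min r6 (min r7 r8)))))), by positivity,
      fun ρ hρ hρ' => ?_⟩
    simp only [le_min_iff] at hρ'
    obtain ⟨q1, q2, q3, q4, q5, q6, q7, q8⟩ := hρ'
    exact ⟨g1 ρ hρ q1, g2 ρ hρ q2, g3 ρ hρ q3, g4 ρ hρ q4, g5 ρ hρ q5, g6 ρ hρ q6, g7 ρ hρ q7,
      g8 ρ hρ q8⟩

end Env

end Vale.Agent.P218N.Glue
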