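import Vale.Agent.P218N.Glue.Stmt
import Vale.Agent.P218N.End.Ap

/-! Existence of matched solutions near an approximate one. -/

open Filter Topology Metric Set Complex
open scoped ComplexConjugate

noncomputable section

namespace Vale.Agent.P218N.Glue

open Vale.Agent.P218N.End Vale.Agent.P218N.J

namespace ExmP

/-- a holomorphic self map of a ball into a much smaller ball has a holomorphic fixed point -/
theorem fixed {X B : Type} [NormedAddCommGroup X] [NormedSpace ℂ X] [NormedAddCommGroup B]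
    [NormedSpace ℂ B] [CompleteSpace B] {Φ : X × B → B} {U : Set X} (hU : IsOpen U) {μ : ℝ}
    (hμ : 0 < μ) (hd : DifferentiableOn ℂ Φ (U ×ˢ ball 0 μ))
    (hm : ∀ q ∈ U ×ˢ ball (0 : B) μ, ‖Φ q‖ ≤ μ / 8) :
    ∃ z : X → B, DifferentiableOn ℂ z U ∧ ∀ y ∈ U, ‖z y‖ < μ ∧ Φ (y, z y) = z y := by
  have hsub : ball (0 : B) (μ / 2) ⊆ ball 0 μ := ball_subset_ball (by linarith)
  have hd1 : ∀ y ∈ U, DifferentiableOn ℂ (fun b => Φ (y, b)) (ball 0 μ) := fun y hy =>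
    hd.comp ((differentiableOn_const y).prodMk differentiableOn_id) fun b hb => ⟨hy, hb⟩
  obtain ⟨z, hz, h⟩ := exists_fixed (Φ := fun y b => Φ (y, b)) hU (b₀ := (0 : B)) (r := μ / 8)
    (R := μ / 2) (κ := 1 / 2) (by positivity) (by linarith) (by norm_num) (by norm_num)
    (hd.mono (prod_mono Subset.rfl hsub))
    (fun y hy b hb => mem_closedBall_zero_iff.2 (hm _ ⟨hy, hsub hb⟩)) (fun y hy b hb b' hb' => by
      refine (convex_ball (0 : B) (μ / 2)).norm_image_sub_le_of_norm_fderiv_le (𝕜 := ℂ)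
        (f := fun b => Φ (y, b)) (fun c hc => (hd1 y hy).differentiableAt
          (isOpen_ball.mem_nhds (hsub hc))) (fun c hc => ?_) hb' hb
      have h1 : ball c (μ / 2) ⊆ ball 0 μ := ball_subset_ball' (by
        rw [mem_ball] at hc
        linarith)
      refine (norm_fderiv_le_of_bdd (M := μ / 8) (by positivity) ((hd1 y hy).mono h1)
        fun w hw => hm _ ⟨hy, h1 hw⟩).trans_eq ?_
      field_simp
      norm_num)
  refine ⟨z, hz, fun y hy => ⟨?_, (h y hy).2.1⟩⟩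
  have := mem_closedBall_zero_iff.1 (h y hy).1
  linarith

theorem sf (s : ℤ → Icc (0 : ℝ) 1) (m : ℤ) : ‖(if s m = p0 then 1 else 0 : ℂ)‖ ≤ 1 := by
  split_ifs <;> simp

theorem sb (s : ℤ → Icc (0 : ℝ) 1) (m : ℤ) : ‖(if s m = p0 then 0 else 1 : ℂ)‖ ≤ 1 := by
  split_ifs <;> simp

theorem norm_fwd (s : ℤ → Icc (0 : ℝ) 1) (d : WD) : ‖fwd s d‖ ≤ ‖d‖ :=
  (norm_mult_apply_le (sf s) d).trans_eq (one_mul _)

theorem norm_bwd (s : ℤ → Icc (0 : ℝ) 1) (d : WD) : ‖bwd s d‖ ≤ ‖d‖ :=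
  (norm_mult_apply_le (sb s) d).trans_eq (one_mul _)

theorem norm_ibr (d : WD) : ‖ibr d‖ ≤ ‖d‖ := (norm_mult_apply_le sym0_le d).trans_eq (one_mul _)

theorem fwd_add_bwd (s : ℤ → Icc (0 : ℝ) 1) (d : WD) : fwd s d + bwd s d = d := by
  ext1 m
  rw [W.c_add, fwd, bwd, c_mult (sf s), c_mult (sb s)]
  split_ifs <;> simp

theorem bwd_bwd (s : ℤ → Icc (0 : ℝ) 1) (d : WD) : bwd s (bwd s d) = bwd s d := by
  ext1 m
  rw [bwd, c_mult (sb s), c_mult (sb s)]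
  split_ifs <;> simp

theorem fwd_all (d : WD) : fwd sdAll d = d := by
  ext1 m
  rw [fwd, c_mult (sf _)]
  simp [sdAll]

theorem tr_y (t : ℝ) (j : EJ) : tr t j.y = ibr (tr t j.y2) := tr_mult sym0_le t _

theorem piJ_add (Γ : Ctr) (μ : ℤ → ℝ) (j j' : EJ) : Γ.piJ μ (j + j') = Γ.piJ μ j + Γ.piJ μ j' := by
  have := Ctr.piJ_sub (Γ := Γ) (μ := μ) (j + j') j'
  rw [add_sub_cancel_right] at this
  rw [this, sub_add_cancel]

theorem differentiable_piJ (Γ : Ctr) (μ : ℤ → ℝ) : Differentiable ℂ (Γ.piJ μ) := by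
  unfold Ctr.piJ
  fun_prop

theorem norm_sqrt_sub_one (w : ℂ) : ‖Complex.sqrt w - 1‖ ≤ ‖w - 1‖ := by
  have h1 : 1 ≤ ‖Complex.sqrt w + 1‖ := by
    refine le_trans ?_ (re_le_norm _)
    have h0 : 0 ≤ (Complex.sqrt w).re := by
      rw [Complex.sqrt, show (2⁻¹ : ℂ) = 2⁻¹ from rfl, Complex.cpow_inv_two_re]
      exact Real.sqrt_nonneg _
    simpa using h0
  have h2 : w - 1 = (Complex.sqrt w - 1) * (Complex.sqrt w + 1) := by
    have : Complex.sqrt w ^ 2 = w := by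
      rw [Complex.sqrt]
      exact Complex.cpow_nat_inv_pow w two_ne_zero
    linear_combination -this
  rw [h2, norm_mul]
  exact le_mul_of_one_le_right (norm_nonneg _) h1

theorem cvY_sub (a a' ζ : ℂ) (d d' : WD) : cvY a a' ζ d - cvY a a' ζ d' = sgm a a' ζ • (d - d') := by
  simp only [cvY, smul_sub]
  abel

/-- the estimate at the start for a solution of the far problem -/
theorem ap_est {Γ : Ctr} {μ : ℤ → ℝ} {s : ℤ → Icc (0 : ℝ) 1} {φ : BC} {F : EJ → WB} {j₀ j₁ v : EJ}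
    {δ C ε A m : ℝ} {d₁ ω : WD} (h : APfor Γ μ s φ F j₀ δ C ε A) (hC : 0 ≤ C) (hδ : 0 ≤ δ)
    (h1 : Γ.IsJet j₁) (hv : Γ.IsJet v) (n1 : Γ.nrm μ 1 (j₁ - j₀) ≤ δ / 2)
    (n2 : Γ.nrm μ 1 (j₁ + v - j₀) ≤ δ) (e : F (j₁ + v) = 0)
    (b1 : bwd s (tr 1 v.y2) = bwd s d₁) (b2 : tr 1 (Γ.piJ μ v) = ω)
    (hm : Γ.dsz s φ d₁ ω (F j₁) ≤ m) :
    ‖tr 0 (Γ.piJ μ v)‖ + ‖bwd s (tr 0 v.y2)‖ ≤
      ε * ‖fwd s (tr 0 v.y2)‖ + A * ‖ibr (tr 0 v.y2)‖ + C * m := by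
  have h2 := (h (j₁ + v) j₁ (h1.add hv) h1 n2 (by linarith)).2
  rw [add_sub_cancel_left, tr_y, e, b2] at h2
  have h3 : Γ.dsz s φ (tr 1 v.y2) ω (0 - F j₁) = Γ.dsz s φ d₁ ω (F j₁) := by
    rw [Ctr.dsz, Ctr.dsz, b1, zero_sub, mul_neg, norm_neg]
  rw [h3] at h2
  have := mul_le_mul_of_nonneg_left hm hC
  linarith

variable {J0 Cy Co : Type} [Fintype J0] [Fintype Cy] [Fintype Co] {S : Sys J0 Cy Co} (E : Env S)

theorem C0 : 0 < E.C := lt_of_lt_of_le (by norm_num) E.hC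

theorem eC : E.ε * E.C ^ 2 ≤ 1 / 10 ^ 10 := by
  have h1 : (10 : ℝ) ^ 10 ≤ E.C ^ 6 := by
    calc (10 : ℝ) ^ 10 ≤ 100000 ^ 6 := by norm_num
      _ ≤ E.C ^ 6 := pow_le_pow_left₀ (by norm_num) E.hC 6
  have h2 := E.hε
  have h3 : 0 ≤ E.ε * E.C ^ 2 := mul_nonneg E.ε0.le (sq_nonneg _)
  rw [le_div_iff₀ (by norm_num)]
  nlinarith

theorem eC1 : E.ε * E.C ≤ 1 / 10 ^ 10 := by
  have h1 := eC E
  have h2 := E.hC
  have h3 := E.ε0
  nlinarith [mul_pos h3 (C0 E)]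

theorem eC0 : E.ε ≤ 1 / 10 ^ 10 := by
  have h1 := eC1 E
  have h2 := E.hC
  nlinarith [E.ε0]

theorem K_big : 100000 ≤ E.K := by
  have h1 : 1 ≤ E.C ^ 7 := one_le_pow₀ (le_trans (by norm_num) E.hC)
  have h2 : 1 ≤ E.C ^ 8 := one_le_pow₀ (le_trans (by norm_num) E.hC)
  have h3 : E.δ₀ ≤ 1 := by nlinarith [E.hδ₀, E.hδ, eC0 E, E.δ₀0]
  have h4 : E.δ₁ ≤ 1 := by nlinarith [E.hδ₁, E.δ₁0]
  have h5 : E.C ≤ E.C ^ 8 := by nlinarith [C0 E]
  have h6 := E.hK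
  have h7 : 0 < E.K := pos_of_mul_pos_left (by linarith : 0 < E.K * E.δ₁) E.δ₁0.le
  nlinarith [E.hC]

theorem K_le : E.K ≤ S.T := by nlinarith [E.hT, K_big E, E.hC]

include E in
theorem T_big : 1000 ≤ S.T := by linarith [K_big E, K_le E]

theorem a_lt {a : ℂ} (h : ‖a‖ * S.T ≤ E.ε) : ‖a‖ < 1 / (4 * S.T) := by
  rw [lt_div_iff₀ (by linarith [T_big E])]
  linarith [eC0 E]

theorem a_le {a : ℂ} (h : ‖a‖ * S.T ≤ E.ε) : ‖a‖ ≤ 1 / E.K := by
  rw [le_div_iff₀ (by linarith [K_big E])]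
  have := mul_le_mul_of_nonneg_left (K_le E) (norm_nonneg a)
  linarith [eC0 E]

include E in
theorem zero_lt : ‖(0 : ℂ)‖ < 1 / (4 * S.T) := a_lt E (by simpa using E.ε0.le)

theorem a_mul {a : ℂ} (h : ‖a‖ * S.T ≤ E.ε) : ‖a‖ * ‖(S.T : ℂ) - 2‖ ≤ E.ε := by
  have h1 : ‖(S.T : ℂ) - 2‖ ≤ S.T := by
    rw [← ofReal_ofNat, ← ofReal_sub, norm_real, Real.norm_of_nonneg (by linarith [T_big E])]
    linarith
  exact (mul_le_mul_of_nonneg_left h1 (norm_nonneg a)).trans h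

theorem sgm_le {a : ℂ} (h : ‖a‖ * S.T ≤ E.ε) : ‖sgm 0 a S.T - 1‖ ≤ E.ε := by
  have h1 := a_mul E h
  rw [← norm_mul] at h1
  have h2 : 1 ≤ ‖rh a S.T‖ := by
    have := norm_sub_le (rh a S.T) (a * (S.T - 2))
    rw [rh, add_sub_cancel_right, Complex.norm_ofNat] at this
    rw [rh]
    linarith [eC0 E]
  have h3 : rh a S.T ≠ 0 := norm_pos_iff.1 (by linarith)
  refine (norm_sqrt_sub_one _).trans ?_
  have h4 : rh 0 S.T / rh a S.T - 1 = -(a * (S.T - 2)) / rh a S.T := by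
    field_simp
    simp only [rh]
    ring
  rw [h4, norm_div, norm_neg]
  exact (div_le_self (norm_nonneg _) h2).trans h1

theorem cvP_lip {a : ℂ} {γ : Path} (h : ‖a‖ * S.T ≤ E.ε) (hγ : AdmP (1 / 100) E.K S.T a γ)
    (d π d' π' : WD) : ‖cvP a 0 S.T d π - cvP a 0 S.T d' π' - (π - π')‖ ≤
      E.C * E.ε * (‖π - π'‖ + ‖d - d'‖) := by
  obtain ⟨u, h1, h2, h3, -⟩ := hγ.dir 0
  have h4 := hγ.big 0
  rw [hγ.st] at h3 h4
  have h5 : tht a 0 S.T ≤ E.ε := by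
    have := a_mul E h
    rw [tht, sub_zero, rh, zero_mul, add_zero, Complex.norm_ofNat]
    linarith [E.ε0]
  have h6 := (E.pt.1 E.K a 0 S.T u d π le_rfl (by simpa using K_le E) (a_le E h)
    (a_le E (by simpa using E.ε0.le)) h1 h2 h3 h4 (by linarith [eC0 E])
    (by simp [rh])).2.2.2.2.1 d' π'
  refine h6.trans ?_
  have := C0 E
  gcongr

/-- the scale of the fast unknowns -/
def th : ℝ := 1 / (100 * E.C)

theorem th0 : 0 < th E := by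
  have := C0 E
  unfold th
  positivity

theorem C_th : E.C * th E = 1 / 100 := by
  have := C0 E
  unfold th
  field_simp

theorem th1 : th E ≤ 1 := by nlinarith [C_th E, th0 E, E.hC]

/-- the unknowns -/
abbrev ZZ (Cy Co : Type) : Type := (Cy → WD) × Dat Cy Co

/-- the parameters of the core -/
def pp (b : J0 → ℂ) (χ : (Cy → WD) → Cy → WD) (π₀ : Dat Cy Co) (z : ZZ Cy Co) : CP J0 Cy Co :=
  (b, χ z.1, π₀ + (th E : ℂ) • z.2)

/-- the data at the start of the cylindrical ends -/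
def d0 (S : Sys J0 Cy Co) (a : ℂ) (j : EJ) (p : CP J0 Cy Co) (i : Cy) : WD :=
  cvY 0 a S.T (S.dS i S.T + (S.out p).1 i) - tr 0 j.y2

/-- the data at the start of the conical ends -/
def dc (S : Sys J0 Cy Co) (k : EJ) (p : CP J0 Cy Co) (e : Co) : WD :=
  S.dK e S.T + (S.out p).2 e - tr 0 k.y2

variable {E} {s : ℤ → Icc (0 : ℝ) 1} {μ m : ℝ} {b : J0 → ℂ} {a : Cy → ℂ} {γ : Cy → Path}
  {γc : Co → Path} {φ φ' : Cy → BC} {ψ ψ' : Co → BC} {j₁ : Cy → EJ} {k₁ : Co → EJ}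
  {π₀ : Dat Cy Co} {χ : (Cy → WD) → Cy → WD} {d₁ ω : Cy → WD} {ωc : Co → WD} {z : ZZ Cy Co}

theorem norm_th (hz : ‖z‖ < μ) : ‖(th E : ℂ) • z.2‖ ≤ th E * μ := by
  rw [norm_smul, norm_real, Real.norm_of_nonneg (th0 E).le]
  exact mul_le_mul_of_nonneg_left ((norm_snd_le z).trans hz.le) (th0 E).le

theorem pp_lt (H : E.ExH s μ m b a γ γc φ φ' ψ ψ' j₁ k₁ π₀ χ d₁ ω ωc) (hz : ‖z‖ < μ) :
    ‖pp E b χ π₀ z‖ < E.r₀ := by
  have hμ : 0 < μ := (norm_nonneg z).trans_lt hz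
  refine max_lt H.hb (max_lt (H.hχ _ ((norm_fst_le z).trans_lt hz)).1 ?_)
  have h1 := norm_th (E := E) hz
  have h2 := norm_add_le π₀ ((th E : ℂ) • z.2)
  have h3 := mul_le_mul_of_nonneg_right (th1 E) hμ.le
  change ‖π₀ + (th E : ℂ) • z.2‖ < _
  linarith [H.hπ]

theorem p0_lt (H : E.ExH s μ m b a γ γc φ φ' ψ ψ' j₁ k₁ π₀ χ d₁ ω ωc) (hμ : 0 < μ) :
    ‖((b, χ 0, π₀) : CP J0 Cy Co)‖ < E.r₀ :=
  max_lt H.hb (max_lt (H.hχ 0 (by simpa using hμ)).1 (by linarith [H.hπ]))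

theorem pp_sub (H : E.ExH s μ m b a γ γc φ φ' ψ ψ' j₁ k₁ π₀ χ d₁ ω ωc) (hz : ‖z‖ < μ) :
    ‖(pp E b χ π₀ z).1 - b‖ = 0 ∧ ‖(pp E b χ π₀ z).2.1 - χ 0‖ ≤ 2 * μ ∧
      ‖(pp E b χ π₀ z).2.2 - π₀‖ ≤ th E * μ := by
  have h1 := (norm_fst_le z).trans_lt hz
  refine ⟨by simp [pp], (H.hχ _ h1).2.1.trans (by linarith), ?_⟩
  simpa only [pp, add_sub_cancel_left] using norm_th (E := E) hz

theorem m_small (hm : m * E.C ^ 4 ≤ μ) (h0 : 0 ≤ m) :
    m ≤ μ / 10 ^ 10 ∧ E.C * m ≤ μ / 10 ^ 10 ∧ E.C ^ 2 * m ≤ μ / 10 ^ 10 := by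
  have h1 : (10 : ℝ) ^ 10 ≤ E.C ^ 2 := by
    calc (10 : ℝ) ^ 10 = 100000 ^ 2 := by norm_num
      _ ≤ E.C ^ 2 := pow_le_pow_left₀ (by norm_num) E.hC 2
  have hC := E.hC
  have h2 : E.C ^ 2 * m ≤ μ / 10 ^ 10 := by
    rw [le_div_iff₀ (by norm_num)]
    have : 0 ≤ E.C ^ 2 * m := by positivity
    nlinarith
  have h3 : E.C * m ≤ E.C ^ 2 * m := mul_le_mul_of_nonneg_right (by nlinarith) h0
  have h4 : m ≤ E.C * m := le_mul_of_one_le_left h0 (by linarith)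
  exact ⟨by linarith, by linarith, h2⟩

theorem d0_le (H : E.ExH s μ m b a γ γc φ φ' ψ ψ' j₁ k₁ π₀ χ d₁ ω ωc) (hm : m * E.C ^ 4 ≤ μ)
    (hz : ‖z‖ < μ) (i : Cy) : ‖d0 S (a i) (j₁ i) (pp E b χ π₀ z) i‖ ≤ 3 * μ ∧
      ‖bwd s (z.1 i - d0 S (a i) (j₁ i) (pp E b χ π₀ z) i)‖ ≤ μ / 16 := by
  have hμ : 0 < μ := (norm_nonneg z).trans_lt hz
  have hz1 := (norm_fst_le z).trans_lt hz
  obtain ⟨e1, e2, e3⟩ := pp_sub H hz
  have h1 := E.core.lip1 _ _ (pp_lt H hz) (p0_lt H hμ) i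
  have h2 := H.my i
  have hm1 := (m_small hm ((norm_nonneg _).trans h2)).1
  have h3 := (H.hχ _ hz1).2.2 i
  have hε := eC0 E
  have hεμ : E.ε * μ ≤ μ / 10 ^ 10 := by nlinarith
  set p := pp E b χ π₀ z with hp
  set A := S.dS i S.T + (S.out p).1 i
  set B := cvY (a i) 0 S.T (tr 0 (j₁ i).y2) with hB
  set L := low (p.2.1 i - χ 0 i) with hL
  have h4 : ‖A - B - L‖ ≤ μ / 90 := by
    have e : A - B - L = ((S.out p).1 i - (S.out (b, χ 0, π₀)).1 i - L) +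
        (S.dS i S.T + (S.out (b, χ 0, π₀)).1 i - B) := by
      simp only [A]
      abel
    rw [e]
    refine (norm_add_le _ _).trans ?_
    have h5 := mul_le_mul_of_nonneg_left e2 E.ε0.le
    have h6 := mul_le_mul_of_nonneg_left e3 (C0 E).le
    rw [← mul_assoc, C_th] at h6
    simp only [e1, mul_zero, zero_add] at h1
    linarith
  have h7 : ‖L‖ ≤ 2 * μ := (norm_bwd _ _).trans ((norm_le_pi_norm (p.2.1 - χ 0) i).trans e2)
  have h8 : ‖A - B‖ ≤ 5 / 2 * μ := by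
    have := norm_add_le (A - B - L) L
    rw [sub_add_cancel] at this
    linarith
  have h9 : d0 S (a i) (j₁ i) p i = (A - B) + (sgm 0 (a i) S.T - 1) • (A - B) := by
    have h10 := E.pt2 S.T (a i) 0 (a i) (tr 0 (j₁ i).y2) 0 (T_big E) (a_lt E (H.sa i)) (zero_lt E)
      (a_lt E (H.sa i))
    have h11 : tr 0 (j₁ i).y2 = cvY 0 (a i) S.T B := by rw [hB, h10.2.2.1, h10.1]
    rw [d0, h11, cvY_sub, sub_smul, one_smul]
    abel
  have h12 : ‖(sgm 0 (a i) S.T - 1) • (A - B)‖ ≤ E.ε * (5 / 2 * μ) := by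
    rw [norm_smul]
    exact mul_le_mul (sgm_le E (H.sa i)) h8 (norm_nonneg _) E.ε0.le
  rw [h9]
  refine ⟨(norm_add_le _ _).trans (by linarith), ?_⟩
  have e : z.1 i - (A - B + (sgm 0 (a i) S.T - 1) • (A - B)) =
      -(L - z.1 i) - ((A - B - L) + (sgm 0 (a i) S.T - 1) • (A - B)) := by abel
  rw [e, map_sub, map_neg]
  refine (norm_sub_le _ _).trans ?_
  rw [norm_neg]
  have h13 := (norm_bwd s _).trans (norm_add_le (A - B - L) ((sgm 0 (a i) S.T - 1) • (A - B)))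
  have h14 : ‖bwd s (L - z.1 i)‖ ≤ μ / 20 := h3.trans (by linarith)
  linarith

theorem dc_le (H : E.ExH s μ m b a γ γc φ φ' ψ ψ' j₁ k₁ π₀ χ d₁ ω ωc) (hm : m * E.C ^ 4 ≤ μ)
    (hz : ‖z‖ < μ) (e : Co) : ‖dc S (k₁ e) (pp E b χ π₀ z) e‖ ≤ μ ∧
      ‖ibr (dc S (k₁ e) (pp E b χ π₀ z) e)‖ ≤ m + E.ε * (3 * μ) := by
  have hμ : 0 < μ := (norm_nonneg z).trans_lt hz
  obtain ⟨e1, e2, e3⟩ := pp_sub H hz
  have h1 := E.core.lip2 _ _ (pp_lt H hz) (p0_lt H hμ) e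
  have h1' := E.core.lip3 _ _ (pp_lt H hz) (p0_lt H hμ) e
  have h2 := H.ky e
  have hm1 := (m_small hm ((norm_nonneg _).trans h2)).1
  have hε := eC0 E
  have hεμ : E.ε * μ ≤ μ / 10 ^ 10 := by nlinarith
  set p := pp E b χ π₀ z with hp
  have e0 : dc S (k₁ e) p e = ((S.out p).2 e - (S.out (b, χ 0, π₀)).2 e) +
      (S.dK e S.T + (S.out (b, χ 0, π₀)).2 e - tr 0 (k₁ e).y2) := by
    simp only [dc]
    abel
  simp only [e1, mul_zero, zero_add] at h1 h1'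
  rw [e0]
  constructor
  · refine (norm_add_le _ _).trans ?_
    have h5 := mul_le_mul_of_nonneg_left e2 E.ε0.le
    have h6 := mul_le_mul_of_nonneg_left e3 (C0 E).le
    rw [← mul_assoc, C_th] at h6
    linarith
  · rw [map_add]
    refine (norm_add_le _ _).trans ?_
    have h5 := mul_le_mul_of_nonneg_right (th1 E) hμ.le
    have h6 : E.ε * (‖p.2.1 - χ 0‖ + ‖p.2.2 - π₀‖) ≤ E.ε * (3 * μ) :=
      mul_le_mul_of_nonneg_left (by linarith) E.ε0.le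
    have h7 := (norm_ibr _).trans h2
    linarith

theorem norm_div_th {d : WD} (h : ‖d‖ ≤ μ / (800 * E.C)) : ‖(th E : ℂ)⁻¹ • d‖ ≤ μ / 8 := by
  have hC := C0 E
  rw [norm_smul, norm_inv, norm_real, Real.norm_of_nonneg (th0 E).le]
  refine (mul_le_mul_of_nonneg_left h (inv_nonneg.2 (th0 E).le)).trans_eq ?_
  unfold th
  field_simp
  ring

/-- the estimates on a cylindrical end -/
theorem cyl_est (H : E.ExH s μ m b a γ γc φ φ' ψ ψ' j₁ k₁ π₀ χ d₁ ω ωc) (hm : m * E.C ^ 4 ≤ μ)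
    (hz : ‖z‖ < μ) (i : Cy) {v : EJ} (hv : ((γ i).cyl (a i)).IsJet v)
    (e : (γ i).Ecyl (a i) (j₁ i + v) = 0)
    (f : fwd s (tr 0 v.y2) = fwd s (d0 S (a i) (j₁ i) (pp E b χ π₀ z) i))
    (b1 : bwd s (tr 1 v.y2) = bwd s (d₁ i)) (b2 : tr 1 (((γ i).cyl (a i)).piJ muCyl v) = ω i)
    (n : ((γ i).cyl (a i)).nrm muCyl 1 (j₁ i + v - 0) ≤ E.δ) :
    ‖tr 0 v.y2‖ ≤ 6 * μ ∧
    ‖bwd s (z.1 i - (d0 S (a i) (j₁ i) (pp E b χ π₀ z) i - tr 0 v.y2))‖ ≤ μ / 8 ∧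
    ‖(th E : ℂ)⁻¹ • (cvP (a i) 0 S.T (tr 0 (j₁ i + v).y2) ((γ i).piC (a i) (j₁ i + v) 0) -
      S.πS i S.T - π₀.1 i)‖ ≤ μ / 8 := by
  have hμ : 0 < μ := (norm_nonneg z).trans_lt hz
  have hC := C0 E
  obtain ⟨h1, h2⟩ := d0_le H hm hz i
  have h3 := H.mp i
  obtain ⟨m1, m2, m3⟩ := m_small hm ((norm_nonneg _).trans h3)
  have h4 := ap_est (E.far.1 S.T (a i) (γ i) s (φ' i) (K_le E) (a_le E (H.sa i)) (H.adm i)
    (H.ty i).2).1 hC.le E.δ0.le (H.jet i).1 hv (by rw [sub_zero]; exact (H.jet i).2) n e b1 b2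
    (H.ds' i)
  have h5 : ‖fwd s (tr 0 v.y2)‖ ≤ 3 * μ := f ▸ (norm_fwd _ _).trans h1
  have h6 := mul_le_mul_of_nonneg_left h5 E.ε0.le
  have e0 : E.ε * μ ≤ μ / 10 ^ 10 := by nlinarith [eC0 E]
  have e1 : E.ε * E.C * μ ≤ μ / 10 ^ 10 := by nlinarith [eC1 E]
  have e2 : E.ε * E.C ^ 2 * μ ≤ μ / 10 ^ 10 := by nlinarith [eC E]
  set P := tr 0 (((γ i).cyl (a i)).piJ muCyl v) with hP
  have hP0 := norm_nonneg P
  have hb0 := norm_nonneg (bwd s (tr 0 v.y2))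
  have h7 : ‖tr 0 v.y2‖ ≤ 6 * μ := by
    have := norm_add_le (fwd s (tr 0 v.y2)) (bwd s (tr 0 v.y2))
    rw [fwd_add_bwd] at this
    linarith
  refine ⟨h7, ?_, norm_div_th ?_⟩
  · rw [← sub_add, map_add]
    exact (norm_add_le _ _).trans (by linarith)
  have h8 := cvP_lip E (H.sa i) (H.adm i) (tr 0 (j₁ i + v).y2) ((γ i).piC (a i) (j₁ i + v) 0)
    (tr 0 (j₁ i).y2) ((γ i).piC (a i) (j₁ i) 0)
  have h9 : (γ i).piC (a i) (j₁ i + v) 0 - (γ i).piC (a i) (j₁ i) 0 = P := by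
    rw [Path.piC, Path.piC, piJ_add, map_add, add_sub_cancel_left]
  have h10 : tr 0 (j₁ i + v).y2 - tr 0 (j₁ i).y2 = tr 0 v.y2 := by
    rw [EJ.add_y2, map_add, add_sub_cancel_left]
  rw [h9, h10] at h8
  set Q := cvP (a i) 0 S.T (tr 0 (j₁ i + v).y2) ((γ i).piC (a i) (j₁ i + v) 0)
  set Q₁ := cvP (a i) 0 S.T (tr 0 (j₁ i).y2) ((γ i).piC (a i) (j₁ i) 0)
  have h11 : Q - S.πS i S.T - π₀.1 i = (Q - Q₁ - P) + P - (S.πS i S.T + π₀.1 i - Q₁) := by abel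
  have h12 : ‖Q - S.πS i S.T - π₀.1 i‖ ≤ E.C * E.ε * (‖P‖ + ‖tr 0 v.y2‖) + ‖P‖ + m := by
    rw [h11]
    exact (norm_sub_le _ _).trans (add_le_add ((norm_add_le _ _).trans (by linarith)) h3)
  have h13 : E.C * E.ε * (‖P‖ + ‖tr 0 v.y2‖) ≤ E.C * E.ε * (7 * μ) :=
    mul_le_mul_of_nonneg_left (by linarith) (mul_pos hC E.ε0).le
  have h14 : ‖P‖ ≤ E.ε * (3 * μ) + E.C * m := by linarith
  rw [le_div_iff₀ (by positivity)]
  have h15 := mul_le_mul_of_nonneg_right (h12.trans (add_le_add (add_le_add h13 h14) le_rfl))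
    (show 0 ≤ 800 * E.C by positivity)
  nlinarith

/-- the estimates on a conical end -/
theorem cone_est (H : E.ExH s μ m b a γ γc φ φ' ψ ψ' j₁ k₁ π₀ χ d₁ ω ωc) (hm : m * E.C ^ 4 ≤ μ)
    (hz : ‖z‖ < μ) (e : Co) (hr : (γc e).RealP S.T) (hw : (γc e).cone.WC (ψ' e) E.Λ 0 (1 / 5))
    {v : EJ} (hv : (γc e).cone.IsJet v)
    (e' : (γc e).Econe (S.cc e) (S.ka e) (S.kd e) (k₁ e + v) = 0)
    (f : tr 0 v.y2 = dc S (k₁ e) (pp E b χ π₀ z) e)
    (b1 : bwd sdAll (tr 1 v.y2) = bwd sdAll 0)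
    (b2 : tr 1 ((γc e).cone.piJ (muCone (S.cc e)) v) = ωc e)
    (n : (γc e).cone.nrm (muCone (S.cc e)) 1 (k₁ e + v - S.kS e (γc e)) ≤ E.δ) :
    ‖(th E : ℂ)⁻¹ • ((γc e).piK (S.cc e) (k₁ e + v) 0 - S.πK e S.T - π₀.2 e)‖ ≤ μ / 8 := by
  have hμ : 0 < μ := (norm_nonneg z).trans_lt hz
  have hC := C0 E
  obtain ⟨h1, h2⟩ := dc_le H hm hz e
  have h3 := H.kp e
  obtain ⟨m1, m2, m3⟩ := m_small hm ((norm_nonneg _).trans h3)
  have h4 := ap_est (E.fcone e (γc e) (ψ' e) hr hw).1 hC.le E.δ0.le (H.kjet e).1 hv (H.kjet e).2 n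
    e' b1 b2 (H.dk' e)
  rw [fwd_all, f] at h4
  have h6 := mul_le_mul_of_nonneg_left h1 E.ε0.le
  have h7 := mul_le_mul_of_nonneg_left h2 hC.le
  have e1 : E.ε * E.C * μ ≤ μ / 10 ^ 10 := by nlinarith [eC1 E]
  have e2 : E.ε * E.C ^ 2 * μ ≤ μ / 10 ^ 10 := by nlinarith [eC E]
  set P := tr 0 ((γc e).cone.piJ (muCone (S.cc e)) v) with hP
  have h9 : (γc e).piK (S.cc e) (k₁ e + v) 0 - S.πK e S.T - π₀.2 e =
      P - (S.πK e S.T + π₀.2 e - (γc e).piK (S.cc e) (k₁ e) 0) := by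
    rw [Path.piK, Path.piK, piJ_add, map_add]
    abel
  refine norm_div_th ?_
  have h14 : ‖(γc e).piK (S.cc e) (k₁ e + v) 0 - S.πK e S.T - π₀.2 e‖ ≤
      E.ε * μ + E.C * (m + E.ε * (3 * μ)) + E.C * m + m := by
    rw [h9]
    refine (norm_sub_le _ _).trans (add_le_add ?_ h3)
    linarith [norm_nonneg (bwd sdAll (dc S (k₁ e) (pp E b χ π₀ z) e))]
  rw [le_div_iff₀ (by positivity)]
  have h15 := mul_le_mul_of_nonneg_right h14 (show 0 ≤ 800 * E.C by positivity)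
  nlinarith

end ExmP

open ExmP in
/-- existence of matched solutions near an approximate one -/
theorem Env.exm {J0 Cy Co : Type} [Fintype J0] [Fintype Cy] [Fintype Co] {S : Sys J0 Cy Co}
    (E : Env S) : E.Exm := by
  intro X _ _ U s μ m b a γ γc φ φ' ψ ψ' j₁ k₁ π₀ χ d₁ ω ωc hU hμ hm db da dze dg dφ dj dk dπ dχ
    dd dω dωc hc H
  have hC := C0 E
  set V : Set (X × ZZ Cy Co) := U ×ˢ ball 0 μ with hV
  have hVo : IsOpen V := hU.prod isOpen_ball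
  have hz : ∀ q ∈ V, ‖q.2‖ < μ := fun q hq => mem_ball_zero_iff.1 hq.2
  have lift : ∀ {F : Type} [NormedAddCommGroup F] [NormedSpace ℂ F] {f : X → F},
      DifferentiableOn ℂ f U → DifferentiableOn ℂ (fun q : X × ZZ Cy Co => f q.1) V :=
    fun h => h.comp differentiableOn_fst fun q hq => hq.1
  have lifti : ∀ {ι F : Type} [Fintype ι] [NormedAddCommGroup F] [NormedSpace ℂ F] {f : X → ι → F},
      DifferentiableOn ℂ f U → ∀ i, DifferentiableOn ℂ (fun q : X × ZZ Cy Co => f q.1 i) V :=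
    fun h i => lift (differentiableOn_pi.1 h i)
  let p : X × ZZ Cy Co → CP J0 Cy Co := fun q => pp E (b q.1) (χ q.1) (π₀ q.1) q.2
  have dp : DifferentiableOn ℂ p V := by
    refine (lift db).prodMk (DifferentiableOn.prodMk ?_ ((lift dπ).add (by fun_prop)))
    exact dχ.comp (f := fun q : X × ZZ Cy Co => (q.1, q.2.1)) (by fun_prop) fun q hq =>
      ⟨hq.1, mem_ball_zero_iff.2 ((norm_fst_le q.2).trans_lt (hz q hq))⟩
  have dout : DifferentiableOn ℂ (fun q => S.out (p q)) V :=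
    E.core.hol.comp dp fun q hq => mem_ball_zero_iff.2 (pp_lt (H _ hq.1) (hz q hq))
  have dy : ∀ {j : X × ZZ Cy Co → EJ}, DifferentiableOn ℂ j V →
      DifferentiableOn ℂ (fun q => tr 0 (j q).y2) V := fun h =>
    ((tr 0).differentiable.comp EJ.differentiable_y2).comp_differentiableOn h
  have dd0 : ∀ i, DifferentiableOn ℂ (fun q => d0 S (a q.1 i) (j₁ q.1 i) (p q) i) V := fun i =>
    ((E.pt.2 S.T (K_le E)).2.1.comp (f := fun q : X × ZZ Cy Co =>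
      (a q.1 i, S.dS i S.T + (S.out (p q)).1 i)) ((lifti da i).prodMk
        ((differentiableOn_pi.1 dout.fst i).const_add _)) fun q hq =>
      a_lt E ((H _ hq.1).sa i)).sub (dy (lifti dj i))
  have ddc : ∀ e, DifferentiableOn ℂ (fun q => dc S (k₁ q.1 e) (p q) e) V := fun e =>
    ((differentiableOn_pi.1 dout.snd e).const_add _).sub (dy (lifti dk e))
  have hfar := fun i => E.far.2 (X × ZZ Cy Co) V (fun _ => S.T) (fun q => a q.1 i)
    (fun q => γ q.1 i) s (fun q => φ q.1 i) hVo (lifti da i) (lift (dze i)) (lift (dg i))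
    (lifti dφ i) fun q hq => ⟨K_le E, a_le E ((H _ hq.1).sa i), (H _ hq.1).adm i,
      ((H _ hq.1).ty i).1⟩
  have hv := fun i => (hfar i).1 (fun q => j₁ q.1 i) (fun _ => 0) _ (fun q => d₁ q.1 i)
    (fun q => ω q.1 i) (lifti dj i) (differentiableOn_const _) (dd0 i) (lifti dd i) (lifti dω i)
    fun q hq => ⟨((H _ hq.1).jet i).1, by simpa using ((H _ hq.1).jet i).2, by
      refine le_trans ?_ ((H _ hq.1).ds i)
      have := (norm_fwd s _).trans (d0_le (H _ hq.1) hm (hz q hq) i).1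
      rw [sub_zero]
      gcongr
      linarith⟩
  have hvc := fun e => (E.fcone e (γc e) (ψ e) (hc e).1 (hc e).2.1).2 (X × ZZ Cy Co) V hVo
    (fun q => k₁ q.1 e) (fun _ => 0) _ (fun _ => 0) (fun q => ωc q.1 e) (lifti dk e)
    (differentiableOn_const _) (ddc e) (differentiableOn_const _) (lifti dωc e)
    fun q hq => ⟨((H _ hq.1).kjet e).1, ((H _ hq.1).kjet e).2, by
      refine le_trans ?_ ((H _ hq.1).dk e)
      have := (norm_fwd sdAll _).trans (dc_le (H _ hq.1) hm (hz q hq) e).1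
      rw [sub_zero]
      gcongr
      linarith⟩
  choose v dv hv using hv
  choose vc dvc hvc using hvc
  simp only [fwd_all] at hvc
  have est := fun q (hq : q ∈ V) i => cyl_est (H _ hq.1) hm (hz q hq) i (hv i q hq).1
    (hv i q hq).2.1 (hv i q hq).2.2.1 (hv i q hq).2.2.2.1 (hv i q hq).2.2.2.2.1
    (hv i q hq).2.2.2.2.2
  have estc := fun q (hq : q ∈ V) e => cone_est (H _ hq.1) hm (hz q hq) e (hc e).1 (hc e).2.2
    (hvc e q hq).1 (hvc e q hq).2.1 (hvc e q hq).2.2.1 (hvc e q hq).2.2.2.1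
    (hvc e q hq).2.2.2.2.1 (hvc e q hq).2.2.2.2.2
  let Φ : X × ZZ Cy Co → ZZ Cy Co := fun q =>
    (fun i => bwd s (q.2.1 i - (d0 S (a q.1 i) (j₁ q.1 i) (p q) i - tr 0 (v i q).y2)),
      fun i => (th E : ℂ)⁻¹ • (cvP (a q.1 i) 0 S.T (tr 0 (j₁ q.1 i + v i q).y2)
        ((γ q.1 i).piC (a q.1 i) (j₁ q.1 i + v i q) 0) - S.πS i S.T - (π₀ q.1).1 i),
      fun e => (th E : ℂ)⁻¹ • ((γc e).piK (S.cc e) (k₁ q.1 e + vc e q) 0 - S.πK e S.T -
        (π₀ q.1).2 e))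
  have dΦ : DifferentiableOn ℂ Φ V := by
    refine (differentiableOn_pi.2 fun i => ?_).prodMk ((differentiableOn_pi.2 fun i => ?_).prodMk
      (differentiableOn_pi.2 fun e => ?_))
    · exact (bwd s).differentiable.comp_differentiableOn
        (DifferentiableOn.sub (by fun_prop) ((dd0 i).sub (dy (dv i))))
    · have h1 := (lifti dj i).add (dv i)
      refine DifferentiableOn.fun_const_smul (DifferentiableOn.sub (DifferentiableOn.sub_const ?_ _)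
        (lifti dπ.fst i)) _
      exact (E.pt.2 S.T (K_le E)).1.comp (f := fun q : X × ZZ Cy Co =>
        (a q.1 i, tr 0 (j₁ q.1 i + v i q).y2, (γ q.1 i).piC (a q.1 i) (j₁ q.1 i + v i q) 0))
        ((lifti da i).prodMk ((dy h1).prodMk ((tr 0).differentiable.comp_differentiableOn
          ((hfar i).2 _ h1)))) fun q hq => a_lt E ((H _ hq.1).sa i)
    · refine DifferentiableOn.fun_const_smul (DifferentiableOn.sub (DifferentiableOn.sub_const ?_ _)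
        (lifti dπ.snd e)) _
      exact ((tr 0).differentiable.comp (differentiable_piJ _ _)).comp_differentiableOn
        ((lifti dk e).add (dvc e))
  have hμ8 : 0 ≤ μ / 8 := by positivity
  obtain ⟨z, dz, hfix⟩ := fixed hU hμ dΦ fun q hq =>
    max_le ((pi_norm_le_iff_of_nonneg hμ8).2 fun i => (est q hq i).2.1)
      (max_le ((pi_norm_le_iff_of_nonneg hμ8).2 fun i => (est q hq i).2.2)
        ((pi_norm_le_iff_of_nonneg hμ8).2 fun e => estc q hq e))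
  have hmem : ∀ x ∈ U, (x, z x) ∈ V := fun x hx => ⟨hx, mem_ball_zero_iff.2 (hfix x hx).1⟩
  have dq : DifferentiableOn ℂ (fun x => (x, z x)) U := differentiableOn_id.prodMk dz
  refine ⟨fun x => (z x).1, fun x => π₀ x + (th E : ℂ) • (z x).2, fun x i => v i (x, z x),
    fun x e => vc e (x, z x), dz.fst, dπ.add (dz.snd.fun_const_smul _),
    differentiableOn_pi.2 fun i => (dv i).comp dq hmem,
    differentiableOn_pi.2 fun e => (dvc e).comp dq hmem, fun x hx => ?_⟩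
  obtain ⟨hzx, hf⟩ := hfix x hx
  have hq := hmem x hx
  have hth : (th E : ℂ) ≠ 0 := ofReal_ne_zero.2 (th0 E).ne'
  have f1 := fun i => congrFun (congrArg Prod.fst hf) i
  have f2 := fun i => congrFun (congrArg (fun w : ZZ Cy Co => w.2.1) hf) i
  have f3 := fun e => congrFun (congrArg (fun w : ZZ Cy Co => w.2.2) hf) e
  simp only [Φ] at f1 f2 f3
  have bw : ∀ i, bwd s ((z x).1 i) = (z x).1 i := fun i => by
    conv_lhs => rw [← f1 i]
    rw [bwd_bwd, f1]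
  refine ⟨⟨pp_lt (H x hx) hzx, fun i => ⟨((H x hx).jet i).1.add (hv i _ hq).1, (hv i _ hq).2.1⟩,
    fun i => by simpa using (hv i _ hq).2.2.2.2.2, fun i => ?_, fun i => ?_,
    fun e => ⟨((H x hx).kjet e).1.add (hvc e _ hq).1, (hvc e _ hq).2.1⟩,
    fun e => (hvc e _ hq).2.2.2.2.2, fun e => ?_, fun e => ?_⟩,
    (norm_fst_le _).trans_lt hzx, ?_, bw,
    fun i => ⟨(hv i _ hq).1, (est _ hq i).1, (hv i _ hq).2.2.2.1, (hv i _ hq).2.2.2.2.1⟩,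
    fun e => ⟨(hvc e _ hq).1, ?_, (hvc e _ hq).2.2.2.2.1⟩⟩
  · have h1 := f1 i
    rw [map_sub, bw, sub_eq_self, map_sub, sub_eq_zero] at h1
    have h2 : tr 0 (v i (x, z x)).y2 = d0 S (a x i) (j₁ x i) (p (x, z x)) i := by
      rw [← fwd_add_bwd s (tr 0 (v i (x, z x)).y2), ← h1, (hv i _ hq).2.2.1, fwd_add_bwd]
    have h3 := E.pt2 S.T 0 (a x i) 0 (S.dS i S.T + (S.out (p (x, z x))).1 i) 0 (T_big E)
      (zero_lt E) (a_lt E ((H x hx).sa i)) (zero_lt E)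
    rw [EJ.add_y2, map_add, h2, d0, add_sub_cancel, h3.2.2.1, h3.1]
    rfl
  · change S.πS i S.T + ((π₀ x).1 i + (th E : ℂ) • (z x).2.1 i) = _
    rw [← f2 i, smul_inv_smul₀ hth]
    abel
  · rw [EJ.add_y2, map_add, (hvc e _ hq).2.2.1, dc, add_sub_cancel]
    rfl
  · change S.πK e S.T + ((π₀ x).2 e + (th E : ℂ) • (z x).2.2 e) = _
    rw [← f3 e, smul_inv_smul₀ hth]
    abel
  · rw [add_sub_cancel_left]
    exact (norm_th hzx).trans (mul_le_of_le_one_left hμ.le (th1 E))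
  · rw [(hvc e _ hq).2.2.1]
    exact (dc_le (H x hx) hm hzx e).1.trans (by linarith)

end Vale.Agent.P218N.Glue
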