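import Vale.Agent.P218N.Glue.Stmt
import Vale.Agent.P218N.End.Hol
import Vale.Agent.P218N.J.Cat

/-! The glued problem: existence and uniqueness for given coordinates. -/

open Filter Topology Metric Set Complex
open scoped ComplexConjugate

noncomputable section

namespace Vale.Agent.P218N.Glue

open Vale.Agent.P218N.End Vale.Agent.P218N.J

namespace FinA

/-- A holomorphic map which is almost constant on the unit ball is a contraction inside. -/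
theorem lip_of_bdd {F : Type*} [NormedAddCommGroup F] [NormedSpace ℂ F] {f : F → F} {c : F}
    (hd : DifferentiableOn ℂ f (ball 0 1)) (hb : ∀ z ∈ ball (0 : F) 1, ‖f z - c‖ ≤ 1 / 500) :
    ∀ z ∈ ball (0 : F) (7 / 8), ∀ z' ∈ ball (0 : F) (7 / 8), ‖f z - f z'‖ ≤ 1 / 20 * ‖z - z'‖ := by
  have hs : ball (0 : F) (7 / 8) ⊆ ball 0 1 := ball_subset_ball (by norm_num)
  intro z hz z' hz'
  refine (convex_ball (0 : F) (7 / 8)).norm_image_sub_le_of_norm_fderiv_le (𝕜 := ℂ)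
    (fun x hx => hd.differentiableAt (isOpen_ball.mem_nhds (hs hx))) (fun x hx => ?_) hz' hz
  have h1 : ball x (1 / 8) ⊆ ball (0 : F) 1 := by
    intro y hy
    rw [mem_ball] at *
    linarith [dist_triangle y x 0]
  have h2 := norm_fderiv_le_of_bdd (f := fun y => f y - c) (x := x) (r := 1 / 8) (M := 1 / 500)
    (by norm_num) ((hd.mono h1).sub_const c) fun y hy => hb y (h1 hy)
  rw [fderiv_sub_const] at h2
  linarith

theorem hasDerivAt_h {a ζ : ℂ} (h : Om a ζ ∈ slitPlane) :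
    HasDerivAt (fun a => a ^ 2 * sE a ζ) (2 * a * sE a ζ - a ^ 2 * ((ζ - 2) / rh a ζ)) a := by
  have h0 := slitPlane_ne_zero h
  have h1 : HasDerivAt (fun a => Om a ζ) (ζ * (ζ - 2)) a := by
    simpa [Om, rh] using (((hasDerivAt_id a).mul_const (ζ - 2)).const_add 2).const_mul ζ
  have h2 := (hasDerivAt_pow 2 a).mul ((h1.clog h).const_sub (2 * Complex.log ζ))
  refine h2.congr_deriv ?_
  have h3 : ζ ≠ 0 := left_ne_zero_of_mul h0
  have h4 : rh a ζ ≠ 0 := right_ne_zero_of_mul h0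
  simp only [sE, Om]
  field_simp
  norm_num
  ring

theorem log_le {M s : ℝ} (hM : 1 ≤ M) (hs : 0 < s) :
    Real.log (5 * M ^ 3 / s ^ 2) ≤ 6 * M ^ 2 / s := by
  have h1 : 5 * M ^ 3 / s ^ 2 ≤ (3 * M ^ 2 / s) ^ 2 := by
    rw [div_pow]
    gcongr
    nlinarith [pow_pos (zero_lt_one.trans_le hM) 3]
  have h2 := Real.log_le_log (by positivity) h1
  rw [Real.log_pow] at h2
  have h3 := Real.log_le_sub_one_of_pos (x := 3 * M ^ 2 / s) (by positivity)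
  have h4 : 6 * M ^ 2 / s = 2 * (3 * M ^ 2 / s) := by ring
  push_cast at h2
  linarith

/-- the bound of the derivative -/
theorem norm_dh {M ρ K : ℝ} {a ζ : ℂ} (hM : 1 ≤ M) (hρ : 0 < ρ)
    (hρ1 : ρ ≤ (1 / (120000 * M ^ 3)) ^ 2) (hK : 1000000 ≤ K) (ha : ‖a‖ ≤ M * ρ)
    (ha' : ‖a‖ ≤ 1 / K) (hz : K ≤ ‖ζ‖) (hz' : ‖ζ‖ ≤ M / ρ) (hO : K ≤ ‖Om a ζ‖)
    (hu : ‖a‖ ^ 2 * uu a ζ ≤ 20 * (‖a‖ + 1 / ‖ζ‖ + 1 / ‖Om a ζ‖)) :
    ‖2 * a * sE a ζ - a ^ 2 * ((ζ - 2) / rh a ζ)‖ ≤ 1 / 1000 := by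
  have hM0 : 0 < M := zero_lt_one.trans_le hM
  have hM3 : M ≤ M ^ 3 := le_self_pow₀ hM (by norm_num)
  obtain ⟨s, hs, rfl⟩ : ∃ s : ℝ, 0 < s ∧ ρ = s ^ 2 :=
    ⟨√ρ, Real.sqrt_pos.2 hρ, (Real.sq_sqrt hρ.le).symm⟩
  have hs1 : s ≤ 1 / (120000 * M ^ 3) := by
    rwa [sq_le_sq₀ hs.le (by positivity)] at hρ1
  rw [le_div_iff₀ (by positivity)] at hs1
  have hs2 : s ≤ 1 := by nlinarith
  have hK1 : 1 / K ≤ 1 / 1000000 := one_div_le_one_div_of_le (by norm_num) hK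
  have h1 : ‖a ^ 2 * ((ζ - 2) / rh a ζ)‖ ≤ 1 / 2000 := by
    have k1 : 1 / ‖ζ‖ ≤ 1 / K := one_div_le_one_div_of_le (by linarith) hz
    have k2 : 1 / ‖Om a ζ‖ ≤ 1 / K := one_div_le_one_div_of_le (by linarith) hO
    have k3 : ‖(ζ - 2) / rh a ζ‖ ≤ 2 * uu a ζ := by
      rw [uu, norm_div, norm_div, ← mul_div_assoc]
      gcongr
      have := norm_sub_le ζ 2
      rw [norm_ofNat] at this
      linarith
    rw [norm_mul, norm_pow]
    nlinarith [mul_le_mul_of_nonneg_left k3 (sq_nonneg ‖a‖)]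
  have h2 : ‖2 * a * sE a ζ‖ ≤ 1 / 2000 := by
    have k0 : 0 < M / s ^ 2 := by positivity
    have k1 : ‖rh a ζ‖ ≤ 5 * M ^ 2 := by
      have e1 := norm_add_le 2 (a * (ζ - 2))
      have e2 := norm_sub_le ζ 2
      rw [norm_mul] at e1
      rw [norm_ofNat] at e1 e2
      have e3 : ‖a‖ * ‖ζ‖ ≤ M * s ^ 2 * (M / s ^ 2) := by gcongr
      have e4 : M * s ^ 2 * (M / s ^ 2) = M ^ 2 := by field_simp
      have e5 : 1 ≤ M ^ 2 := one_le_pow₀ hM
      rw [rh]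
      nlinarith [mul_le_mul_of_nonneg_left e2 (norm_nonneg a)]
    have k2 : ‖Om a ζ‖ ≤ 5 * M ^ 3 / s ^ 2 := by
      rw [Om, norm_mul]
      calc _ ≤ M / s ^ 2 * (5 * M ^ 2) := by gcongr
        _ = _ := by ring
    have k3 : ‖ζ‖ ≤ 5 * M ^ 3 / s ^ 2 := hz'.trans (by gcongr; linarith)
    have k4 := norm_sE_le (a := a) (by linarith) k3 (by linarith) k2
    have k5 := log_le hM hs
    have k6 : ‖sE a ζ‖ ≤ 18 * M ^ 2 / s + 12 := by
      have : 18 * M ^ 2 / s = 3 * (6 * M ^ 2 / s) := by ring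
      linarith [Real.pi_le_four]
    rw [norm_mul, norm_mul, norm_ofNat]
    calc _ ≤ 2 * (M * s ^ 2) * (18 * M ^ 2 / s + 12) := by gcongr
      _ = 36 * (s * M ^ 3) + 24 * (s * M) * s := by field_simp; ring
      _ ≤ 36 * (s * M ^ 3) + 24 * (s * M ^ 3) * 1 := by gcongr
      _ ≤ _ := by linarith
  linarith [norm_sub_le (2 * a * sE a ζ) (a ^ 2 * ((ζ - 2) / rh a ζ))]

end FinA

variable {J0 Cy Co : Type} [Fintype J0] [Fintype Cy] [Fintype Co]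

namespace Env
variable {S : Sys J0 Cy Co} (E : Env S)

namespace FinP

theorem δ₀_le : E.δ₀ ≤ 1 := by
  have h1 : 1 ≤ E.C ^ 8 := one_le_pow₀ (by linarith [E.hC])
  nlinarith [E.hε, E.hδ, E.hδ₀, E.ε0, E.δ₀0]

theorem K_ge : 1000000 ≤ E.K := by
  have h0 : 1 ≤ E.C ^ 6 := one_le_pow₀ (by linarith [E.hC])
  have h1 : 1000000 ≤ E.C ^ 8 := by
    have : E.C ^ 8 = E.C ^ 2 * E.C ^ 6 := by ring
    nlinarith [E.hC]
  have h2 : E.δ₁ ≤ 1 := by nlinarith [δ₀_le E, E.hδ₁, E.δ₁0]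
  have h3 : 0 < E.K := pos_of_mul_pos_right (by linarith [E.hK]) E.δ₁0.le
  nlinarith [E.hK]

theorem K_le_T : E.K ≤ S.T := by nlinarith [E.hT, E.hC, K_ge E]

variable {E} {M K' ρ : ℝ} {ah : Cy → ℂ} {rd : Cy → ℝ} {d : TD Cy Co}

theorem rd_pos (h : E.GdD M K' ρ ah rd d) (hK : 0 < K') (hρ : 0 < ρ) (i : Cy) : 0 < rd i :=
  lt_of_lt_of_le (by positivity) (h.rad i)

theorem disc (h : E.GdD M K' ρ ah rd d) (hr : ∀ i, 0 < rd i) (i : Cy) {a : ℂ}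
    (ha : a ∈ closedBall (ah i) (rd i)) :
    ‖a‖ ≤ M * ρ ∧ AdmP (1 / 100) E.K S.T a (d.γ i) := by
  classical
  have h1 := h.gd (Function.update ah i a) fun k => by
    rcases eq_or_ne k i with rfl | hk
    · rwa [Function.update_self, ← dist_eq_norm]
    · rw [Function.update_of_ne hk, sub_self, norm_zero]
      exact (hr k).le
  have h2 := h1.al i
  have h3 := h1.adm i
  rw [Function.update_self] at h2 h3
  exact ⟨h2, h3⟩

theorem gd0 (h : E.GdD M K' ρ ah rd d) (hr : ∀ i, 0 < rd i) : E.Gd M ρ d ah :=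
  h.gd ah fun k => by
    rw [sub_self, norm_zero]
    exact (hr k).le

theorem Om_le (h : E.GdD M K' ρ ah rd d) (hr : ∀ i, 0 < rd i) (i : Cy) {a : ℂ}
    (ha : ‖a - ah i‖ ≤ rd i) :
    ‖Om a ((d.γ i).ze 1)‖ ≤ 3 * ‖Om (ah i) ((d.γ i).ze 1)‖ := by
  have h1 := rd_le_rh (a := ah i) (by linarith [K_ge E]) (fun a ha => (disc h hr i ha).2)
    (by rw [sub_self, norm_zero]; linarith [hr i]) 1
  have e : rh a ((d.γ i).ze 1) = rh (ah i) ((d.γ i).ze 1) + (a - ah i) * ((d.γ i).ze 1 - 2) := by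
    simp only [rh]
    ring
  have h2 : ‖rh a ((d.γ i).ze 1)‖ ≤ 3 * ‖rh (ah i) ((d.γ i).ze 1)‖ := by
    rw [e]
    refine (norm_add_le _ _).trans ?_
    rw [norm_mul]
    nlinarith [mul_le_mul_of_nonneg_right ha (norm_nonneg ((d.γ i).ze 1 - 2))]
  rw [Om, Om, norm_mul, norm_mul]
  nlinarith [mul_le_mul_of_nonneg_left h2 (norm_nonneg ((d.γ i).ze 1))]

theorem h_lip (h : E.GdD M K' ρ ah rd d) (hr : ∀ i, 0 < rd i) (hM : 1 ≤ M) (hρ : 0 < ρ)
    (hρ1 : ρ ≤ (1 / (120000 * M ^ 3)) ^ 2) (hρ2 : M * ρ ≤ 1 / S.T) (i : Cy) {a : ℂ}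
    (ha : ‖a - ah i‖ ≤ rd i) :
    ‖a ^ 2 * sE a ((d.γ i).ze 1) - ah i ^ 2 * sE (ah i) ((d.γ i).ze 1)‖ ≤ rd i / 1000 := by
  have hK := K_ge E
  have hT := K_le_T E
  have h1 := (convex_closedBall (ah i) (rd i)).norm_image_sub_le_of_norm_hasDerivWithin_le
    (f := fun a => a ^ 2 * sE a ((d.γ i).ze 1)) (C := 1 / 1000)
    (fun a ha => (FinA.hasDerivAt_h ((disc h hr i ha).2.slit (by norm_num) (by linarith)
      1)).hasDerivWithinAt) (fun a ha => ?_) (mem_closedBall_self (hr i).le)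
    (mem_closedBall_iff_norm.2 ha)
  · linarith
  · obtain ⟨k1, k2⟩ := disc h hr i ha
    have k3 : ‖a‖ ≤ 1 / E.K := k1.trans (hρ2.trans (one_div_le_one_div_of_le (by linarith) hT))
    exact FinA.norm_dh hM hρ hρ1 hK k1 k3
      (hT.trans ((k2.T_le (by norm_num) 1).trans (re_le_norm _))) ((gd0 h hr).up i 1) (k2.big 1)
      ((E.wt E.K S.T a _ le_rfl hT k3 k2).2.2.2.1 1).2.2

theorem G_le {CM : ℝ} (hC : 0 ≤ CM) (h : E.GdD M (1000 * (3 * CM + 1)) ρ ah rd d)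
    (hr : ∀ i, 0 < rd i) (i : Cy) {a : ℂ} (ha : ‖a - ah i‖ ≤ rd i) :
    ρ ^ 2 * (CM * (‖d.ω i‖ + ‖d.ω i‖ ^ 2 * ‖Om a ((d.γ i).ze 1)‖ +
      1 / ‖Om a ((d.γ i).ze 1)‖) + 1) ≤ rd i / 1000 := by
  have h1 := Om_le h hr i ha
  have h2 := ((gd0 h hr).om i).trans (δ₀_le E)
  have h3 : 1 / ‖Om a ((d.γ i).ze 1)‖ ≤ 1 := by
    have := (disc h hr i (mem_closedBall_iff_norm.2 ha)).2.big 1
    rw [div_le_one (by linarith [K_ge E])]
    linarith [K_ge E]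
  have h4 := h.rad i
  have h5 := mul_le_mul_of_nonneg_left h1 (sq_nonneg ‖d.ω i‖)
  have h6 : 0 ≤ ‖d.ω i‖ ^ 2 * ‖Om (ah i) ((d.γ i).ze 1)‖ := by positivity
  have h7 : CM * (‖d.ω i‖ + ‖d.ω i‖ ^ 2 * ‖Om a ((d.γ i).ze 1)‖ + 1 / ‖Om a ((d.γ i).ze 1)‖) + 1 ≤
      (3 * CM + 1) * (1 + ‖d.ω i‖ ^ 2 * ‖Om (ah i) ((d.γ i).ze 1)‖) := by
    have := mul_le_mul_of_nonneg_left (show ‖d.ω i‖ + ‖d.ω i‖ ^ 2 * ‖Om a ((d.γ i).ze 1)‖ +
      1 / ‖Om a ((d.γ i).ze 1)‖ ≤ 3 * (1 + ‖d.ω i‖ ^ 2 * ‖Om (ah i) ((d.γ i).ze 1)‖) by linarith) hC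
    linarith
  linarith [mul_le_mul_of_nonneg_left h7 (sq_nonneg ρ)]

/-- the slopes in normalised coordinates -/
def sl (ah : Cy → ℂ) (rd : Cy → ℝ) (z : Cy → ℂ) : Cy → ℂ := fun i => ah i + rd i * z i

omit [Fintype Cy] in
theorem norm_sl (hr : ∀ i, 0 < rd i) (z : Cy → ℂ) (i : Cy) :
    ‖sl ah rd z i - ah i‖ = rd i * ‖z i‖ := by
  rw [sl, add_sub_cancel_left, norm_mul, norm_real, Real.norm_of_nonneg (hr i).le]

theorem norm_sl_le (hr : ∀ i, 0 < rd i) {z : Cy → ℂ} {s : ℝ} (hz : ‖z‖ ≤ s) (i : Cy) :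
    ‖sl ah rd z i - ah i‖ ≤ rd i * s := by
  rw [norm_sl hr]
  exact mul_le_mul_of_nonneg_left ((norm_le_pi_norm z i).trans hz) (hr i).le

theorem exists_sl (hr : ∀ i, 0 < rd i) {a : Cy → ℂ} (ha : ∀ i, ‖a i - ah i‖ ≤ 3 / 4 * rd i) :
    ∃ z ∈ ball (0 : Cy → ℂ) (7 / 8), a = sl ah rd z := by
  have e : a = sl ah rd fun i => (a i - ah i) / rd i := funext fun i => by
    have : (rd i : ℂ) ≠ 0 := ofReal_ne_zero.2 (hr i).ne'
    simp only [sl]
    field_simp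
    ring
  refine ⟨_, ?_, e⟩
  rw [mem_ball_zero_iff, pi_norm_lt_iff (by norm_num)]
  intro i
  rw [norm_div, norm_real, Real.norm_of_nonneg (hr i).le, div_lt_iff₀ (hr i)]
  linarith [ha i, hr i]

/-- the fixed point map -/
def Ph (rd : Cy → ℝ) (β B z : Cy → ℂ) : Cy → ℂ := fun i => z i + (β i - B i) / rd i

omit [Fintype Cy] in
theorem Ph_eq (hr : ∀ i, 0 < rd i) {β B z : Cy → ℂ} : Ph rd β B z = z ↔ β = B := by
  refine ⟨fun h => funext fun i => ?_, fun h => funext fun i => by simp [Ph, h]⟩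
  have h1 := congrFun h i
  have : (rd i : ℂ) ≠ 0 := ofReal_ne_zero.2 (hr i).ne'
  simpa [Ph, this, sub_eq_zero] using h1

theorem Ph_near (hr : ∀ i, 0 < rd i) (β B z h h' : Cy → ℂ)
    (h1 : ∀ i, ‖sl ah rd z i + h' i - B i‖ ≤ rd i / 1000) (h2 : ∀ i, ‖h' i - h i‖ ≤ rd i / 1000) :
    ‖Ph rd β B z - fun i => (β i - ah i - h i) / rd i‖ ≤ 1 / 500 := by
  rw [pi_norm_le_iff_of_nonneg (by norm_num)]
  intro i
  have : (rd i : ℂ) ≠ 0 := ofReal_ne_zero.2 (hr i).ne'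
  have e : (Ph rd β B z - fun i => (β i - ah i - h i) / rd i) i =
      (sl ah rd z i + h' i - B i - (h' i - h i)) / rd i := by
    simp only [Ph, sl, Pi.sub_apply]
    field_simp
    ring
  rw [e, norm_div, norm_real, Real.norm_of_nonneg (hr i).le, div_le_iff₀ (hr i)]
  linarith [norm_sub_le (sl ah rd z i + h' i - B i) (h' i - h i), h1 i, h2 i]

omit [Fintype Cy] in
theorem differentiableOn_Ph {Y : Type*} [NormedAddCommGroup Y] [NormedSpace ℂ Y] {U : Set Y}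
    {β B z : Y → Cy → ℂ} (h1 : DifferentiableOn ℂ β U) (h2 : DifferentiableOn ℂ B U)
    (h3 : DifferentiableOn ℂ z U) : DifferentiableOn ℂ (fun p => Ph rd (β p) (B p) (z p)) U :=
  differentiableOn_pi.2 fun i => (differentiableOn_pi.1 h3 i).add
    (((differentiableOn_pi.1 h1 i).sub (differentiableOn_pi.1 h2 i)).mul_const _)

end FinP

open FinP

/-- existence and uniqueness for given coordinates -/
theorem fin {X : XT J0 Cy} {rX : ℝ} (h1 : E.S2ex X rX) (h2 : E.S2uq X rX) (h3 : E.AS X rX) :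
    E.Fin X rX := by
  intro M hM
  obtain ⟨CM', -, ρ₁, hρ₁, h1⟩ := h1 M hM
  obtain ⟨CM, hCM, h3⟩ := h3 M hM
  obtain ⟨ρ₂, hρ₂, h3⟩ := h3 1 one_pos
  have hM0 : 0 < M := zero_lt_one.trans_le hM
  have hT : 0 < S.T := by linarith [K_ge E, K_le_T E]
  refine ⟨1000 * (3 * CM + 1), by positivity,
    min (min ρ₁ ρ₂) (min ((1 / (120000 * M ^ 3)) ^ 2) (1 / (M * S.T))), by positivity,
    fun ρ hρ hρ0 => ?_⟩
  simp only [le_min_iff] at hρ0
  obtain ⟨⟨a1, a2⟩, a3, a4⟩ := hρ0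
  have a5 : M * ρ ≤ 1 / S.T := by
    rw [le_div_iff₀ (by positivity)] at a4 ⊢
    linarith
  have a6 : S.T ≤ 1 / (M * ρ) := by
    rw [le_div_iff₀ (by positivity)] at a4 ⊢
    linarith
  have hK' : 0 < 1000 * (3 * CM + 1) := by positivity
  have key : ∀ (Y : Type) [NormedAddCommGroup Y] [NormedSpace ℂ Y] (U : Set Y) (d : Y → TD Cy Co)
      (b : Y → J0 → ℂ) (ah : Cy → ℂ) (rd : Cy → ℝ), HolD U (1 / (M * ρ)) d →
      DifferentiableOn ℂ b U →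
      (∀ p ∈ U, E.GdD M (1000 * (3 * CM + 1)) ρ ah rd (d p) ∧ ‖b p‖ < E.r) →
      ∃ (B : Y × (Cy → ℂ) → Cy → ℂ) (u : Y × (Cy → ℂ) → TU Cy Co),
        DifferentiableOn ℂ B (U ×ˢ ball 0 1) ∧ HolU (U ×ˢ ball 0 1) u ∧ ∀ p ∈ U,
        (∀ z ∈ ball (0 : Cy → ℂ) 1, (u (p, z)).a = sl ah rd z ∧ ‖B (p, z)‖ < rX ∧
          E.TS X (d p) (B (p, z)) (b p) (u (p, z)) ∧ ∀ β, ‖Ph rd β (B (p, z)) z - fun i =>
            (β i - ah i - ah i ^ 2 * sE (ah i) (((d p).γ i).ze 1)) / rd i‖ ≤ 1 / 500) ∧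
        ∀ β, ∀ z ∈ ball (0 : Cy → ℂ) (7 / 8), ∀ z' ∈ ball (0 : Cy → ℂ) (7 / 8),
          ‖Ph rd β (B (p, z)) z - Ph rd β (B (p, z')) z'‖ ≤ 1 / 20 * ‖z - z'‖ := by
    intro Y _ _ U d b ah rd hD hb hG
    have hf : MapsTo Prod.fst (U ×ˢ ball (0 : Cy → ℂ) 1) U := fun _ h => h.1
    have hsl : ∀ p ∈ U, ∀ z ∈ ball (0 : Cy → ℂ) 1, ∀ i, ‖sl ah rd z i - ah i‖ ≤ rd i :=
      fun p hp z hz i => by
        simpa using norm_sl_le (ah := ah) (rd_pos (hG p hp).1 hK' hρ) (mem_ball_zero_iff.1 hz).le i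
    obtain ⟨B, u, hB, hu, H⟩ := h1 ρ hρ a1 (Y × (Cy → ℂ)) (U ×ˢ ball 0 1) (fun q => d q.1)
      (fun q => sl ah rd q.2) (fun q => b q.1)
      ⟨hD.op.prod isOpen_ball, fun p hp q hq => hD.rc _ hp.1 _ hq.1,
        fun i => (hD.ze i).comp differentiableOn_fst hf,
        fun i => (hD.g i).comp differentiableOn_fst hf, hD.ω.comp differentiableOn_fst hf,
        hD.ωc.comp differentiableOn_fst hf, fun i p hp q hq => hD.com i _ hp.1 _ hq.1⟩
      (differentiableOn_pi.2 fun i =>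
        ((differentiableOn_pi.1 differentiableOn_snd i).const_mul _).const_add _)
      (hb.comp differentiableOn_fst hf)
      fun q hq => ⟨(hG _ hq.1).1.gd _ (hsl _ hq.1 _ hq.2), (hG _ hq.1).2⟩
    have H2 : ∀ p ∈ U, ∀ z ∈ ball (0 : Cy → ℂ) 1, ∀ β, ‖Ph rd β (B (p, z)) z - fun i =>
        (β i - ah i - ah i ^ 2 * sE (ah i) (((d p).γ i).ze 1)) / rd i‖ ≤ 1 / 500 := by
      intro p hp z hz β
      obtain ⟨e, k1, k2, -⟩ := H (p, z) ⟨hp, hz⟩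
      have hr := rd_pos (hG p hp).1 hK' hρ
      refine Ph_near hr β _ z _ (fun i => sl ah rd z i ^ 2 * sE (sl ah rd z i) (((d p).γ i).ze 1))
        (fun i => ?_) fun i => h_lip (hG p hp).1 hr hM hρ a3 a5 i (hsl p hp z hz i)
      have k3 := (h3 ρ hρ a2 (d p) _ _ _ (e ▸ (hG p hp).1.gd _ (hsl p hp z hz)) k1 (hG p hp).2
        k2 i).1
      rw [e] at k3
      exact k3.trans (G_le hCM (hG p hp).1 hr i (hsl p hp z hz i))
    refine ⟨B, u, hB, hu, fun p hp => ⟨fun z hz => ?_, fun β => ?_⟩⟩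
    · obtain ⟨e, k1, k2, -⟩ := H (p, z) ⟨hp, hz⟩
      exact ⟨e, k1, k2, H2 p hp z hz⟩
    · exact FinA.lip_of_bdd (f := fun z => Ph rd β (B (p, z)) z)
        (differentiableOn_Ph (differentiableOn_const β)
          (hB.comp ((differentiableOn_const p).prodMk differentiableOn_id) fun z hz => ⟨hp, hz⟩)
          differentiableOn_id) fun z hz => H2 p hp z hz β
  have hs : ball (0 : Cy → ℂ) (7 / 8) ⊆ ball 0 1 := ball_subset_ball (by norm_num)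
  refine ⟨fun Y _ _ U d β b ah rd hD hβ hb hG => ?_, fun d β b ah rd u u' hG hβ hb k k' ha => ?_⟩
  · obtain ⟨B, u, hB, hu, H⟩ := key Y U d b ah rd hD hb fun p hp => ⟨(hG p hp).1, (hG p hp).2.2.1⟩
    have hin : ∀ p ∈ U, ∀ z ∈ ball (0 : Cy → ℂ) (7 / 8),
        Ph rd (β p) (B (p, z)) z ∈ closedBall (0 : Cy → ℂ) (1 / 2) := by
      intro p hp z hz
      have hr := rd_pos (hG p hp).1 hK' hρ
      have k1 := ((H p hp).1 z (hs hz)).2.2.2 (β p)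
      have k2 : ‖fun i => (β p i - ah i - ah i ^ 2 * sE (ah i) (((d p).γ i).ze 1)) / rd i‖ ≤
          1 / 4 := by
        rw [pi_norm_le_iff_of_nonneg (by norm_num)]
        intro i
        rw [norm_div, norm_real, Real.norm_of_nonneg (hr i).le, div_le_iff₀ (hr i), sub_sub,
          norm_sub_rev]
        linarith [(hG p hp).2.2.2 i]
      rw [mem_closedBall_zero_iff]
      linarith [norm_le_norm_sub_add (Ph rd (β p) (B (p, z)) z)
        fun i => (β p i - ah i - ah i ^ 2 * sE (ah i) (((d p).γ i).ze 1)) / rd i]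
    obtain ⟨z, hz, Hz⟩ := exists_fixed (Φ := fun p z => Ph rd (β p) (B (p, z)) z) hD.op
      (b₀ := 0) (R := 7 / 8) (r := 1 / 2) (κ := 1 / 20) (by norm_num) (by norm_num) (by norm_num)
      (by norm_num) (differentiableOn_Ph (hβ.comp differentiableOn_fst fun _ h => h.1)
        (hB.mono (prod_mono subset_rfl hs)) differentiableOn_snd) hin
      fun p hp => (H p hp).2 (β p)
    have hm : MapsTo (fun p => (p, z p)) U (U ×ˢ ball 0 1) := fun p hp =>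
      ⟨hp, closedBall_subset_ball (by norm_num) (Hz p hp).1⟩
    have hd : DifferentiableOn ℂ (fun p => (p, z p)) U := differentiableOn_id.prodMk hz
    refine ⟨fun p => u (p, z p), ⟨hu.a.comp hd hm, hu.π.comp hd hm, hu.j.comp hd hm,
      hu.k.comp hd hm⟩, fun p hp => ?_⟩
    have hr := rd_pos (hG p hp).1 hK' hρ
    obtain ⟨e, -, k2, -⟩ := (H p hp).1 (z p) (hm hp).2
    refine ⟨((Ph_eq hr).1 (Hz p hp).2.1).symm ▸ k2, fun i => ?_⟩
    have := norm_sl_le (ah := ah) hr (mem_closedBall_zero_iff.1 (Hz p hp).1) i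
    rw [e]
    linarith
  · have hr := rd_pos hG hK' hρ
    have g0 := gd0 hG hr
    obtain ⟨B, v, -, -, H⟩ := key ℂ univ (fun _ => d) (fun _ => b) ah rd
      ⟨isOpen_univ, fun _ _ _ _ => rfl, fun _ => differentiableOn_const _,
        fun _ => differentiableOn_const _, differentiableOn_const _, differentiableOn_const _,
        fun i _ _ _ _ => by
          obtain ⟨t, t1, t2, t3⟩ := g0.pre i
          exact ⟨t, t1, fun s hs => ⟨t2 s hs, rfl⟩, t3⟩⟩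
      (differentiableOn_const _) fun _ _ => ⟨hG, hb⟩
    obtain ⟨H1, H2⟩ := H 0 (mem_univ _)
    have hR : S.T ≤ d.Rc := a6.trans g0.rc
    have hA : ∀ w : TU Cy Co, (∀ i, ‖w.a i - ah i‖ ≤ 3 / 4 * rd i) →
        ∀ i, AdmP (1 / 100) E.K S.T (w.a i) (d.γ i) := fun w hw =>
      (hG.gd _ fun i => by linarith [hw i, hr i]).adm
    have hF : ∀ w : TU Cy Co, E.TS X d β b w → (∀ i, ‖w.a i - ah i‖ ≤ 3 / 4 * rd i) →
        ∃ z ∈ ball (0 : Cy → ℂ) (7 / 8), w.a = sl ah rd z ∧ Ph rd β (B (0, z)) z = z := by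
      intro w hw hw'
      obtain ⟨z, hz, e⟩ := exists_sl hr hw'
      obtain ⟨e', k1, k2, -⟩ := H1 z (hs hz)
      exact ⟨z, hz, e, (Ph_eq hr).2
        (h2 d β _ b w _ hR (hA w hw') (e'.trans e.symm) hβ k1 hb hw k2).1⟩
    obtain ⟨z, hz, e, f⟩ := hF u k fun i => (ha i).1
    obtain ⟨z', hz', e', f'⟩ := hF u' k' fun i => (ha i).2
    have k1 := H2 β z hz z' hz'
    rw [f, f'] at k1
    have k2 : z = z' := sub_eq_zero.1 (norm_le_zero_iff.1 (by linarith))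
    exact (h2 d β β b u u' hR (hA u fun i => (ha i).1) (by rw [e, e', k2]) hβ hβ hb k k').2

end Env

end Vale.Agent.P218N.Glue
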