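import Vale.Agent.P218N.Glue.G2C

/-! The final coordinates. -/

open Filter Topology Metric Set Complex
open scoped ComplexConjugate

noncomputable section

namespace Vale.Agent.P218N.Glue

open Vale.Agent.P218N.End Vale.Agent.P218N.J

variable {J0 Cy Co : Type} [Fintype J0] [Fintype Cy] [Fintype Co] {S : Sys J0 Cy Co}

namespace G2P

/-- the quadratic part of the slope at infinity -/
structure Gq (E : Env S) (X : XT J0 Cy) (g : (Cy → ℂ) × (J0 → ℂ) → Cy → ℂ) (C₀ C' : ℝ) (k₀ : ℕ) :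
    Prop where
  C0 : 0 ≤ C₀
  C1 : 0 ≤ C'
  T : ∀ k, k₀ ≤ k → 2 * S.T ≤ 2 ^ k
  hol : DifferentiableOn ℂ g (univ ×ˢ ball 0 E.r)
  bd : ∀ v b, ‖b‖ < E.r → ‖g (v, b)‖ ≤ C' * ‖v‖ ^ 2
  lip : ∀ v v' b, ‖b‖ < E.r → ‖g (v, b) - g (v', b)‖ ≤ C' * (‖v‖ + ‖v'‖) * ‖v - v'‖
  real : ∀ v b, ‖b‖ < E.r → g (star v, star b) = star (g (v, b))
  ex : ∀ k, k₀ ≤ k → ∀ α b, ‖α‖ < E.c₀ / 2 ^ (k + 1) → ‖b‖ < E.r → ∃ u, RT E X C₀ (2 ^ k) α b u ∧
    ∀ i, ‖sv (sg S.T (2 ^ k : ℝ)) (u.a i) (u.j i) 1 - α i - g (α, b) i‖ ≤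
      C' * ((2 : ℝ) ^ k) ^ (-(23 / 10) : ℝ)

variable {E : Env S} {X : XT J0 Cy} {η rX c₁ CX P₀ : ℝ}

theorem exists_g (h1 : E.Restr) (h2 : E.Sl) (h3 : E.CjMS) (hX : E.Coord X η rX c₁ CX P₀)
    (hS : E.S2ex X rX) : ∃ g C₀ C' k₀, Gq E X g C₀ C' k₀ := by
  obtain ⟨C₀, C0, H⟩ := fam E hS
  have N := num E
  have hT := N.T
  have hc := E.c₀0
  have t2 : Tendsto (fun k : ℕ => (2 : ℝ) ^ k) atTop atTop :=
    tendsto_pow_atTop_atTop_of_one_lt one_lt_two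
  obtain ⟨k₀, H⟩ := eventually_atTop.1 (t2.eventually (H.and ((eventually_ge_atTop (2 * S.T)).and
    (eventually_ge_atTop (E.c₀ / rX)))))
  have hk := fun k h => (H k h).2.1
  have hr : ∀ k, k₀ ≤ k → E.c₀ / 2 ^ k ≤ rX := fun k h =>
    (div_le_comm₀ (by positivity) hX.rX0).2 (H k h).2.2
  have : Nonempty ((Cy → ℂ) × (J0 → ℂ) → TU Cy Co) := ⟨fun _ => ⟨0, 0, 0, 0⟩⟩
  choose! u hu hs using fun k h => (H k h).1
  obtain ⟨f, hf⟩ : ∃ f : ℕ → (Cy → ℂ) × (J0 → ℂ) → Cy → ℂ, ∀ k z i,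
    f k z i = sv (sg S.T (2 ^ k : ℝ)) ((u k z).a i) ((u k z).j i) 1 := ⟨_, fun _ _ _ => rfl⟩
  have hle : ∀ k : ℕ, (2 : ℝ) ^ k ≤ 2 ^ (k + 1) := fun k => pow_le_pow_right₀ one_le_two k.le_succ
  have hsub : ∀ (k : ℕ) (a : Cy → ℂ), ‖a‖ < E.c₀ / 2 ^ (k + 1) → ‖a‖ < E.c₀ / 2 ^ k := fun k a h =>
    h.trans_le (div_le_div_of_nonneg_left hc.le (by positivity) (hle k))
  have hnr : ∀ k, k₀ ≤ k → ∀ α b, ‖α‖ < E.c₀ / 2 ^ k → ‖b‖ < E.r →
      ‖f k (α, b) - α‖ ≤ C₀ * ((2 : ℝ) ^ k) ^ (-(27 / 20) : ℝ) := fun k h α b a1 a2 =>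
    (pi_norm_le_iff_of_nonneg (by positivity)).2 fun i => by
      rw [Pi.sub_apply, hf]
      exact (hs k h α b a1 a2).nr i
  have hz : ∀ k : ℕ, ‖(0 : Cy → ℂ)‖ < E.c₀ / 2 ^ k := fun k => by rw [norm_zero]; positivity
  obtain ⟨g, C', C1, g1, g2, g3, g4, -⟩ := E.zlim (Cy → ℂ) (J0 → ℂ) (Cy → ℂ) 2 k₀ (23 / 10) E.c₀
    E.r (E.c₀ + (24576 + 46 * C₀)) f (by norm_num) (by norm_num) hc
    (fun k h => differentiableOn_pi.2 fun i => by
      have a1 := hk k h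
      simp only [hf]
      exact sv_hol (differentiableOn_pi.1 (hu k h).a i) (differentiableOn_pi.1 (hu k h).j i)
        (by linarith) (E.sub.1 _ _ (by linarith)).2 fun z hz => small E (by positivity)
          ((hs k h z.1 z.2 (mem_ball_zero_iff.1 hz.1) (mem_ball_zero_iff.1 hz.2)).sa i))
    (fun z hz => by
      have a1 := mem_ball_zero_iff.1 hz.1
      have a2 := hnr k₀ le_rfl z.1 z.2 a1 (mem_ball_zero_iff.1 hz.2)
      have a3 : (1 : ℝ) ≤ 2 ^ k₀ := one_le_pow₀ one_le_two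
      have a4 := mul_le_mul_of_nonneg_left
        (Real.rpow_le_one_of_one_le_of_nonpos a3 (show (-(27 / 20) : ℝ) ≤ 0 by norm_num)) C0
      linarith [norm_le_insert' (f k₀ z) z.1, div_le_self hc.le a3])
    fun k h z hz => by
      have a1 := mem_ball_zero_iff.1 hz.1
      have a2 := mem_ball_zero_iff.1 hz.2
      refine (pi_norm_le_iff_of_nonneg (by positivity)).2 fun i => ?_
      rw [Pi.sub_apply, hf, hf]
      refine ((hs k h z.1 z.2 (hsub k _ a1) a2).incr h1 h2 (hs _ (h.trans k.le_succ) z.1 z.2 a1 a2)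
        C0 (hk k h) (hle k) (by rw [pow_succ, mul_comm]) i).trans ?_
      exact mul_le_mul_of_nonneg_right (by linarith) (by positivity)
  have hg : ∀ k, k₀ ≤ k → ∀ α b, ‖α‖ < E.c₀ / 2 ^ (k + 1) → ‖b‖ < E.r →
      ‖f k (α, b) - α - g 2 (α, b)‖ ≤ C' * ((2 : ℝ) ^ k) ^ (-(23 / 10) : ℝ) := by
    intro k h α b a1 a2
    have a3 := mem_ball_zero_iff.2 a2
    have b0 : g 0 (α, b) = 0 := by
      rw [(g3 b a3 α).1]
      refine tendsto_nhds_unique (g3 b a3 α).2 (squeeze_zero_norm' ?_ (by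
        simpa using ((tendsto_rpow_neg_atTop (y := 27 / 20) (by norm_num)).comp t2).const_mul C₀))
      filter_upwards [eventually_ge_atTop k₀] with k h
      simpa using hnr k h 0 b (hz k) a2
    have b1 : g 1 (α, b) = α := by
      have := (g4 one_le_two b a3).2 (ContinuousLinearMap.id ℂ _) 0 (27 / 20) (2 * C₀)
        (by norm_num) (fun k h v hv => by
          have c1 := hnr k h v b (hsub k v (mem_ball_zero_iff.1 hv)) a2
          have c2 := hnr k h 0 b (hz k) a2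
          rw [sub_zero] at c2
          rw [ContinuousLinearMap.id_apply, sub_right_comm]
          linarith [norm_sub_le (f k (v, b) - v) (f k (0, b))]) α
      rwa [zero_mul, norm_le_zero_iff, sub_eq_zero] at this
    have := g2 k h (α, b) ⟨mem_ball_zero_iff.2 a1, a3⟩
    rwa [Finset.sum_range_succ, Finset.sum_range_succ, Finset.sum_range_one, b0, b1, zero_add,
      ← sub_sub] at this
  refine ⟨g 2, C₀, C', k₀, C0, C1, hk, (g1 2 le_rfl).1,
    fun v b h => ((g1 2 le_rfl).2 b (mem_ball_zero_iff.2 h)).2.1 v,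
    fun v v' b h => by simpa using ((g1 2 le_rfl).2 b (mem_ball_zero_iff.2 h)).2.2 v v',
    fun v b h => ?_, fun k h α b a1 a2 => ⟨u k (α, b), hs k h α b (hsub k α a1) a2, fun i => ?_⟩⟩
  · have h' : ‖star b‖ < E.r := by rwa [norm_star]
    refine sub_eq_zero.1 (hom_zero (h := fun v => g 2 (star v, star b) - star (g 2 (v, b)))
      (C := C' + C' + (24576 + 46 * C₀)) (k₀ := k₀) hc (fun t v => ?_) (fun k hk' v hv => ?_) v)
    · have e : star (t : ℂ) = t := conj_ofReal t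
      rw [star_smul, ((g1 2 le_rfl).2 _ (mem_ball_zero_iff.2 h')).1,
        ((g1 2 le_rfl).2 _ (mem_ball_zero_iff.2 h)).1, star_smul, star_pow, e, smul_sub]
    · have hv' : ‖star v‖ < E.c₀ / 2 ^ (k + 1) := by rwa [norm_star]
      have a1 := hg k hk' _ _ hv h
      have a2 := hg k hk' _ _ hv' h'
      have a3 : ‖f k (star v, star b) - star (f k (v, b))‖ ≤
          (24576 + 46 * C₀) * ((2 : ℝ) ^ k) ^ (-(23 / 10) : ℝ) := by
        refine (pi_norm_le_iff_of_nonneg (by positivity)).2 fun i => ?_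
        rw [Pi.sub_apply, Pi.star_apply, hf, hf]
        exact (hs k hk' v b (hsub k _ hv) h).real h1 h2 h3 (hs k hk' _ _ (hsub k _ hv') h') C0
          (hk k hk') (hX.real v b ((hsub k _ hv).trans_le (hr k hk')) h) i
      rw [← norm_star, star_sub, star_sub] at a1
      calc _ = ‖(star (f k (v, b)) - star v - star (g 2 (v, b))) -
            (f k (star v, star b) - star v - g 2 (star v, star b)) +
            (f k (star v, star b) - star (f k (v, b)))‖ := by congr 1; abel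
        _ ≤ _ := (norm_add_le _ _).trans (add_le_add ((norm_sub_le _ _).trans (add_le_add a1 a2)) a3)
        _ = _ := by ring
  · rw [← hf]
    exact (norm_le_pi_norm _ i).trans (hg k h α b a1 a2)

variable {g : (Cy → ℂ) × (J0 → ℂ) → Cy → ℂ} {C₀ C' s : ℝ} {k₀ : ℕ}

theorem Gq.sm (h : Gq E X g C₀ C' k₀) (h1 : C' * s ≤ 1 / 400) (h2 : s ≤ rX / 2) {β : Cy → ℂ}
    {b : J0 → ℂ} (hβ : ‖β‖ < s) (hb : ‖b‖ < E.r) :
    ‖g (β, b)‖ ≤ ‖β‖ / 400 ∧ ‖β - g (β, b)‖ < rX := by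
  have a1 := mul_le_mul_of_nonneg_left hβ.le h.C1
  have a2 : ‖g (β, b)‖ ≤ ‖β‖ / 400 := by nlinarith [h.bd β b hb, norm_nonneg β]
  exact ⟨a2, by linarith [norm_sub_le β (g (β, b)), norm_nonneg β]⟩

theorem Gq.coord (h : Gq E X g C₀ C' k₀) (hX : E.Coord X (1 / 100) rX c₁ CX P₀) (h0 : 0 < s)
    (h1 : C' * s ≤ 1 / 400) (h2 : s ≤ rX / 2) : E.Coord (fun z => X (z.1 - g z, z.2)) (1 / 50) s c₁
      (CX + 2 * S.τ * (C' * c₁ ^ 2)) (max P₀ (max 1 (c₁ / s))) := by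
  have hτ : 0 ≤ S.τ := by rw [Sys.τ]; linarith [(num E).T]
  have C1 := h.C1
  have hr : ∀ β : Cy → ℂ, ‖β‖ < s → ‖β‖ < rX := fun β a => by linarith [norm_nonneg β]
  have hn : ∀ (v : Cy → ℂ) i, ‖((S.τ : ℂ) * v i) • (1 : WD)‖ ≤ S.τ * ‖v‖ := fun v i => by
    rw [norm_smul, norm_one, mul_one, norm_mul, norm_real, Real.norm_of_nonneg hτ]
    exact mul_le_mul_of_nonneg_left (norm_le_pi_norm v i) hτ
  refine ⟨h0, by linarith [hX.rX1], hX.c₁0, hX.c₁1, add_nonneg hX.CX0 (by positivity), ?_, ?_, ?_,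
    ?_, fun β b a1 a2 => ?_⟩
  · exact hX.hol.comp ((differentiableOn_fst.sub (h.hol.mono
      (prod_mono (subset_univ _) subset_rfl))).prodMk differentiableOn_snd) fun z hz =>
      ⟨mem_ball_zero_iff.2 (h.sm h1 h2 (mem_ball_zero_iff.1 hz.1) (mem_ball_zero_iff.1 hz.2)).2,
        hz.2⟩
  · intro P γ γc a b x π j k hP hR ha hb hx
    have p1 : 1 ≤ P := ((le_max_left _ _).trans (le_max_right _ _)).trans hP
    have p0 : 0 < P := by linarith
    have a1 : ‖a‖ < s := ha.trans_le ((div_le_comm₀ p0 h0).2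
      (((le_max_right _ _).trans (le_max_right _ _)).trans hP))
    have a2 := hX.x1 P γ γc a b x π j k ((le_max_left _ _).trans hP) hR ha hb hx
    have a3 : ‖X (a, b) - X (a - g (a, b), b)‖ ≤ 2 * S.τ * ‖g (a, b)‖ := by
      refine (pi_norm_le_iff_of_nonneg (by positivity)).2 fun i => ?_
      have b1 := hX.x2 a _ b (hr a a1) (h.sm h1 h2 a1 hb).2 hb i
      rw [Pi.sub_apply, sub_sub_cancel, sub_sub_cancel] at b1
      rw [Pi.sub_apply]
      linarith [norm_le_insert' (X (a, b) i - X (a - g (a, b), b) i)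
        (((S.τ : ℂ) * g (a, b) i) • (1 : WD)), hn (g (a, b)) i,
        mul_nonneg hτ (norm_nonneg (g (a, b)))]
    have a4 : ‖g (a, b)‖ ≤ C' * c₁ ^ 2 * P ^ (-(27 / 20) : ℝ) := by
      have b1 : P ^ (0 : ℝ) / P / P ≤ P ^ (-(27 / 20) : ℝ) := by
        rw [rp_inv p0, rp_inv p0]
        exact Real.rpow_le_rpow_of_exponent_le p1 (by norm_num)
      rw [Real.rpow_zero] at b1
      calc _ ≤ C' * ‖a‖ ^ 2 := h.bd a b hb
        _ ≤ C' * (c₁ / P) ^ 2 := by gcongr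
        _ = C' * c₁ ^ 2 * (1 / P / P) := by ring
        _ ≤ _ := by gcongr
    have a5 := mul_le_mul_of_nonneg_left a4 (show 0 ≤ 2 * S.τ by positivity)
    linarith [norm_sub_le_norm_sub_add_norm_sub x (X (a, b)) (X (a - g (a, b), b))]
  · intro β β' b a1 a2 hb i
    have b1 := hX.x2 _ _ b (h.sm h1 h2 a1 hb).2 (h.sm h1 h2 a2 hb).2 hb i
    have b2 : ‖g (β, b) - g (β', b)‖ ≤ 1 / 200 * ‖β - β'‖ := by
      refine (h.lip β β' b hb).trans (mul_le_mul_of_nonneg_right ?_ (norm_nonneg _))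
      linarith [mul_le_mul_of_nonneg_left a1.le C1, mul_le_mul_of_nonneg_left a2.le C1]
    have b3 : ‖β - g (β, b) - (β' - g (β', b))‖ ≤ 201 / 200 * ‖β - β'‖ := by
      rw [sub_sub_sub_comm]
      linarith [norm_sub_le (β - β') (g (β, b) - g (β', b))]
    have b4 := hn (g (β, b) - g (β', b)) i
    have b5 := mul_le_mul_of_nonneg_left b2 hτ
    have b6 := mul_le_mul_of_nonneg_left b3 hτ
    have b7 := mul_nonneg hτ (norm_nonneg (β - β'))
    calc _ = ‖X (β - g (β, b), b) i - X (β' - g (β', b), b) i -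
          ((S.τ : ℂ) * ((β - g (β, b)) i - (β' - g (β', b)) i)) • (1 : WD) -
          ((S.τ : ℂ) * (g (β, b) - g (β', b)) i) • (1 : WD)‖ := by
          rw [sub_sub _ (_ • _), ← add_smul]
          congr 3
          simp only [Pi.sub_apply]
          ring
      _ ≤ _ := (norm_sub_le _ _).trans (by linarith)
  · have a1 : g (0, 0) = 0 := by simpa using h.bd 0 0 (by simpa using E.r0)
    show X (0 - g (0, 0), 0) = 0
    rw [a1, sub_zero]
    exact hX.zero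
  · show X (star β - g (star β, star b), star b) = cjF (X (β - g (β, b), b))
    rw [h.real β b a2, ← star_sub]
    exact hX.real _ b (h.sm h1 h2 a1 a2).2 a2

theorem Gq.aq (h : Gq E X g C₀ C' k₀) (h1 : E.Restr) (h2 : E.Sl) (hS : E.S2pr X rX)
    (s1 : C' * s ≤ 1 / 400) (s2 : s ≤ rX / 2) : E.AQ (fun z => X (z.1 - g z, z.2)) s := by
  intro M hM
  obtain ⟨CM, hCM, ρ₀, hρ₀, H⟩ := hS M hM
  have N := num E
  have hc := E.c₀0
  have hc1 : E.c₀ ≤ 1 / 8 := by linarith [N.c, N.q]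
  have C0 := h.C0
  have C1 := h.C1
  obtain ⟨k₁, hk₁⟩ := eventually_atTop.1 (((tendsto_pow_atTop_atTop_of_one_lt
    (one_lt_two (α := ℝ))).eventually (ev_small CM (p := 7 / 20) (η := E.c₀ / 8) (by norm_num)
      (by positivity))).and (eventually_ge_atTop k₀))
  obtain ⟨A, hA⟩ : ∃ A, A = 24576 + 22 * CM + 23 * C₀ + C' + 2 * C' ^ 2 := ⟨_, rfl⟩
  have A0 : 0 ≤ A * (16 * M / E.c₀) ^ (23 / 10 : ℝ) := by rw [hA]; positivity
  have A1 : 0 ≤ 32 * M / E.c₀ := by positivity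
  refine ⟨1 + 32 * M / E.c₀ + A * (16 * M / E.c₀) ^ (23 / 10 : ℝ), by linarith,
    min ρ₀ (E.c₀ / (8 * M * 2 ^ k₁)), by positivity, fun ρ ρ0 hρ => ?_⟩
  have m0 : 0 < M * ρ := by positivity
  have a1 : (2 : ℝ) ^ k₁ ≤ E.c₀ / (8 * (M * ρ)) := by
    have := (le_div_iff₀ (by positivity)).1 (hρ.trans (min_le_right _ _))
    rw [le_div_iff₀ (by positivity)]
    linarith
  obtain ⟨k, k1, k2⟩ := exists_nat_pow_near ((one_le_pow₀ one_le_two).trans a1)
    (one_lt_two (α := ℝ))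
  obtain ⟨k3, k4⟩ := hk₁ k (Nat.lt_succ_iff.1 ((pow_lt_pow_iff_right₀ one_lt_two).1
    (a1.trans_lt k2)))
  have hex := h.ex k k4
  have hT := h.T k k4
  rw [pow_succ] at hex k2
  generalize (2 : ℝ) ^ k = R at hex hT k1 k2 k3
  have R1 : 1 ≤ R := by linarith [N.T]
  have R0 : 0 < R := by linarith
  rw [le_div_iff₀ (by positivity)] at k1
  rw [div_lt_iff₀ (by positivity)] at k2
  have r1 : R ≤ 1 / (M * ρ) := by rw [le_div_iff₀ m0]; linarith
  have r2 : 1 / R ≤ 16 * M / E.c₀ * ρ := by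
    rw [div_mul_eq_mul_div, div_le_div_iff₀ R0 hc]; linarith
  refine ⟨R / 2, ?_, ?_, fun d β b u hG hβ hb hu i t _ hz => ?_⟩
  · rw [div_le_iff₀ (by positivity)]
    have b1 := (div_le_iff₀ R0).1 r2
    have b2 : 32 * M / E.c₀ = 2 * (16 * M / E.c₀) := by ring
    have b3 := mul_nonneg (mul_nonneg (add_nonneg zero_le_one A0) ρ0.le) R0.le
    rw [b2]
    linarith
  · rw [mul_assoc, ← div_div, div_right_comm]
    linarith
  obtain ⟨b1, b2⟩ := h.sm s1 s2 hβ hb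
  obtain ⟨α, hα⟩ : ∃ α, α = β - g (β, b) := ⟨_, rfl⟩
  have hu' : E.TS X d α b u := hα ▸ ⟨hu.ms, hu.adm, hu.sa, hu.y0, hu.om, hu.oc⟩
  have hp := H ρ ρ0 (hρ.trans (min_le_left _ _)) d α b u hG (hα ▸ b2) hb hu'
  have c1 : ‖α - u.a‖ ≤ CM * R ^ (-(27 / 20) : ℝ) := by
    refine hp.sl.trans (mul_le_mul_of_nonneg_left ?_ hCM)
    rw [Real.rpow_neg R0.le, ← Real.inv_rpow R0.le, ← one_div]
    refine Real.rpow_le_rpow ρ0.le ((le_div_iff₀ R0).2 ?_) (by norm_num)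
    nlinarith [mul_pos ρ0 R0]
  have c2 : ‖u.a‖ ≤ M * ρ := (pi_norm_le_iff_of_nonneg m0.le).2 hG.al
  have c3 : ‖α‖ * R ≤ E.c₀ / 4 := by
    rw [show (-(27 / 20) : ℝ) = -(7 / 20) - 1 by norm_num, ← rp_inv R0, ← mul_div_assoc,
      le_div_iff₀ R0] at c1
    have := mul_le_mul_of_nonneg_right ((norm_le_insert' α u.a).trans (add_le_add c2 le_rfl)) R0.le
    linarith
  have c4 : ‖β‖ ≤ 1 / R := by
    have e1 := norm_le_insert' β α
    rw [show β - α = g (β, b) by rw [hα, sub_sub_cancel]] at e1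
    have e2 := mul_le_mul_of_nonneg_right (show ‖β‖ ≤ 2 * ‖α‖ by linarith [norm_nonneg β]) R0.le
    rw [le_div_iff₀ R0]
    linarith
  have c5 : ‖α‖ ≤ 1 / R := by rw [le_div_iff₀ R0]; linarith
  obtain ⟨u', hu1, hu2⟩ := hex α b (by rw [lt_div_iff₀ (by positivity)]; linarith) hb
  have d1 := hu1.cmp h1 h2 C0 hT le_rfl (by linarith) (r1.trans hG.rc) rfl rfl
    (ms_small E hu' hp hG.oc) (fun i => ⟨hu.adm i, by
      obtain ⟨t₁, e1, e2, e3⟩ := hG.pre i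
      exact ⟨t₁, e1, e2, r1.trans e3⟩⟩)
    (fun i => by linarith [mul_le_mul_of_nonneg_right (hG.al i) R0.le, N.c]) (i := i) (D := CM)
    (by rw [norm_sub_rev]; exact (norm_le_pi_norm (α - u.a) i).trans c1) hz
  have d2 : ‖g (α, b) - g (β, b)‖ ≤ 2 * C' ^ 2 * R ^ (-(23 / 10) : ℝ) := by
    have e1 : ‖α - β‖ ≤ C' * ‖β‖ ^ 2 := by
      rw [hα, sub_sub_cancel_left, norm_neg]
      exact h.bd β b hb
    have e2 : R ^ (0 : ℝ) / R / R / R ≤ R ^ (-(23 / 10) : ℝ) := by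
      rw [rp_inv R0, rp_inv R0, rp_inv R0]
      exact Real.rpow_le_rpow_of_exponent_le R1 (by norm_num)
    rw [Real.rpow_zero] at e2
    calc _ ≤ C' * (‖α‖ + ‖β‖) * ‖α - β‖ := h.lip α β b hb
      _ ≤ C' * (‖α‖ + ‖β‖) * (C' * ‖β‖ ^ 2) := by gcongr
      _ ≤ C' * (1 / R + 1 / R) * (C' * (1 / R) ^ 2) := by gcongr
      _ = 2 * C' ^ 2 * (1 / R / R / R) := by ring
      _ ≤ _ := by gcongr
  have d3 : R ^ (-(23 / 10) : ℝ) ≤ (16 * M / E.c₀) ^ (23 / 10 : ℝ) * ρ ^ (23 / 10 : ℝ) := by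
    rw [Real.rpow_neg R0.le, ← Real.inv_rpow R0.le, ← one_div,
      ← Real.mul_rpow (by positivity) ρ0.le]
    exact Real.rpow_le_rpow (by positivity) r2 (by norm_num)
  have d4 := mul_le_mul_of_nonneg_left d3 (show 0 ≤ A by rw [hA]; positivity)
  have d5 := mul_nonneg (add_nonneg zero_le_one A1) (Real.rpow_nonneg ρ0.le (23 / 10))
  calc _ = ‖(sv (d.γ i) (u.a i) (u.j i) t - sv (sg S.T R) (u'.a i) (u'.j i) 1) +
        (sv (sg S.T R) (u'.a i) (u'.j i) 1 - α i - g (α, b) i) + (g (α, b) - g (β, b)) i‖ := by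
        rw [sv, hz, Pi.sub_apply, congrFun hα i, Pi.sub_apply]
        congr 1
        ring
    _ ≤ _ := norm_add₃_le.trans (add_le_add (add_le_add d1 (hu2 i))
        ((norm_le_pi_norm _ i).trans d2))
    _ = A * R ^ (-(23 / 10) : ℝ) := by rw [hA]; ring
    _ ≤ _ := by linarith

end G2P

open G2P in
theorem Env.g2 (E : Env S) (h1 : E.Restr) (h2 : E.Sl) (h3 : E.CjMS) : E.G2 := by
  intro X rX c₁ CX P₀ hX hS hP
  obtain ⟨g, C₀, C', k₀, h⟩ := exists_g h1 h2 h3 hX hS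
  have C1 := h.C1
  have r0 := hX.rX0
  have s1 : C' * min (rX / 2) (1 / (400 * (C' + 1))) ≤ 1 / 400 := by
    refine (mul_le_mul_of_nonneg_left (min_le_right _ _) C1).trans ?_
    rw [mul_one_div, div_le_div_iff₀ (by positivity) (by norm_num)]
    linarith
  exact ⟨_, _, _, _, _, h.coord hX (by positivity) s1 (min_le_left _ _),
    h.aq h1 h2 hP s1 (min_le_left _ _)⟩

end Vale.Agent.P218N.Glue
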