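import Vale.Agent.P218N.Glue.AsB

/-! The far parts of the solutions are almost symmetric. -/

open Filter Topology Metric Set Complex
open scoped ComplexConjugate

noncomputable section

namespace Vale.Agent.P218N.Glue

open Vale.Agent.P218N.End Vale.Agent.P218N.J Vale.Agent.P218N.J.PolyP

namespace AsP

theorem der_cl {Γ : Ctr} (hg : Spt Γ.g) {y P : BC} (h : Γ.Der y P) (t : ℝ) : y (cl t) = y t :=
  ze_cl (γ := ⟨y, Γ.g * P⟩) ⟨hg.mul P, h⟩ t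

/-- solutions are constant outside of the unit interval -/
theorem jet_cl {c K T : ℝ} {a : ℂ} {γ : Path} {j : EJ} (hc : 0 < c) (hK : 128 / c ≤ K)
    (hT : 1 ≤ T) (h : AdmP c K T a γ) (hj : γ.IsCyl a j) (hn : ‖j‖ ≤ 1 / 10) (t : ℝ) :
    nsN j (cl t) = nsN j t ∧ γ.piC a j (cl t) = γ.piC a j t := by
  have hz : ∀ t, 1 ≤ ‖γ.ze t‖ := fun t => (hT.trans (h.T_le hc t)).trans (re_le_norm _)
  have hv := admP_cv hz (K_pos hc hK) h
  have e0 := ze_cl h.ok t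
  have e1 : (γ.cyl a).io (cl t) = (γ.cyl a).io t := by rw [hv.io, hv.io, e0]
  have y1 : ∀ m, j.y.c m (cl t) = j.y.c m t := fun m => der_cl (Γ := γ.cyl a) h.ok.spt (hj.1 m).1 t
  have y2 : ∀ m, (γ.cyl a).io (cl t) * j.op.c m (cl t) = (γ.cyl a).io t * j.op.c m t :=
    fun m => der_cl (Γ := γ.cyl a) h.ok.spt (hj.1 m).2.1 t
  have y3 : ∀ m, j.op.c m (cl t) = j.op.c m t := fun m =>
    mul_left_cancel₀ (right_ne_zero_of_mul_eq_one (hv.inv t)) (e1 ▸ y2 m)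
  have k1 : tr (cl t) j.y2 = tr t j.y2 := W.ext fun m => by
    rw [c_tr, c_tr, j.c_y2]
    exact congrArg (HMul.hMul _) (y1 m)
  have k2 : tr (cl t) j.op = tr t j.op := W.ext fun m => by rw [c_tr, c_tr, y3]
  have k3 : tr (cl t) j.pt = tr t j.pt := W.ext fun m => by
    rw [c_tr, c_tr, (hj.1 m).2.2]
    exact congrArg (HMul.hMul _) (y2 m)
  have k4 : tr (cl t) j.oq = tr t j.oq := W.ext_sumL fun θ => by
    have ee : ∀ f : WB, tr (cl t) f = tr t f → ev f (cl t) θ = ev f t θ := fun f hf => by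
      rw [← sumL_tr, hf, sumL_tr]
    have l1 := γ.ev_Ecyl a j (cl t) θ
    have l2 := γ.ev_Ecyl a j t θ
    rw [hj.2, ev_zero, hv.iz, hv.hh, γ.Oh_apply] at l1 l2
    rw [e0, e1, ee _ k2, ee _ k3, ee j.y (by rw [EJ.y, tr_mult symb_y, tr_mult symb_y, k1]),
      ee j.yt (by rw [EJ.yt, tr_mult symb_yt, tr_mult symb_yt, k1]),
      ee j.ytt (by rw [EJ.ytt, tr_mult symb_ytt, tr_mult symb_ytt, k1])] at l1
    have n1 := (norm_ev_le _ t θ).trans (j.norm_y_le.trans hn)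
    have n2 := (norm_ev_le _ t θ).trans (j.norm_yt_le.trans hn)
    rw [sumL_tr, sumL_tr]
    generalize ev j.y t θ = y at *
    generalize ev j.yt t θ = yt at *
    have n3 : 1 + y ≠ 0 := fun h => by
      rw [(neg_eq_of_add_eq_zero_right h).symm, norm_neg, norm_one] at n1
      linarith
    have n4 : (1 + y) ^ 2 + yt ^ 2 ≠ 0 := fun h => by
      have b1 := norm_add_le (y * (2 + y)) (yt * yt)
      have b2 := norm_add_le 2 y
      rw [show y * (2 + y) + yt * yt = -1 by linear_combination h, norm_neg, norm_one, norm_mul,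
        norm_mul] at b1
      rw [Complex.norm_ofNat] at b2
      nlinarith [norm_nonneg y, norm_nonneg yt]
    refine mul_left_cancel₀ (mul_ne_zero n4 n3) ?_
    unfold cylE at l1 l2
    linear_combination (l2 - l1) / 4
  refine ⟨by rw [nsN, k1, k2, k3, k4, nsN], W.ext fun m => ?_⟩
  have hp := admP_pg' hc hz hK h
  rw [Path.piC, Path.piC, c_tr, c_tr, hp.c_piJ hj.1, hp.c_piJ hj.1, e1, y1, y3]

theorem diag_mult (T : ℤ → BC →L[ℂ] BC) {σ : ℤ → ℂ} {K : ℝ} (h : ∀ m, ‖σ m‖ ≤ K) (f : WB) :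
    W.diag T (mult σ f) = mult σ (W.diag T f) := by
  by_cases hT : ∃ C : ℝ, ∀ m, ‖T m‖ ≤ C
  · obtain ⟨C, hC⟩ := hT
    ext1 m
    rw [W.c_diag hC, c_mult h, c_mult h, W.c_diag hC, map_smul]
  · have e : W.diag T = 0 := dif_neg hT
    simp [e]

theorem sns (m : ℤ) : ‖(if m = 0 then 0 else 1 : ℂ)‖ ≤ 1 := by split_ifs <;> simp

theorem piJ_ns (Γ : Ctr) (μ : ℤ → ℝ) (j : EJ) :
    Γ.piJ μ j.ns = mult (fun m => if m = 0 then 0 else 1) (Γ.piJ μ j) := by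
  unfold Ctr.piJ
  rw [map_add, map_add, map_add, map_smul, ← diag_mult _ sns, ← diag_mult _ sns]
  exact congrArg _ (diag_mult _ sns _)

theorem ptN_ns {Γ : Ctr} (μ : ℤ → ℝ) {j : EJ} (hj : Γ.IsJet j) (t : ℝ) :
    ptN Γ μ j.ns t = nsN j t + ‖nsD (tr t (Γ.piJ μ j))‖ := by
  have e : ∀ f, nsD (tr t f) = tr t (mult (fun m => if m = 0 then 0 else 1) f) :=
    fun f => (tr_mult sns t f).symm
  have e' : tr t j.pt = nsD (tr t j.pt) := W.ext fun m => by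
    rw [nsD, c_mult sns]
    split_ifs with h
    · rw [c_tr, (hj m).2.2, h]
      simp
    · rw [one_smul]
  rw [ptN, piJ_ns, nsN, e', e, e, e, e, e]
  rfl

theorem ptN_le (Γ : Ctr) (μ : ℤ → ℝ) (w : BC) (j : EJ) (t : ℝ) :
    ‖w t‖ * ptN Γ μ j t ≤ 5 * Γ.nrm μ w j := by
  have e : ∀ f, ‖w t‖ * ‖tr t f‖ ≤ ‖W.C w * f‖ := fun f => by
    refine le_trans (le_of_eq ?_) (norm_tr_apply_le t _)
    rw [← norm_smul]
    congr 1
    ext m
    simp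
  have h1 := (e _).trans ((j.wt w).norm_y2_le.trans (le_max_left _ ‖W.C w * Γ.piJ μ j‖))
  have h2 := (e _).trans ((j.wt w).norm_op_le.trans (le_max_left _ ‖W.C w * Γ.piJ μ j‖))
  have h3 := (e _).trans ((j.wt w).norm_oq_le.trans (le_max_left _ ‖W.C w * Γ.piJ μ j‖))
  have h4 := (e _).trans ((j.wt w).norm_pt_le.trans (le_max_left _ ‖W.C w * Γ.piJ μ j‖))
  have h5 := (e (Γ.piJ μ j)).trans (le_max_right ‖j.wt w‖ _)
  unfold ptN Ctr.nrm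
  linarith

end AsP

open AsP

namespace Env

variable {J0 Cy Co : Type} [Fintype J0] [Fintype Cy] [Fintype Co] {S : Sys J0 Cy Co} (E : Env S)

theorem ns_core {a : ℂ} {γ : Path} {P Q : ℝ} {j : EJ} (ha : ‖a‖ ≤ 1 / E.K)
    (h : AdmP (1 / 100) E.K S.T a γ) (hp : γ.Pre P) (h0 : P ≤ (γ.ze 1).re) (hQ : S.T ≤ Q)
    (hP : Q ≤ P) (hj : γ.IsCyl a j) (hn : (γ.cyl a).nrm muCyl 1 j ≤ E.δ) :
    ∃ s ∈ Icc (0 : ℝ) 1, γ.ze s = Q ∧ ∀ t, Q < (γ.ze t).re →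
      (uu a Q / uu a (γ.ze 1)) ^ (11 / 20 : ℝ) * (nsN j t + ‖nsD (γ.piC a j t)‖) ≤
        5 * E.C * (ptN (γ.cyl a) muCyl j s +
          (uu a Q / uu a (γ.ze 1)) ^ (11 / 20 : ℝ) * ‖nsD (γ.piC a j 1)‖) := by
  obtain ⟨c0, -, -, c3, c1, c2, -⟩ := E.as_cst
  have hc : (0 : ℝ) < 1 / 100 := by norm_num
  have z0 : (0 : ℝ) ∈ Icc (0 : ℝ) 1 := ⟨le_rfl, zero_le_one⟩
  have z1 : (1 : ℝ) ∈ Icc (0 : ℝ) 1 := ⟨zero_le_one, le_rfl⟩
  obtain ⟨χ, γ', k1, k2, k3⟩ := exists_part E.sub E.rp hc h hp h.ok (Rep.refl γ) h0 hQ hP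
  obtain ⟨l1, l2, l3, l4, l5⟩ := transfer E.htr hc c1 (by linarith) h k1.ok k2 hj
  obtain ⟨w1, w2, -, w3, -, -, -, w4, -⟩ := E.wt E.K Q a γ' le_rfl (c2.trans hQ) ha k1
  have e0 : γ.ze (χ 0) = Q := by rw [← k2.eq 0 z0, k1.st]
  have e1 : γ'.ze 1 = γ.ze 1 := by rw [k2.eq 1 z1, k3]
  have F := (E.far.1 Q a γ' sdF _ (c2.trans hQ) ha k1 (w4 (11 / 20) ⟨le_rfl, by norm_num⟩)).2 _ l1
    (l2.trans hn) rfl
  rw [(w1 _ 1).1, l3, l4 1 z1, k3, e1] at F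
  refine ⟨χ 0, k2.maps z0, e0, fun t ht => ?_⟩
  have hC := E.hC
  obtain ⟨n1, n2⟩ := jet_cl hc c1 (by linarith) h hj (by
    have b1 : ‖j‖ ≤ (γ.cyl a).nrm muCyl 1 j := by rw [Ctr.nrm, EJ.wt_one]; exact le_max_left _ _
    refine b1.trans (hn.trans (c0.trans (one_div_le_one_div_of_le (by norm_num) ?_)))
    exact (by linarith : 10 ≤ E.C).trans (le_self_pow₀ (by linarith) (by norm_num))) t
  obtain ⟨s, hs, e⟩ := intermediate_value_Icc zero_le_one k2.cont (show cl t ∈ Icc (χ 0) (χ 1) from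
    ⟨le_of_not_gt fun b => by
      have := h.mono_re hc b.le
      simp only [e0, ze_cl h.ok, ofReal_re] at this
      linarith, (cl_mem t).2.trans k3.ge⟩)
  have G := ptN_le (γ'.cyl a) muCyl ((γ'.cyl a).iW (γ'.pw a (11 / 20)) p0) (j.cmp χ).ns s
  have e2 : nsN (j.cmp χ) s = nsN j t := by
    rw [← n1, ← e]
    unfold nsN
    rw [← l4 s hs j.y2, ← l4 s hs j.op, ← l4 s hs j.oq, ← l4 s hs j.pt]
    rfl
  rw [ptN_ns _ l1.1, (w1 _ s).1, l3, l4 s hs, e, e2] at G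
  have u0 : 0 < uu a Q := k1.st ▸ (w3 0).1
  have b1 : ‖nsD (tr 0 (j.cmp χ).y2)‖ ≤ ptN (γ.cyl a) muCyl j (χ 0) := by
    rw [← (l5 0 z0).1, ptN]
    refine ((norm_mult_apply_le sns _).trans_eq (one_mul _)).trans ?_
    simp only [add_assoc, le_add_iff_nonneg_right]
    positivity
  rw [← n2]
  calc _ ≤ (uu a Q / uu a (γ'.ze s)) ^ (11 / 20 : ℝ) * (nsN j t + ‖nsD (γ.piC a j (cl t))‖) := by
        have b2 := (w3 s).1
        have b3 := (w3 1).1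
        rw [← e1]
        gcongr
        · unfold nsN
          positivity
        · exact w2 hs.2
    _ ≤ _ := G.trans (by
        rw [mul_assoc]
        exact mul_le_mul_of_nonneg_left (F.trans (mul_le_mul_of_nonneg_left
          (add_le_add b1 le_rfl) (by linarith))) (by norm_num))

theorem ns {X : XT J0 Cy} {rX : ℝ} (h1 : E.S2pr X rX) : E.NS X rX := by
  intro M hM η η0
  obtain ⟨C₁, c1, ρ₁, r1, H1⟩ := h1 M hM
  obtain ⟨-, b1, b2, -, b4, b5, -⟩ := E.as_cst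
  obtain ⟨N, hN⟩ : ∃ N, N = 6 * M := ⟨_, rfl⟩
  have N1 : M ≤ N := by linarith
  have hC : 1 ≤ E.C := by linarith [E.hC]
  have T0 : 0 < S.T := by linarith
  have N0 : 0 < N := by linarith
  have d0 := E.δ₁0
  obtain ⟨e, he⟩ : ∃ e, e = min 1 (η / (20 * E.C)) := ⟨_, rfl⟩
  have e0 : 0 < e := by rw [he]; positivity
  obtain ⟨ρ₃, r3, H3⟩ := small [2 * M * S.T, E.C ^ 2 * (S.T * N) ^ 18 * N ^ 22,
    16 * E.C ^ 2 * N ^ 23, 2 * E.C ^ 4 * N ^ 21, C₁ * N ^ 11] e0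
  refine ⟨min ρ₃ ρ₁, by positivity, fun ρ p0 p1 d β b u hG hβ hb hT i t ht => ?_⟩
  obtain ⟨σ, s0, rfl, s1, s2⟩ := H3 ρ p0 (p1.trans (min_le_left _ _))
  simp only [List.forall_mem_cons] at s2
  obtain ⟨a1, a2, a3, a4, a5, -⟩ := s2
  obtain ⟨Q, hQ⟩ : ∃ Q, Q = 1 / (2 * M * σ ^ 20) := ⟨_, rfl⟩
  have Q0 : 0 < Q := by rw [hQ]; positivity
  have Q1 : 1 / (M * σ ^ 20) = 2 * Q := by rw [hQ]; field_simp
  have q4 : S.T ≤ Q := by
    rw [hQ, le_div_iff₀ (by positivity)]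
    linarith [le_sm (by positivity) s0 s1 a1 20 (by norm_num), he ▸ min_le_left 1 (η / (20 * E.C))]
  obtain ⟨x, y, z, x0, y0, z0, hx, hy, hz, g1, -, g3, g4, g5, g6, g7⟩ := E.as_geo hG i hM N1 s0
    (le_of_eq (by rw [hQ, hN]; field_simp; norm_num)) hQ.le q4
  obtain ⟨s, hs, k1, k2⟩ := E.ns_core (E.as_slope hT i) (hG.adm i) (hG.pre i) g7 q4 (by linarith)
    (hT.ms.cyl i) (hT.ms.ncyl i)
  have k3 := k2 t (by linarith)
  have k4 := (H1 _ p0 (p1.trans (min_le_right _ _)) d β b u hG hβ hb hT).pt i s hs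
  rw [hT.om, hx, hy, rpd y0.le x0.le 11 (by norm_num)] at k3
  rw [k1, hx, hy, hz, rpd z0.le y0.le 18 (by norm_num), rpd y0.le x0.le 12 (by norm_num),
    AsP.rp s0.le 27 (by norm_num), AsP.rp x0.le 12 (by norm_num), ofReal_re] at k4
  have hw : ‖d.ω i‖ ≤ 1 :=
    (hG.om i).trans (b1.trans (div_le_one_of_le₀ (one_le_pow₀ hC) (by positivity)))
  have O0 : 0 < ‖Om (u.a i) ((d.γ i).ze 1)‖ := by linarith [(hG.adm i).big 1]
  have x1 : x / y ≤ N / σ ^ 2 * (N * σ) := by rw [div_eq_mul_one_div x]; gcongr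
  have t1 : E.C ^ 2 * E.δ₁ * (z / y) ^ 18 * (x / y) ^ 11 ≤ e := by
    calc _ ≤ E.C ^ 2 * 1 * (S.T * (N * σ)) ^ 18 * (N / σ ^ 2 * (N * σ)) ^ 11 := by
          rw [div_eq_mul_one_div z]
          gcongr
      _ = E.C ^ 2 * (S.T * N) ^ 18 * N ^ 22 * σ ^ 7 := by field_simp
      _ ≤ _ := le_sm (by positivity) s0 s1 a2 7 (by norm_num)
  have t2 : E.C ^ 2 * ‖d.ω i‖ * Real.exp (-(1 / 8 * (((d.γ i).ze 1).re - Q))) * (x / y) ^ 11 ≤ e := by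
    have l1 : Real.exp (-(1 / 8 * (((d.γ i).ze 1).re - Q))) ≤ (Q / 8)⁻¹ := by
      rw [Real.exp_neg]
      exact inv_anti₀ (by positivity)
        (by linarith [Real.add_one_le_exp (1 / 8 * (((d.γ i).ze 1).re - Q))])
    calc _ ≤ E.C ^ 2 * 1 * (Q / 8)⁻¹ * (N / σ ^ 2 * (N * σ)) ^ 11 := by gcongr
      _ = 16 * E.C ^ 2 * (M * N ^ 22) * σ ^ 9 := by rw [hQ]; field_simp; norm_num
      _ ≤ 16 * E.C ^ 2 * (N * N ^ 22) * σ ^ 9 := by gcongr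
      _ ≤ _ := by rw [← pow_succ']; exact le_sm (by positivity) s0 s1 a3 9 (by norm_num)
  have t3 : E.C ^ 4 * (‖d.ω i‖ / ‖Om (u.a i) ((d.γ i).ze 1)‖ + ‖u.a i‖ ^ 2 * x ^ 20) *
      (y / x) ^ 12 * (x / y) ^ 11 ≤ e := by
    have l1 : ‖d.ω i‖ / ‖Om (u.a i) ((d.γ i).ze 1)‖ ≤ (N * σ ^ 20) ^ 2 * x ^ 20 := by
      rw [div_le_iff₀ O0]
      linarith
    calc _ ≤ E.C ^ 4 * ((N * σ ^ 20) ^ 2 * x ^ 20 + (N * σ ^ 20) ^ 2 * x ^ 20) *
          (y / x) ^ 12 * (x / y) ^ 11 := by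
          gcongr
          exact (hG.al i).trans (by gcongr)
      _ = 2 * E.C ^ 4 * (N * σ ^ 20) ^ 2 * x ^ 19 * y := by field_simp; norm_num
      _ ≤ 2 * E.C ^ 4 * (N * σ ^ 20) ^ 2 * (N / σ ^ 2) ^ 19 * (1 / σ) := by gcongr
      _ = 2 * E.C ^ 4 * N ^ 21 * σ := by field_simp
      _ ≤ _ := a4
  have t4 : C₁ * σ ^ 27 * x ^ 12 * (y / x) ^ 12 * (x / y) ^ 11 ≤ e := by
    calc _ = C₁ * σ ^ 27 * x ^ 11 * y := by field_simp
      _ ≤ C₁ * σ ^ 27 * (N / σ ^ 2) ^ 11 * (1 / σ) := by gcongr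
      _ = C₁ * N ^ 11 * σ ^ 4 := by field_simp
      _ ≤ _ := le_sm (by positivity) s0 s1 a5 4 (by norm_num)
  have k5 := mul_le_mul_of_nonneg_right k4 (show 0 ≤ (x / y) ^ 11 by positivity)
  have k6 : 20 * E.C * e ≤ η := (le_div_iff₀' (by positivity)).1 (he ▸ min_le_right _ _)
  calc _ = (y / x) ^ 11 * (nsN (u.j i) t + ‖nsD ((d.γ i).piC (u.a i) (u.j i) t)‖) *
        (x / y) ^ 11 := by field_simp
    _ ≤ 5 * E.C * (ptN ((d.γ i).cyl (u.a i)) muCyl (u.j i) s + (y / x) ^ 11 * ‖nsD (d.ω i)‖) *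
        (x / y) ^ 11 := by gcongr
    _ = 5 * E.C * (‖nsD (d.ω i)‖ +
        ptN ((d.γ i).cyl (u.a i)) muCyl (u.j i) s * (x / y) ^ 11) := by field_simp; ring
    _ ≤ 5 * E.C * (‖nsD (d.ω i)‖ + 4 * e) := by gcongr _ * (_ + ?_); linarith
    _ ≤ _ := by linarith

end Env

end Vale.Agent.P218N.Glue
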