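import Vale.Agent.P218N.Glue.Stmt
import Vale.Agent.P218N.End.ApiAB
import Vale.Agent.P218N.J.Poly

/-! The field `res` of `Loc`: restriction to a prefix of an end, renormalised at the new end. -/

open Filter Topology Metric Set Complex
open scoped ComplexConjugate

noncomputable section

namespace Vale.Agent.P218N.Glue

open Vale.Agent.P218N.End Vale.Agent.P218N.J

namespace Res

variable {a ζ ζ₀ y : ℂ} {N s : ℝ}

/-- the slope for which the mode `0` vanishes at `ζ` -/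
def nsl (a ζ y : ℂ) : ℂ := (rh a ζ * (1 + y) ^ 2 - 2) / (ζ - 2)

theorem norm_two : ‖(2 : ℂ)‖ = 2 := by simp

theorem le_sub_two (h : 4 ≤ ‖ζ‖) : ‖ζ‖ ≤ 2 * ‖ζ - 2‖ := by
  linarith [norm_sub_norm_le ζ 2, norm_two]

theorem sub_two_le (ζ : ℂ) : ‖ζ - 2‖ ≤ ‖ζ‖ + 2 := by
  linarith [norm_sub_le ζ 2, norm_two]

theorem rh_nsl (h : 4 ≤ ‖ζ‖) : rh (nsl a ζ y) ζ = rh a ζ * (1 + y) ^ 2 := by
  have h0 : ζ - 2 ≠ 0 := norm_pos_iff.1 (by linarith [le_sub_two h])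
  rw [rh, nsl, div_mul_cancel₀ _ h0]
  ring

theorem nsl_sub (h : 4 ≤ ‖ζ‖) (hy : ‖y‖ ≤ N) (hN : N ≤ 1) :
    ‖a - nsl a ζ y‖ * ‖ζ‖ ≤ 6 * N * ‖rh a ζ‖ := by
  have e : (a - nsl a ζ y) * (ζ - 2) = -(rh a ζ * (y * (2 + y))) := by
    have := rh_nsl (a := a) (y := y) h
    unfold rh at this ⊢
    linear_combination -this
  have e2 := congrArg norm e
  rw [norm_neg, norm_mul, norm_mul, norm_mul] at e2
  have h1 : ‖2 + y‖ ≤ 3 := by linarith [norm_add_le 2 y, norm_two]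
  have h2 : ‖y‖ * ‖2 + y‖ ≤ N * 3 :=
    mul_le_mul hy h1 (norm_nonneg _) ((norm_nonneg _).trans hy)
  calc ‖a - nsl a ζ y‖ * ‖ζ‖ ≤ ‖a - nsl a ζ y‖ * (2 * ‖ζ - 2‖) := by gcongr; exact le_sub_two h
    _ = 2 * (‖rh a ζ‖ * (‖y‖ * ‖2 + y‖)) := by rw [← e2]; ring
    _ ≤ 2 * (‖rh a ζ‖ * (N * 3)) := by gcongr
    _ = 6 * N * ‖rh a ζ‖ := by ring

theorem tht_le (h₀ : 4 ≤ ‖ζ₀‖) (h : 4 ≤ ‖ζ‖) (r₀ : rh a ζ₀ ≠ 0) (r : rh a ζ ≠ 0)
    (hu : uu a ζ ≤ uu a ζ₀) (hy : ‖y‖ ≤ N) (hN : N ≤ 1 / 24) :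
    tht a (nsl a ζ₀ y) ζ ≤ 24 * N ∧ rh (nsl a ζ₀ y) ζ ≠ 0 := by
  have p₀ := norm_pos_iff.2 r₀
  have p := norm_pos_iff.2 r
  have hN0 : 0 ≤ N := (norm_nonneg _).trans hy
  have h1 := nsl_sub (a := a) h₀ hy (by linarith)
  rw [uu, uu, norm_div, norm_div, div_le_div_iff₀ p p₀] at hu
  have h2 : ‖a - nsl a ζ₀ y‖ * ‖ζ‖ ≤ 6 * N * ‖rh a ζ‖ := by
    refine le_of_mul_le_mul_right ?_ p₀
    calc ‖a - nsl a ζ₀ y‖ * ‖ζ‖ * ‖rh a ζ₀‖ = ‖a - nsl a ζ₀ y‖ * (‖ζ‖ * ‖rh a ζ₀‖) := by ring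
      _ ≤ ‖a - nsl a ζ₀ y‖ * (‖ζ₀‖ * ‖rh a ζ‖) := by gcongr
      _ = ‖a - nsl a ζ₀ y‖ * ‖ζ₀‖ * ‖rh a ζ‖ := by ring
      _ ≤ 6 * N * ‖rh a ζ₀‖ * ‖rh a ζ‖ := by gcongr
      _ = 6 * N * ‖rh a ζ‖ * ‖rh a ζ₀‖ := by ring
  have h3 : ‖a - nsl a ζ₀ y‖ * ‖ζ - 2‖ ≤ 12 * N * ‖rh a ζ‖ :=
    calc ‖a - nsl a ζ₀ y‖ * ‖ζ - 2‖ ≤ ‖a - nsl a ζ₀ y‖ * (2 * ‖ζ‖) := by
          gcongr; linarith [sub_two_le ζ]
      _ ≤ 12 * N * ‖rh a ζ‖ := by linarith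
  have e : rh a ζ = rh (nsl a ζ₀ y) ζ + (a - nsl a ζ₀ y) * (ζ - 2) := by
    generalize nsl a ζ₀ y = a'
    unfold rh
    ring
  have h4 : ‖rh a ζ‖ ≤ ‖rh (nsl a ζ₀ y) ζ‖ + ‖a - nsl a ζ₀ y‖ * ‖ζ - 2‖ := by
    rw [← norm_mul]
    exact (congrArg norm e).trans_le (norm_add_le _ _)
  have h5 : ‖rh a ζ‖ ≤ 2 * ‖rh (nsl a ζ₀ y) ζ‖ := by nlinarith
  have p' : 0 < ‖rh (nsl a ζ₀ y) ζ‖ := by linarith
  refine ⟨?_, norm_pos_iff.1 p'⟩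
  rw [tht, div_le_iff₀ p']
  nlinarith

theorem rh_le (ha : ‖a‖ ≤ s) (hs : s ≤ 1) (h : 1 ≤ s * ‖ζ‖) : ‖rh a ζ‖ ≤ 5 * s * ‖ζ‖ := by
  have h0 : 0 ≤ s := (norm_nonneg _).trans ha
  have h1 : ‖rh a ζ‖ ≤ 2 + ‖a‖ * ‖ζ - 2‖ := by
    rw [← norm_mul, ← norm_two]
    exact norm_add_le _ _
  have h2 : ‖a‖ * ‖ζ - 2‖ ≤ s * (‖ζ‖ + 2) := mul_le_mul ha (sub_two_le ζ) (norm_nonneg _) h0
  linarith

theorem nsl_le (h : 4 ≤ ‖ζ‖) (hy : ‖y‖ ≤ N) (hN : N ≤ 1 / 30) (ha : ‖a‖ ≤ s) (hs : s ≤ 1)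
    (hl : 1 ≤ s * ‖ζ‖) : ‖nsl a ζ y‖ ≤ 2 * s := by
  have h0 : 0 ≤ s := (norm_nonneg _).trans ha
  have hN0 : 0 ≤ N := (norm_nonneg _).trans hy
  have h1 := nsl_sub (a := a) h hy (by linarith)
  have h2 : ‖a - nsl a ζ y‖ * ‖ζ‖ ≤ s * ‖ζ‖ :=
    calc ‖a - nsl a ζ y‖ * ‖ζ‖ ≤ 6 * N * ‖rh a ζ‖ := h1
      _ ≤ 6 * (1 / 30) * (5 * s * ‖ζ‖) := by gcongr; exact rh_le ha hs hl
      _ = s * ‖ζ‖ := by ring
  have h3 := le_of_mul_le_mul_right h2 (by linarith)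
  have h4 := norm_sub_norm_le (nsl a ζ y) a
  rw [norm_sub_rev] at h4
  linarith

theorem cvY_nsl {d : WD} (h : 4 ≤ ‖ζ‖) (r : rh a ζ ≠ 0) (hy : ‖d.c 0‖ < 1) :
    (cvY a (nsl a ζ (d.c 0)) ζ d).c 0 = 0 := by
  have h1 : 0 < (1 + d.c 0).re := by
    have := (abs_le.1 (abs_re_le_norm (d.c 0))).1
    rw [add_re, one_re]
    linarith
  have h0 : 1 + d.c 0 ≠ 0 := fun e => by simp [e] at h1
  have h2 : 0 < ((1 + d.c 0)⁻¹).re := by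
    rw [inv_re]
    exact div_pos h1 (normSq_pos.2 h0)
  have h3 : sgm a (nsl a ζ (d.c 0)) ζ = (1 + d.c 0)⁻¹ := by
    rw [sgm, rh_nsl h, div_mul_cancel_left₀ r, ← inv_pow]
    exact sq_cpow_two_inv h2
  rw [cvY, h3, W.c_add, W.c_smul, W.c_smul, W.c_one, if_pos rfl, smul_eq_mul, smul_eq_mul]
  field_simp
  ring

/-- the small terms -/
def gf (A B D ρ : ℝ) : ℝ := A * ρ ^ (9 / 10 : ℝ) + B * ρ + D * ρ ^ (3 / 20 : ℝ)

theorem gf_small (A B D : ℝ) {η : ℝ} (hη : 0 < η) :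
    ∃ ρ₀ > 0, ∀ ρ, 0 < ρ → ρ ≤ ρ₀ → gf A B D ρ ≤ η := by
  have hc : Continuous (gf A B D) :=
    ((continuous_const.mul (Real.continuous_rpow_const (by norm_num))).add
      (continuous_const.mul continuous_id)).add
      (continuous_const.mul (Real.continuous_rpow_const (by norm_num)))
  have h0 : gf A B D 0 < η := by
    rw [gf, Real.zero_rpow (by norm_num), Real.zero_rpow (by norm_num)]
    simpa using hη
  obtain ⟨r, hr, h⟩ := Metric.eventually_nhds_iff.1 (hc.continuousAt.eventually_lt_const h0)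
  refine ⟨r / 2, half_pos hr, fun ρ h1 h2 => (h ?_).le⟩
  rw [Real.dist_eq, sub_zero, abs_of_pos h1]
  linarith

theorem pw_eq {M ρ : ℝ} (hM : 0 < M) (hρ : 0 < ρ) :
    ρ ^ (27 / 20 : ℝ) * ((M / ρ) ^ 2) ^ (3 / 5 : ℝ) = M ^ (6 / 5 : ℝ) * ρ ^ (3 / 20 : ℝ) := by
  have e1 : ((M / ρ) ^ 2) ^ (3 / 5 : ℝ) = M ^ (6 / 5 : ℝ) / ρ ^ (6 / 5 : ℝ) := by
    rw [← Real.rpow_natCast, ← Real.rpow_mul (by positivity), ← Real.div_rpow hM.le hρ.le]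
    norm_num
  have e2 : ρ ^ (27 / 20 : ℝ) = ρ ^ (3 / 20 : ℝ) * ρ ^ (6 / 5 : ℝ) := by
    rw [← Real.rpow_add hρ]
    norm_num
  have : ρ ^ (6 / 5 : ℝ) ≠ 0 := (Real.rpow_pos_of_pos hρ _).ne'
  rw [e1, e2]
  field_simp

theorem nrm_ge (Γ : Ctr) (μ : ℤ → ℝ) (j : EJ) : ‖j‖ ≤ Γ.nrm μ 1 j := by
  rw [Ctr.nrm, EJ.wt_one]
  exact le_max_left _ _

theorem sub_id (γ : Path) : Sub id γ γ := ⟨continuousOn_id, mapsTo_id _, fun _ _ => rfl⟩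

theorem upd_inr {α β γ : Type} [DecidableEq α] [DecidableEq β] (f : α ⊕ β → γ) (i : β) (v : γ) :
    (fun k => Function.update f (.inr i) v (.inr k)) = Function.update (fun k => f (.inr k)) i v :=
  funext fun _ => Sum.update_inr_apply_inr

end Res

open Res

variable {J0 Cy Co : Type} [Fintype J0] [Fintype Cy] [Fintype Co]

namespace Env
variable {S : Sys J0 Cy Co} (E : Env S)

theorem res_cs : E.ε ≤ 1 ∧ 1 ≤ E.K ∧ E.K ≤ S.T ∧ 4 ≤ S.T ∧ E.δ ≤ 1 / E.C ∧ 8 * E.δ₁ ≤ E.δ₀ ∧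
    E.δ₁ ≤ 1 / 10000 ∧ E.C * (2 * E.C * E.δ₀ + 24 * E.δ₁) ≤ E.δ ∧ 2 * E.C * E.δ₀ ≤ E.δ ∧
    24 * E.C * (25 * E.δ₁ + 1 / E.K) ≤ 1 ∧ 20 * E.C ^ 4 / E.K ≤ E.δ₁ / 2 := by
  have hC := E.hC
  have h1 : 1 ≤ E.C := by linarith
  have p1 : E.C ≤ E.C ^ 2 := by nlinarith
  have p2 : E.C ^ 2 ≤ E.C ^ 4 := pow_le_pow_right₀ h1 (by norm_num)
  have p3 : 100000 * E.C ^ 4 ≤ E.C ^ 8 := by
    rw [show E.C ^ 8 = E.C ^ 4 * E.C ^ 4 by ring]
    gcongr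
    linarith
  have key : ∀ x y : ℝ, 0 ≤ x → x * E.C ^ 8 ≤ y → 100000 * (E.C ^ 4 * x) ≤ y ∧
      E.C ^ 2 * x ≤ E.C ^ 4 * x ∧ E.C * x ≤ E.C ^ 2 * x ∧ x ≤ E.C * x := fun x y hx h =>
    ⟨by nlinarith, by gcongr, by gcongr, by nlinarith⟩
  obtain ⟨a1, a2, a3, a4⟩ := key _ _ E.ε0.le E.hε
  obtain ⟨b1, b2, b3, b4⟩ := key _ _ E.δ₀0.le E.hδ₀
  obtain ⟨c1, c2, c3, c4⟩ := key _ _ E.δ₁0.le E.hδ₁
  have hδ := E.hδ
  have hK := E.hK
  have hT := E.hT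
  have e0 := E.ε0
  have d0 := E.δ₀0
  have d1 := E.δ₁0
  have q1 : E.δ₁ ≤ 1 / 10000 := by linarith
  have K0 : 0 < E.K := (mul_pos_iff_of_pos_right d1).1 (lt_of_lt_of_le (by positivity) hK)
  have K1 : 1 ≤ E.K := by nlinarith
  have KT : E.K ≤ S.T := by nlinarith
  have iK : E.C ^ 4 / E.K ≤ E.δ₁ / 100000 := by
    rw [div_le_iff₀ K0]
    linarith
  have iK' : E.C * (1 / E.K) ≤ E.C ^ 4 / E.K := by
    rw [mul_one_div]
    gcongr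
    linarith
  refine ⟨by linarith, K1, KT, by nlinarith, ?_, by linarith, q1, by nlinarith, by nlinarith,
    by nlinarith, ?_⟩
  · rw [le_div_iff₀ (by linarith)]
    nlinarith
  · rw [mul_div_assoc]
    linarith

theorem res_pt {M CM ρ t : ℝ} {d : TD Cy Co} {β : Cy → ℂ} {u : TU Cy Co} (hM : 1 ≤ M) (hρ : 0 < ρ)
    (hCM : 0 ≤ CM) (hs : 2 * (M * ρ) * S.T ≤ E.ε) (g : E.Gd M ρ d u.a) (p : E.Prof CM ρ d β u)
    (i : Cy) (hω : d.ω i = 0) (ht : t ∈ Icc (0 : ℝ) 1) (hl : 1 / (M * ρ) ≤ ((d.γ i).ze t).re) :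
    ptN ((d.γ i).cyl (u.a i)) muCyl (u.j i) t ≤ 20 * E.C ^ 4 / ‖Om (u.a i) ((d.γ i).ze 1)‖ +
      gf (E.C ^ 2 * E.δ₁ * (5 * M * S.T) ^ (9 / 10 : ℝ)) (40 * E.C ^ 4 * M)
        (CM * M ^ (6 / 5 : ℝ)) ρ := by
  obtain ⟨e1, K1, KT, T4, -⟩ := E.res_cs
  have hp := p.pt i t ht
  have adm := g.adm i
  have ha := g.al i
  have hup := g.up i 1
  simp only [hω, norm_zero, mul_zero, zero_mul, zero_div, zero_add, add_zero] at hp
  generalize u.a i = a at *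
  generalize d.γ i = γ at *
  have s0 : 0 < M * ρ := by positivity
  have sT : M * ρ * S.T ≤ 1 / 2 := by linarith
  have s1 : M * ρ ≤ 1 := by nlinarith
  have aK : ‖a‖ ≤ 1 / E.K := by
    rw [le_div_iff₀ (by linarith)]
    calc ‖a‖ * E.K ≤ M * ρ * S.T := by gcongr
      _ ≤ 1 := by linarith
  obtain ⟨-, mu, mr, pos, -⟩ := E.wt _ _ a γ le_rfl KT aK adm
  have l0 : 1 ≤ M * ρ * ‖γ.ze t‖ := by
    rw [mul_comm, ← div_le_iff₀ s0]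
    exact hl.trans (re_le_norm _)
  have l1 : 1 / ‖γ.ze 1‖ ≤ M * ρ := by
    have : 1 / (M * ρ) ≤ ‖γ.ze 1‖ := (hl.trans (mr ht.2)).trans (re_le_norm _)
    exact (one_div_le s0 (lt_of_lt_of_le (by positivity) this)).1 this
  have r1 : (uu a (γ.ze t) / uu a (γ.ze 1)) ^ (3 / 5 : ℝ) ≤ 1 :=
    Real.rpow_le_one (div_pos (pos t).1 (pos 1).1).le ((div_le_one (pos 1).1).2 (mu ht.2))
      (by norm_num)
  have r2 : ‖a‖ ^ 2 * uu a (γ.ze 1) ≤ 20 * (2 * (M * ρ) + 1 / ‖Om a (γ.ze 1)‖) := by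
    linarith [(pos 1).2.2]
  have z1 := AB.ze_ne (by linarith) adm 1
  have o1 : 1 ≤ ‖Om a (γ.ze 1)‖ := K1.trans (adm.big 1)
  have r3 : uu a (γ.ze 1) ≤ (M / ρ) ^ 2 := by
    have e : uu a (γ.ze 1) = ‖γ.ze 1‖ ^ 2 / ‖Om a (γ.ze 1)‖ := by
      rw [uu, Om, norm_mul, norm_div, sq, mul_div_mul_left _ _ (norm_ne_zero_iff.2 z1)]
    rw [e]
    exact (div_le_self (sq_nonneg _) o1).trans (by gcongr)
  have r4 : uu a S.T ≤ S.T := by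
    have n1 : ‖(S.T : ℂ)‖ = S.T := by rw [norm_real, Real.norm_of_nonneg (by linarith)]
    have n2 : ‖a * ((S.T : ℂ) - 2)‖ ≤ 1 := by
      rw [norm_mul]
      calc ‖a‖ * ‖(S.T : ℂ) - 2‖ ≤ M * ρ * (2 * S.T) := by
            gcongr
            linarith [sub_two_le (S.T : ℂ)]
        _ ≤ 1 := by linarith
    have n3 := norm_sub_norm_le (2 : ℂ) (-(a * ((S.T : ℂ) - 2)))
    rw [sub_neg_eq_add, norm_neg, norm_two] at n3
    rw [uu, norm_div, n1]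
    exact div_le_self (by linarith) (by unfold rh; linarith)
  have r5 : uu a S.T / uu a (γ.ze t) ≤ 5 * M * S.T * ρ := by
    rw [div_le_iff₀ (pos t).1]
    refine r4.trans ?_
    have p := norm_pos_iff.2 (AB.rh_ne (by linarith) adm t)
    rw [uu, norm_div, mul_div_assoc', le_div_iff₀ p]
    calc S.T * ‖rh a (γ.ze t)‖ ≤ S.T * (5 * (M * ρ) * ‖γ.ze t‖) := by
          gcongr
          exact rh_le ha s1 l0
      _ = 5 * M * S.T * ρ * ‖γ.ze t‖ := by ring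
  have r6 : (uu a S.T / uu a (γ.ze t)) ^ (9 / 10 : ℝ) ≤
      (5 * M * S.T) ^ (9 / 10 : ℝ) * ρ ^ (9 / 10 : ℝ) := by
    rw [← Real.mul_rpow (by positivity) hρ.le]
    exact Real.rpow_le_rpow (div_nonneg (norm_nonneg _) (norm_nonneg _)) r5 (by norm_num)
  have r7 : ρ ^ (27 / 20 : ℝ) * uu a (γ.ze 1) ^ (3 / 5 : ℝ) ≤
      M ^ (6 / 5 : ℝ) * ρ ^ (3 / 20 : ℝ) := by
    rw [← pw_eq (by linarith) hρ]
    have := (pos 1).1
    gcongr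
  have d1 := E.δ₁0
  have u1 := (pos 1).1
  have u0 := (pos t).1
  refine hp.trans ?_
  calc _ ≤ E.C ^ 2 * E.δ₁ * ((5 * M * S.T) ^ (9 / 10 : ℝ) * ρ ^ (9 / 10 : ℝ)) +
        (E.C ^ 4 * (20 * (2 * (M * ρ) + 1 / ‖Om a (γ.ze 1)‖)) +
          CM * (M ^ (6 / 5 : ℝ) * ρ ^ (3 / 20 : ℝ))) * 1 := by
        rw [mul_assoc CM]
        gcongr
    _ = _ := by
        unfold gf
        ring

theorem res_core [DecidableEq Cy] {X : XT J0 Cy} {rX s N t₀ : ℝ} (h : E.Ctx X rX) {d : TD Cy Co}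
    {β : Cy → ℂ} {b : J0 → ℂ} {u : TU Cy Co} (ts : E.TS X d β b u) (hRc : S.T ≤ d.Rc)
    (nc : ∀ i, ((d.γ i).cyl (u.a i)).nrm muCyl 1 (u.j i) ≤ 2 * E.C * E.δ₀)
    (nk : ∀ e, (sg S.T d.Rc).cone.nrm (muCone (S.cc e)) 1 (u.k e - S.kS e (sg S.T d.Rc)) ≤
      2 * E.C * E.δ₀)
    (i : Cy) {φ : ℝ → ℝ} {γ' : Path} (adm : AdmP (1 / 100) E.K S.T (u.a i) (d.γ i)) (ok : γ'.Ok)
    (rep : Rep φ (d.γ i) γ' t₀) (hs : 2 * s * S.T ≤ E.ε) (ha : ‖u.a i‖ ≤ s)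
    (hl : 1 ≤ s * ‖(d.γ i).ze t₀‖) (hN : ptN ((d.γ i).cyl (u.a i)) muCyl (u.j i) t₀ ≤ N)
    (hN1 : N ≤ E.δ₁) {a' : ℂ} (ha' : a' = nsl (u.a i) ((d.γ i).ze t₀) ((u.j i).y2.c 0 t₀)) :
    ∃ (ω' : WD) (j' : Cy → EJ) (k' : Co → EJ),
      E.TS X ⟨Function.update d.γ i γ', Function.update d.ω i ω', d.Rc, d.ωc⟩ β b
        ⟨Function.update u.a i a', u.π, j', k'⟩ ∧ ‖ω'‖ ≤ 2 * N ∧
      ‖nsD ω'‖ ≤ E.C * (nsN (u.j i) t₀ + ‖nsD ((d.γ i).piC (u.a i) (u.j i) t₀)‖) ∧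
      E.tv X ⟨Function.update d.γ i γ', Function.update d.ω i ω', d.Rc, d.ωc⟩ β b
        ⟨Function.update u.a i a', u.π, j', k'⟩ =
          E.tv X d β b u - (d.γ i).FCI (u.a i) (u.j i) t₀ 1 ∧
      R0v a' γ' (j' i) 1 = R0v (u.a i) (d.γ i) (u.j i) t₀ ∧
      R1v a' γ' (j' i) 1 = R1v (u.a i) (d.γ i) (u.j i) t₀ := by
  obtain ⟨e1, K1, KT, T4, c1, -, c3, c4, c5, c6, -⟩ := E.res_cs
  have hC := E.hC
  have m1 : (1 : ℝ) ∈ Icc (0 : ℝ) 1 := right_mem_Icc.2 zero_le_one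
  have z1 : γ'.ze 1 = (d.γ i).ze t₀ := by rw [rep.eq 1 m1, rep.one]
  have adm' := E.rp.1 _ _ _ _ _ _ _ _ (by norm_num) adm ok rep
  have sub : Sub φ (d.γ i) γ' := ⟨rep.cont, rep.maps, rep.eq⟩
  have s0 : 0 ≤ s := (norm_nonneg _).trans ha
  have s1 : s ≤ 1 := by nlinarith
  have sK : 2 * s ≤ 1 / E.K := by
    rw [le_div_iff₀ (by linarith)]
    calc 2 * s * E.K ≤ 2 * s * S.T := by gcongr
      _ ≤ 1 := by linarith
  have aK : ‖u.a i‖ ≤ 1 / E.K := by linarith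
  have n1 : ‖(d.γ i).piC (u.a i) (u.j i) t₀‖ + ‖tr t₀ (u.j i).y2‖ ≤ N := by
    unfold ptN at hN
    unfold Path.piC
    linarith [norm_nonneg (tr t₀ (u.j i).op), norm_nonneg (tr t₀ (u.j i).oq),
      norm_nonneg (tr t₀ (u.j i).pt)]
  have n2 : ‖(u.j i).y2.c 0 t₀‖ ≤ N := by
    rw [← c_tr]
    linarith [W.norm_c_le (tr t₀ (u.j i).y2) 0, norm_nonneg ((d.γ i).piC (u.a i) (u.j i) t₀)]
  have N0 : 0 ≤ N := (norm_nonneg _).trans n2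
  have z4 : ∀ t, 4 ≤ ‖γ'.ze t‖ := fun t => T4.trans (AB.T_le_norm (by norm_num) adm' t)
  have z0 : 4 ≤ ‖(d.γ i).ze t₀‖ := z1 ▸ z4 1
  have r0 := AB.rh_ne (by linarith) adm t₀
  have th : ∀ t, tht (u.a i) a' (γ'.ze t) ≤ 24 * N ∧ rh a' (γ'.ze t) ≠ 0 := fun t => by
    rw [ha']
    refine tht_le z0 (z4 t) r0 (AB.rh_ne (by linarith) adm' t) ?_ n2 (by linarith)
    rw [← z1, ← PolyP.ze_cl ok t]
    exact (E.wt _ _ _ γ' le_rfl KT aK adm').2.1 (cl_mem t).2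
  have a2 : ‖a'‖ ≤ 2 * s := ha' ▸ nsl_le z0 n2 (by linarith) ha s1 hl
  have a3 : ‖a'‖ * S.T ≤ E.ε := (mul_le_mul_of_nonneg_right a2 (by linarith)).trans hs
  have rp := (E.sub.1 _ _ hRc).1
  obtain ⟨ms1, r1, r2⟩ := h.restr _ _ u.a d.γ (Function.update d.γ i γ') u.j _
    (fun _ => sg S.T d.Rc) u.k (Function.update (fun _ => id) i φ) (fun _ => id) c5
    { ts.ms with ncyl := nc, ncone := nk }
    (fun k => ⟨ts.sa k, ts.adm k, by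
      obtain rfl | hk := eq_or_ne i k
      · simp only [Function.update_self]
        exact ⟨ok, sub, rep.zero⟩
      · simp only [Function.update_of_ne hk.symm]
        exact ⟨(ts.adm k).ok, sub_id _, rfl⟩⟩)
    fun e => ⟨rp, rp, sub_id _, rfl⟩
  obtain ⟨adm2, cv, -⟩ := E.conv _ _ (24 * N) _ a' γ' le_rfl KT aK (a2.trans sK) adm'
    (by linarith) (fun t => (th t).1) (adm'.st ▸ (th 0).2)
  have jet := (ms1.cyl i).1
  obtain ⟨q1, q2, -, q4⟩ := r1 i 1 m1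
  simp only [Function.update_self, rep.one] at jet q1 q2 q4
  obtain ⟨v1, v2, -, v3, v4⟩ := (cv _ jet).2.2.2.1 1
  rw [z1, q1] at v1 v2
  obtain ⟨j', j1, j2⟩ : ∃ j' : Cy → EJ, j' i = γ'.conv (u.a i) a' ((u.j i).cmp φ) ∧
      ∀ k, i ≠ k → j' k = (u.j k).cmp id :=
    ⟨Function.update (fun k => (u.j k).cmp id) i _, Function.update_self ..,
      fun k hk => Function.update_of_ne hk.symm ..⟩
  obtain ⟨ms2, w⟩ := h.cvms _ E.δ (24 * N) _ u.a (Function.update u.a i a') _ _ j' _ _ ms1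
    (by linarith) (le_trans (by gcongr) c4) le_rfl fun k => by
      obtain rfl | hk := eq_or_ne i k
      · simp only [Function.update_self]
        exact .inr ⟨ts.sa i, a3, adm', fun t => (th t).1, j1⟩
      · simp only [Function.update_of_ne hk.symm]
        exact .inl ⟨trivial, j2 k hk⟩
  obtain ⟨uv, u1, u2, u3, -⟩ := adm.dir t₀
  obtain ⟨-, -, p3, p4, -⟩ := E.pt.1 _ _ a' _ uv (tr t₀ (u.j i).y2)
    ((d.γ i).piC (u.a i) (u.j i) t₀) le_rfl (KT.trans (AB.T_le (by norm_num) adm t₀)) aK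
    (a2.trans sK) u1 u2 u3 (adm.big t₀) (z1 ▸ (th 1).1.trans (by linarith)) (z1 ▸ (th 1).2)
  have eω : γ'.piC a' (γ'.conv (u.a i) a' ((u.j i).cmp φ)) 1 = cvP (u.a i) a' ((d.γ i).ze t₀)
      (tr t₀ (u.j i).y2) ((d.γ i).piC (u.a i) (u.j i) t₀) := by
    rw [← q2]
    exact v2
  have ey : ((u.j i).cmp φ).y2.c 0 1 = (u.j i).y2.c 0 t₀ := by rw [← c_tr, q1, c_tr]
  have eo : ((u.j i).cmp φ).op.c 0 1 = (u.j i).op.c 0 t₀ := by
    have := (E.htr φ _ γ' (1 / 100) (by norm_num) adm.ok ok sub (AB.re_g adm) fun t =>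
      le_trans (by linarith) (AB.T_le_norm (by norm_num) adm t)).1 (u.j i).op 1
    rw [cl_of_mem m1, rep.one] at this
    rw [← c_tr, ← c_tr, ← this]
    rfl
  refine ⟨γ'.piC a' (γ'.conv (u.a i) a' ((u.j i).cmp φ)) 1, j', _,
    ⟨ms2, fun k => ?_, fun k => ?_, fun k => ?_, fun k => ?_, fun e => ?_⟩, ?_, ?_, ?_, ?_, ?_⟩
  · obtain rfl | hk := eq_or_ne i k
    · simp only [Function.update_self]
      convert adm2 using 1
      norm_num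
    · simp only [Function.update_of_ne hk.symm]
      exact ts.adm k
  · obtain rfl | hk := eq_or_ne i k
    · simpa only [Function.update_self] using a3
    · simpa only [Function.update_of_ne hk.symm] using ts.sa k
  · obtain rfl | hk := eq_or_ne i k
    · simp only [j1]
      rw [← c_tr, v1, ha', ← c_tr]
      exact cvY_nsl z0 r0 (by rw [c_tr]; linarith)
    · have := (r1 k 1 m1).1
      simp only [Function.update_of_ne hk.symm, j2 k hk] at this ⊢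
      rw [← c_tr, this, c_tr]
      exact ts.y0 k
  · obtain rfl | hk := eq_or_ne i k
    · simp only [Function.update_self, j1]
    · have := (r1 k 1 m1).2.1
      simp only [Function.update_of_ne hk.symm, j2 k hk] at this ⊢
      exact this.trans (ts.om k)
  · exact (r2 e 1 m1).1.trans (ts.oc e)
  · have t1 := (th 1).1
    have t0 : 0 ≤ tht (u.a i) a' ((d.γ i).ze t₀) := by
      unfold tht
      positivity
    rw [z1] at t1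
    have t2 : E.C * tht (u.a i) a' ((d.γ i).ze t₀) * (‖(d.γ i).piC (u.a i) (u.j i) t₀‖ +
        ‖tr t₀ (u.j i).y2‖ + 1 / E.K + tht (u.a i) a' ((d.γ i).ze t₀)) ≤
        E.C * (24 * N) * (25 * E.δ₁ + 1 / E.K) :=
      mul_le_mul (by gcongr) (by linarith) (by positivity) (by positivity)
    have t3 : E.C * (24 * N) * (25 * E.δ₁ + 1 / E.K) ≤ N := by nlinarith
    rw [eω]
    linarith [norm_sub_norm_le (cvP (u.a i) a' ((d.γ i).ze t₀) (tr t₀ (u.j i).y2)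
      ((d.γ i).piC (u.a i) (u.j i) t₀)) ((d.γ i).piC (u.a i) (u.j i) t₀),
      norm_nonneg (tr t₀ (u.j i).y2)]
  · rw [eω]
    refine p4.trans (mul_le_mul_of_nonneg_left ?_ (by linarith))
    unfold nsN
    linarith [norm_nonneg (nsD (tr t₀ (u.j i).op)), norm_nonneg (nsD (tr t₀ (u.j i).oq)),
      norm_nonneg (tr t₀ (u.j i).pt)]
  · refine w.trans ?_
    have ad := (E.lagC _ KT).2.2 _ _ (u.j i) 0 aK adm
      (((nrm_ge _ _ _).trans (ts.ms.ncyl i)).trans c1) |>.1 0 t₀ 1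
    have s1 : ∀ k, (Function.update d.γ i γ' k).FCI (u.a k)
        ((u.j k).cmp (Function.update (fun _ => id) i φ k)) 0 1 = (d.γ k).FCI (u.a k) (u.j k) 0 1 -
          if k = i then (d.γ i).FCI (u.a i) (u.j i) t₀ 1 else 0 := fun k => by
      obtain rfl | hk := eq_or_ne i k
      · simp only [Function.update_self, if_true]
        rw [q4, ← ad, add_sub_cancel_right]
      · rw [(r1 k 1 m1).2.2.2, Function.update_of_ne hk.symm, if_neg hk.symm, sub_zero]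
        rfl
    unfold tv Sys.val
    simp only [s1, fun e => (r2 e 1 m1).2.2, Finset.sum_sub_distrib, Finset.sum_ite_eq',
      Finset.mem_univ, if_true, id]
    ring
  · rw [j1, v3, R0v, R0v, z1, ey]
  · rw [j1, v4, R1v, R1v, z1, ey, eo]

theorem lres [DecidableEq J0] [DecidableEq Cy] {X : XT J0 Cy} {rX : ℝ} (h : E.Ctx X rX) :
    LRes (E.par rX) (E.Sol X) := by
  intro M hM
  obtain ⟨e1, K1, KT, T4, -, c2, -, -, -, -, c7⟩ := E.res_cs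
  have hC := E.hC
  have d1 := E.δ₁0
  obtain ⟨CM, hCM, ρ₁, ρ1, pr⟩ := h.s2pr M hM
  obtain ⟨CA, hCA, as⟩ := h.as M hM
  obtain ⟨ρ₂, ρ2, as⟩ := as 1 one_pos
  obtain ⟨_, _, _, co⟩ := h.coord
  refine ⟨0, max (40 * E.C ^ 4) (2 * CA + 1 + M ^ 2), fun K' C _ hC' ε hε => ?_⟩
  obtain ⟨ρ₃, ρ3, ns⟩ := h.ns M hM (ε / E.C) (div_pos hε (by linarith))
  obtain ⟨ρ₄, ρ4, gs⟩ := gf_small (E.C ^ 2 * E.δ₁ * (5 * M * S.T) ^ (9 / 10 : ℝ))
    (40 * E.C ^ 4 * M) (CM * M ^ (6 / 5 : ℝ)) (lt_min (half_pos hε) (half_pos d1))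
  have T0 : 0 < 2 * M * S.T := by positivity
  refine ⟨min (min (min ρ₁ ρ₂) (min ρ₃ ρ₄)) (E.ε / (2 * M * S.T)),
    lt_min (lt_min (lt_min ρ1 ρ2) (lt_min ρ3 ρ4)) (div_pos E.ε0 T0), fun ρ hρ hρ' => ?_⟩
  simp only [le_min_iff] at hρ'
  obtain ⟨⟨⟨k1, k2⟩, k3, k4⟩, k5⟩ := hρ'
  have hs : 2 * (M * ρ) * S.T ≤ E.ε := by
    rw [le_div_iff₀ T0] at k5
    linarith
  have s0 : 0 < M * ρ := by positivity
  rintro ah rd x ξ o G ⟨π, k, ts, hv⟩ H hω i' hi φ γ' t₀ ok rep hl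
  obtain ⟨i, -, hi'⟩ := Finset.mem_map.1 hi
  obtain rfl : Sum.inr i = i' := hi'
  have mem : ∀ k : Cy, Sum.inr k ∈ (E.par rX : Par (J0 ⊕ Cy)).I := fun k =>
    Finset.mem_map.2 ⟨k, Finset.mem_univ _, rfl⟩
  have g : E.Gd M ρ (td Co x) (tu o π k).a := by
    have h1 := fun k => H _ (mem k)
    have h2 : ∀ k : Cy, ‖o.a (.inr k) - ah (.inr k)‖ ≤ rd (.inr k) := fun k => by
      linarith [h1 k, norm_nonneg (o.a (.inr k) - ah (.inr k))]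
    exact ⟨fun k => show ‖o.a (.inr k)‖ ≤ _ by
        linarith [h2 k, G.sm _ (mem k), norm_sub_norm_le (o.a (.inr k)) (ah (.inr k))],
      fun k => G.adm _ (mem k) _ (mem_closedBall_iff_norm.2 (h2 k)), fun k => G.up _ (mem k),
      fun k => G.pre _ (mem k), G.rc.1, fun k => G.om _ (mem k),
      fun _ => norm_zero.trans_le E.δ₀0.le⟩
  have hβ : ‖fun i => ξ (.inr i)‖ < rX :=
    ((pi_norm_le_iff_of_nonneg (norm_nonneg ξ)).2 fun i => norm_le_pi_norm ξ _).trans_lt G.xi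
  have hb : ‖fun i => ξ (.inl i)‖ < E.r := (((pi_norm_le_iff_of_nonneg (norm_nonneg ξ)).2
    fun i => norm_le_pi_norm ξ _).trans_lt G.xi).trans_le co.rX1
  have ω0 : (td Co x).ω i = 0 := hω _ (mem i)
  have pf := pr ρ hρ k1 _ _ _ _ g hβ hb ts
  have t01 : t₀ ∈ Icc (0 : ℝ) 1 := rep.one ▸ rep.maps (right_mem_Icc.2 zero_le_one)
  have pt := E.res_pt hM hρ hCM hs g pf i ω0 t01 hl
  have gs := gs ρ hρ k4
  rw [le_min_iff] at gs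
  have big := (g.adm i).big 1
  have b1 : 20 * E.C ^ 4 / ‖Om ((tu o π k).a i) (((td Co x).γ i).ze 1)‖ ≤ E.δ₁ / 2 :=
    le_trans (by gcongr) c7
  obtain ⟨ω', j', k', ts', w1, w2, w3, w4, w5⟩ := E.res_core h ts
    (le_trans (by rw [le_div_iff₀ s0]; nlinarith) g.rc) pf.nc
    (fun e => (pf.nk e).trans (by
      rw [show (td Co x).ωc e = 0 from rfl, norm_zero]
      nlinarith [E.δ₀0])) i (g.adm i) ok rep hs (g.al i)
    (by rw [mul_comm, ← div_le_iff₀ s0]; exact hl.trans (re_le_norm _)) pt (by linarith) rfl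
  obtain ⟨as1, as2⟩ := as ρ hρ k2 _ _ _ _ g hβ hb ts i
  have as2 := as2 ω0 φ γ' t₀ ok rep hl
  have ns := ns ρ hρ k3 _ _ _ _ g hβ hb ts i t₀ hl
  rw [ω0, norm_zero] at as1
  rw [ω0, map_zero, norm_zero, mul_zero, zero_add, le_div_iff₀ (by linarith)] at ns
  have al := g.al i
  generalize ha' : nsl _ _ _ = a' at ts' w3 w4 w5
  have e1 : td Co (x.upd (.inr i) γ' ω') = ⟨Function.update (td Co x).γ i γ',
      Function.update (td Co x).ω i ω', (td Co x).Rc, (td Co x).ωc⟩ := by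
    unfold td Cfg.upd
    simp only [upd_inr]
  have e2 : ∀ v, tu ⟨Function.update o.a (.inr i) a', Sum.elim (fun l => o.j (.inl l)) j', v⟩ π k' =
      ⟨Function.update (tu o π k).a i a', (tu o π k).π, j', k'⟩ := fun v => by
    unfold tu
    simp only [upd_inr, Sum.elim_inr]
  refine ⟨ω', ⟨Function.update o.a (.inr i) a', Sum.elim (fun l => o.j (.inl l)) j',
    o.v - tailF (o.a (.inr i)) (x.γ (.inr i)) (o.j (.inr i)) t₀⟩, ⟨π, k', ?_, ?_⟩, ?_, ?_, ?_, rfl,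
    fun l _ hl => Function.update_of_ne hl _ _, ?_, ?_, ?_⟩
  · exact e1 ▸ e2 _ ▸ ts'
  · rw [e1, e2, w3, ← hv]
    rfl
  · show _ ≤ E.δ₀ / 4
    linarith
  · have : 2 * (20 * E.C ^ 4 / ‖Om ((tu o π k).a i) (((td Co x).γ i).ze 1)‖) ≤
        C / ‖Om ((tu o π k).a i) (((td Co x).γ i).ze 1)‖ := by
      rw [← mul_div_assoc]
      gcongr
      linarith [(le_max_left _ _).trans hC']
    exact w1.trans (le_trans (by linarith) (add_le_add this le_rfl))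
  · linarith
  · exact (congrArg (R0v · γ' _ 1) (Function.update_self ..)).trans w4
  · exact (congrArg (R1v · γ' _ 1) (Function.update_self ..)).trans w5
  · rw [show (R0v _ _ _ _ - 2) / _ = a' from ha'] at as2
    show ‖Function.update o.a (.inr i) a' (.inr i) - (tu o π k).a i‖ ≤ C * ρ ^ 2 * (1 +
      ‖sE ((tu o π k).a i) (((td Co x).γ i).ze 1) - sE ((tu o π k).a i) (((td Co x).γ i).ze t₀)‖)
    rw [Function.update_self]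
    generalize (tu o π k).a i = a at *
    generalize sE a (((td Co x).γ i).ze 1) = s₁ at *
    generalize sE a (((td Co x).γ i).ze t₀) = s₀ at *
    have i1 : 1 / ‖Om a (((td Co x).γ i).ze 1)‖ ≤ 1 := by
      rw [div_le_one (by linarith)]
      linarith
    have f1 : ‖a + a ^ 2 * s₁ - ξ (.inr i)‖ ≤ ρ ^ 2 * (CA * 1 + 1) :=
      as1.trans (by gcongr; simpa using i1)
    have f2 : ‖a ^ 2 * (s₁ - s₀)‖ ≤ (M * ρ) ^ 2 * ‖s₁ - s₀‖ := by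
      rw [norm_mul, norm_pow]
      gcongr
    have f3 : a' - a = (a' + a ^ 2 * s₀ - ξ (.inr i)) - (a + a ^ 2 * s₁ - ξ (.inr i)) +
        a ^ 2 * (s₁ - s₀) := by ring
    have f4 : (2 * CA + 1 + M ^ 2) * ρ ^ 2 * (1 + ‖s₁ - s₀‖) ≤ C * ρ ^ 2 * (1 + ‖s₁ - s₀‖) := by
      gcongr
      exact (le_max_right _ _).trans hC'
    have f5 : 0 ≤ (2 * CA + 1) * ρ ^ 2 * ‖s₁ - s₀‖ + M ^ 2 * ρ ^ 2 := by positivity
    rw [f3]
    refine (norm_add_le _ _).trans ?_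
    linarith [norm_sub_le (a' + a ^ 2 * s₀ - ξ (.inr i)) (a + a ^ 2 * s₁ - ξ (.inr i))]

end Env

end Vale.Agent.P218N.Glue
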