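import Vale.Agent.P218N.Glue.Stmt
import Vale.Agent.P218N.End.Nice

/-! The glued problem: existence, uniqueness and symmetry for the first stage. -/

open Filter Topology Metric Set Complex
open scoped ComplexConjugate

noncomputable section

namespace Vale.Agent.P218N.Glue

open Vale.Agent.P218N.End Vale.Agent.P218N.J

variable {J0 Cy Co : Type} [Fintype J0] [Fintype Cy] [Fintype Co]

namespace S1a

/-! ### Norms -/

section nrm
variable (Γ : Ctr) (μ : ℤ → ℝ)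

theorem nrm_nonneg (w : BC) (j : EJ) : 0 ≤ Γ.nrm μ w j := le_max_of_le_left (norm_nonneg _)

theorem nrm_mono {w w' : BC} {A : ℝ} (h : ∀ t, ‖w t‖ ≤ A * ‖w' t‖) (hA : 0 ≤ A) (j : EJ) :
    Γ.nrm μ w j ≤ A * Γ.nrm μ w' j := by
  refine max_le ?_ ((norm_C_mul_mono h hA _).trans
    (mul_le_mul_of_nonneg_left (le_max_right _ _) hA))
  have h1 := nm_mono 1 j h hA
  rw [nm_one, nm_one] at h1
  exact h1.trans (mul_le_mul_of_nonneg_left (le_max_left _ _) hA)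

theorem piJ_zero : Γ.piJ μ 0 = 0 := by
  have h := Ctr.piJ_sub (Γ := Γ) (μ := μ) 0 0
  rwa [sub_self, sub_self] at h

theorem piJ_add (j j' : EJ) : Γ.piJ μ (j + j') = Γ.piJ μ j + Γ.piJ μ j' := by
  have h := Ctr.piJ_sub (Γ := Γ) (μ := μ) (j + j') j'
  rw [add_sub_cancel_right] at h
  rw [h, sub_add_cancel]

theorem nrm_zero (w : BC) : Γ.nrm μ w 0 = 0 := by
  rw [Ctr.nrm, piJ_zero, mul_zero, norm_zero, ← nm_one, nm_zero, max_self]

theorem nrm_add_le (w : BC) (j j' : EJ) : Γ.nrm μ w (j + j') ≤ Γ.nrm μ w j + Γ.nrm μ w j' := by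
  refine max_le ?_ ?_
  · have h := nm_add_le 1 w j j'
    simp only [nm_one] at h
    exact h.trans (add_le_add (le_max_left _ _) (le_max_left _ _))
  · rw [piJ_add, mul_add]
    exact (norm_add_le _ _).trans (add_le_add (le_max_right _ _) (le_max_right _ _))

theorem y2_le (j : EJ) (t : ℝ) : ‖tr t j.y2‖ ≤ Γ.nrm μ 1 j := by
  refine (norm_tr_apply_le t _).trans (le_max_of_le_left ?_)
  rw [EJ.wt_one]
  exact EJ.norm_y2_le j

theorem pi_le (j : EJ) (t : ℝ) : ‖tr t (Γ.piJ μ j)‖ ≤ Γ.nrm μ 1 j := by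
  refine (norm_tr_apply_le t _).trans (le_max_of_le_right ?_)
  rw [map_one, one_mul]

theorem nrm_one_le (φ : BC) (j : EJ) :
    Γ.nrm μ 1 j ≤ ‖Γ.Wt φ p0‖ * Γ.nrm μ (Γ.iW φ p0) j :=
  nrm_mono Γ μ (fun t => by
    have h1 : Γ.Wt φ p0 t * Γ.iW φ p0 t = 1 := congrArg (fun f : BC => f t) (Γ.Wt_mul_iW φ p0)
    have h2 : ‖(1 : BC) t‖ = ‖Γ.Wt φ p0 t‖ * ‖Γ.iW φ p0 t‖ := by
      rw [← norm_mul, h1]; rfl
    rw [h2]
    exact mul_le_mul_of_nonneg_right ((Γ.Wt φ p0).norm_coe_le_norm t) (norm_nonneg _))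
    (norm_nonneg _) j

theorem dsz_zero (s : ℤ → Icc (0 : ℝ) 1) (φ : BC) {d ω : WD} (hd : bwd s d = 0) (hω : ω = 0)
    (f : WB) : Γ.dsz s φ d ω f = ‖W.C (Γ.iW φ p0) * f‖ := by
  rw [Ctr.dsz, hd, hω, norm_zero, add_zero, mul_zero, zero_add]

end nrm

theorem sym_b (s : ℤ → Icc (0 : ℝ) 1) (m : ℤ) : ‖(if s m = p0 then 0 else 1 : ℂ)‖ ≤ 1 := by
  split_ifs <;> simp

theorem sym_f (s : ℤ → Icc (0 : ℝ) 1) (m : ℤ) : ‖(if s m = p0 then 1 else 0 : ℂ)‖ ≤ 1 := by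
  split_ifs <;> simp

theorem bwd_bwd (s : ℤ → Icc (0 : ℝ) 1) (d : WD) : bwd s (bwd s d) = bwd s d := by
  ext m
  simp only [bwd, c_mult (sym_b s)]
  split_ifs <;> simp

theorem bwd_all (d : WD) : bwd sdAll d = 0 := by
  ext m
  rw [bwd, c_mult (sym_b sdAll)]
  simp [sdAll]

theorem norm_fwd_le (s : ℤ → Icc (0 : ℝ) 1) (d : WD) : ‖fwd s d‖ ≤ ‖d‖ := by
  have h := norm_mult_apply_le (sym_f s) d
  rwa [one_mul] at h

theorem cj_low (d : WD) : W.cj (low d) = low (W.cj d) :=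
  cj_mult (fun m => by rw [sdCyl_neg]; split_ifs <;> simp) d

theorem norm_cjF {ι : Type} [Fintype ι] (d : ι → WD) : ‖cjF d‖ = ‖d‖ := by
  simp only [Pi.norm_def, cjF]
  congr 2
  funext i
  exact NNReal.eq (W.norm_cj _)

theorem norm_cjD (d : Dat Cy Co) : ‖cjD d‖ = ‖d‖ := by
  simp only [cjD, Prod.norm_def, norm_cjF]

theorem resc_zero (γ : Path) (j : EJ) : γ.resc 0 0 j = j := by
  have h : γ.rho 0 * binv (γ.rho 0) = 1 := by
    ext t
    have h1 : ∀ t, γ.rho 0 t = 2 := fun t => by simp [Path.rho_apply', rh]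
    rw [BoundedContinuousFunction.mul_apply,
      binv_apply' (δ := 1) (fun t => by rw [h1]; simp) t, h1]
    simp
  simp only [Path.resc, h, map_one, one_mul]
  rfl

theorem admP_mono {c c' K K' T : ℝ} {a : ℂ} {γ : Path} (h : AdmP c K T a γ) (hc : c' ≤ c)
    (hK : K' ≤ K) : AdmP c' K' T a γ :=
  ⟨h.ok, h.st, fun t => let ⟨u, a1, a2, a3, a4⟩ := h.dir t
    ⟨u, a1, hc.trans a2, le_trans (mul_le_mul_of_nonneg_right hc (norm_nonneg _)) a3, a4⟩,
    fun t => hK.trans (h.big t)⟩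

/-! ### Constants -/

variable {S : Sys J0 Cy Co} (E : Env S)

theorem sm4 {x y : ℝ} (hx : 0 ≤ x) (h : x * E.C ^ 8 ≤ y) :
    1000 * (E.C * x) ≤ y / E.C ^ 4 := by
  have hC := E.hC
  have h1 : (1000 : ℝ) ≤ E.C ^ 3 := by
    have : (10 : ℝ) ^ 3 ≤ E.C ^ 3 := pow_le_pow_left₀ (by norm_num) (by linarith) 3
    linarith
  rw [le_div_iff₀ (by positivity)]
  refine le_trans ?_ h
  calc 1000 * (E.C * x) * E.C ^ 4 ≤ E.C ^ 3 * (E.C * x) * E.C ^ 4 := by gcongr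
    _ = _ := by ring

theorem div4 {y : ℝ} (hy : 0 ≤ y) : y / E.C ^ 4 ≤ y :=
  div_le_self hy (one_le_pow₀ (by linarith [E.hC]))

theorem sm1 {x y : ℝ} (hx : 0 ≤ x) (h : x * E.C ^ 8 ≤ y) : 1000 * (E.C * x) ≤ y :=
  (sm4 E hx h).trans (div4 E (le_trans (by have := E.hC; positivity) h))

theorem leC {x : ℝ} (hx : 0 ≤ x) : x ≤ E.C * x :=
  le_mul_of_one_le_left hx (by linarith [E.hC])

/-- the size of the shrinker ends -/
def sgS : ℝ := E.CS * S.T ^ (-(9 / 10) : ℝ)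

/-- the numerical facts -/
structure Num : Prop where
  e1 : 1000 * E.ε ≤ 1
  d0 : 1000 * E.δ₀ ≤ E.δ
  d1 : 1000 * E.δ₁ ≤ E.δ₀
  K1 : 1000 ≤ E.K
  KT : E.K ≤ S.T
  s0 : 0 ≤ sgS E
  s1 : sgS E ≤ E.C * sgS E
  s2 : 1000 * (E.C * sgS E) ≤ E.δ₁
  m1 : E.μ ≤ E.C * E.μ
  m2 : 1000 * (E.C * E.μ) ≤ E.δ₁
  m3 : 1000 * E.μ ≤ E.r₀
  m4 : E.μ / E.C ^ 4 ≤ E.μ
  r1 : E.r ≤ E.Cb * E.r
  r2 : 1000 * (E.Cb * E.r) ≤ E.μ / E.C ^ 4
  c1 : E.c₀ ≤ E.C * E.c₀
  c2 : 1000 * (E.C * E.c₀) ≤ E.μ / E.C ^ 4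

theorem num : Num E := by
  have hC := E.hC
  have e1 := (mul_le_mul_of_nonneg_left (leC E E.ε0.le) (by norm_num)).trans (sm1 E E.ε0.le E.hε)
  have d0 := (mul_le_mul_of_nonneg_left (leC E E.δ₀0.le) (by norm_num)).trans
    (sm1 E E.δ₀0.le E.hδ₀)
  have d1 := (mul_le_mul_of_nonneg_left (leC E E.δ₁0.le) (by norm_num)).trans
    (sm1 E E.δ₁0.le E.hδ₁)
  have h0 := E.δ₁0
  have h1 : E.δ₁ ≤ 1 := by linarith [E.hδ, E.δ₀0, E.δ0, E.ε0]
  have h2 := sm1 E zero_le_one ((one_mul _).trans_le E.hK)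
  have K1 : 1000 ≤ E.K := by
    by_contra h
    nlinarith
  have KT : E.K ≤ S.T := (leC E (by linarith)).trans E.hT
  have s0 : 0 ≤ sgS E := mul_nonneg E.CS0 (Real.rpow_nonneg (by linarith) _)
  have b0 : 0 ≤ E.Cb * E.r := mul_nonneg (by linarith [E.Cb1]) E.r0.le
  exact ⟨e1, d0, d1, K1, KT, s0, leC E s0, sm1 E s0 E.hS, leC E E.μ0.le, sm1 E E.μ0.le E.hμ,
    (mul_le_mul_of_nonneg_left (leC E E.μ0.le) (by norm_num)).trans (sm1 E E.μ0.le E.hμ'),
    div4 E E.μ0.le, le_mul_of_one_le_left E.r0.le E.Cb1,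
    (mul_le_mul_of_nonneg_left (leC E b0) (by norm_num)).trans (sm4 E b0 E.hr),
    leC E E.c₀0.le, sm4 E E.c₀0.le E.hc₀⟩

include E in
theorem T0 : 1000 ≤ S.T := (num E).K1.trans (num E).KT

theorem c0 : 1000 * E.c₀ ≤ E.ε := by
  have n := num E
  linarith [n.c1, n.c2, n.m4, n.m1, n.m2, n.d1, n.d0, E.hδ, E.μ0, E.δ₁0, E.δ₀0]

theorem s1 : sgS E ≤ 1 / 1000 := by
  have n := num E
  linarith [n.s1, n.s2, n.d1, n.d0, n.e1, E.hδ, E.δ₁0, E.δ₀0, E.ε0]

/-! ### One cylindrical end -/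

/-- the weight -/
abbrev wC (γ : Path) (a : ℂ) : BC := (γ.cyl a).iW (γ.pw a (-(9 / 10))) p0

/-- real paths inside `[T, P]` with small slope -/
structure RA (P : ℝ) (γ : Path) (a : ℂ) : Prop where
  real : γ.RealP S.T
  up : (γ.ze 1).re ≤ P
  TP : S.T ≤ P
  sm : ‖a‖ ≤ E.c₀ / P

namespace RA
variable {E} {P : ℝ} {γ : Path} {a : ℂ} (h : RA E P γ a)
include h

theorem P0 : 0 < P := by linarith [T0 E, h.TP]

theorem zero : RA E P γ 0 := ⟨h.real, h.up, h.TP, by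
  rw [norm_zero]; exact div_nonneg E.c₀0.le h.P0.le⟩

theorem hP (t : ℝ) : (γ.ze t).re ≤ P := (le_re_of_dir one_pos h.real.ok h.real.dir t).2.trans h.up

theorem aP : ‖a‖ * P ≤ E.c₀ := (le_div_iff₀ h.P0).1 h.sm

theorem aT : ‖a‖ * S.T ≤ E.c₀ := (mul_le_mul_of_nonneg_left h.TP (norm_nonneg _)).trans h.aP

theorem sa : ‖a‖ * S.T ≤ E.ε := by linarith [h.aT, c0 E, E.c₀0]

theorem a4 : ‖a‖ ≤ 1 / (4 * P) := by
  rw [le_div_iff₀ (by linarith [h.P0])]
  linarith [h.aP, c0 E, (num E).e1, E.c₀0]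

theorem aK : ‖a‖ ≤ 1 / E.K := by
  have n := num E
  rw [le_div_iff₀ (by linarith [n.K1])]
  have := mul_le_mul_of_nonneg_left n.KT (norm_nonneg a)
  linarith [h.sa, n.e1, E.ε0]

theorem adm : AdmP (1 / 100) E.K S.T a γ :=
  admP_mono (h.real.admP (by linarith [T0 E]) h.hP h.a4) (by norm_num) (num E).KT

theorem typ : (γ.cyl a).TypW sdCyl (γ.pw a (-(9 / 10))) :=
  (E.wt E.K S.T a γ le_rfl (num E).KT h.aK h.adm).2.2.2.2.2.2.1 _ ⟨le_rfl, by norm_num⟩

theorem rh_bd (t : ℝ) : 7 / 4 ≤ ‖rh a (γ.ze t)‖ ∧ ‖rh a (γ.ze t)‖ ≤ 9 / 4 := by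
  have h1 := h.real.rh_near (by linarith [T0 E]) h.hP h.a4 t
  have h2 := abs_le.1 ((abs_norm_sub_norm_le (rh a (γ.ze t)) 2).trans h1)
  rw [Complex.norm_ofNat] at h2
  constructor <;> linarith [h2.1, h2.2]

theorem norm_w (t : ℝ) : ‖wC γ a t‖ =
    ((γ.ze t).re / S.T * (‖rh a (γ.ze 0)‖ / ‖rh a (γ.ze t)‖)) ^ (9 / 10 : ℝ) := by
  have h0 := T0 E
  have h1 := (h.rh_bd t).1
  have h2 := (h.rh_bd 0).1
  have h3 : 0 < (γ.ze t).re := by linarith [h.real.T_le t]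
  have h4 : 0 < S.T := by linarith
  rw [((E.wt E.K S.T a γ le_rfl (num E).KT h.aK h.adm).1 _ t).1, uu, uu, norm_div, norm_div,
    h.real.norm_ze (by linarith) t, ← h.real.st, h.real.norm_ze (by linarith) 0, h.real.st,
    ofReal_re, ← h.real.st, Real.rpow_neg (by positivity), ← Real.inv_rpow (by positivity)]
  congr 1
  field_simp

theorem norm_w0 (t : ℝ) : ‖wC γ 0 t‖ = ((γ.ze t).re / S.T) ^ (9 / 10 : ℝ) := by
  rw [h.zero.norm_w]
  simp [rh]

theorem one_le (t : ℝ) : 1 ≤ (γ.ze t).re / S.T :=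
  (one_le_div (by linarith [T0 E])).2 (h.real.T_le t)

theorem w0_ge (t : ℝ) : ‖(1 : BC) t‖ ≤ 1 * ‖wC γ 0 t‖ := by
  rw [h.norm_w0, one_mul]
  simpa using Real.one_le_rpow (h.one_le t) (by norm_num)

theorem w0_le (t : ℝ) : ‖wC γ 0 t‖ ≤ P / S.T := by
  rw [h.norm_w0]
  refine le_trans ?_ (div_le_div_of_nonneg_right (h.hP t) (by linarith [T0 E]))
  simpa using Real.rpow_le_rpow_of_exponent_le (h.one_le t) (show (9 / 10 : ℝ) ≤ 1 by norm_num)

theorem w_le (t : ℝ) : ‖wC γ a t‖ ≤ 2 * ‖wC γ 0 t‖ := by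
  have h1 := (h.rh_bd t).1
  have h2 := (h.rh_bd 0).2
  have h3 := h.one_le t
  have h4 : ‖rh a (γ.ze 0)‖ / ‖rh a (γ.ze t)‖ ≤ 2 := by
    rw [div_le_iff₀ (by linarith)]; linarith
  rw [h.norm_w, h.norm_w0, Real.mul_rpow (by positivity) (by positivity), mul_comm]
  refine mul_le_mul_of_nonneg_right ?_ (by positivity)
  refine (Real.rpow_le_rpow (by positivity) h4 (by norm_num)).trans ?_
  simpa using Real.rpow_le_rpow_of_exponent_le (show (1 : ℝ) ≤ 2 by norm_num)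
    (show (9 / 10 : ℝ) ≤ 1 by norm_num)

theorem wz_le (t : ℝ) : ‖(wC γ a * γ.ze) t‖ ≤ 2 * P * ‖wC γ 0 t‖ := by
  rw [BoundedContinuousFunction.mul_apply, norm_mul, h.real.norm_ze (by linarith [T0 E])]
  have h1 := mul_le_mul (h.w_le t) (h.hP t) (by linarith [T0 E, h.real.T_le t]) (by positivity)
  linarith

theorem Wt_le : ‖(γ.cyl a).Wt (γ.pw a (-(9 / 10))) p0‖ ≤ 1 := norm_BC_le fun t => by
  obtain ⟨h1, h2, -, h3, -⟩ := E.wt E.K S.T a γ le_rfl (num E).KT h.aK h.adm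
  rw [(h1 _ t).2]
  refine Real.rpow_le_one_of_one_le_of_nonpos ?_ (by norm_num)
  rw [← h.real.st, one_le_div (h3 0).1, ← PolyP.ze_cl h.real.ok t]
  exact h2 (cl_mem t).1

variable {v : ℝ × ℝ → ℝ} {jS : Path → EJ} {dS πS : ℝ → WD} (hc : CylEnd v jS dS πS E.Z E.CS)
include hc

theorem n0w : (γ.cyl 0).nrm muCyl (wC γ 0) (jS γ) ≤ sgS E := hc.dec _ _ E.hZ h.real

theorem n01 : (γ.cyl 0).nrm muCyl 1 (jS γ) ≤ sgS E :=
  (nrm_mono _ _ h.w0_ge zero_le_one _).trans ((one_mul _).trans_le (h.n0w hc))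

theorem trd : tr 0 (jS γ).y2 = dS S.T := by
  rw [(hc.trs _ _ E.hZ h.real 0).1, h.real.st, ofReal_re]

theorem trp : γ.piC 0 (jS γ) 0 = πS S.T := by
  rw [Path.piC, (hc.trs _ _ E.hZ h.real 0).2, h.real.st, ofReal_re]

theorem na (w : BC) : (γ.cyl a).IsJet (γ.resc 0 a (jS γ)) ∧
    (γ.cyl a).nrm muCyl w (γ.resc 0 a (jS γ)) ≤ E.C * (γ.cyl 0).nrm muCyl w (jS γ) ∧
    ‖W.C w * γ.Ecyl a (γ.resc 0 a (jS γ))‖ ≤ E.C * ‖a‖ *
      ((γ.cyl 0).nrm muCyl (w * γ.ze) (jS γ) + ‖a‖ * ‖w * γ.ze‖) ∧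
    ‖γ.piC a (γ.resc 0 a (jS γ)) 0 - πS S.T‖ ≤ E.C * ‖a‖ * S.T * (‖πS S.T‖ + ‖dS S.T‖) := by
  have n := num E
  obtain ⟨a1, a2, a3, a4⟩ := E.na S.T P 0 a γ (jS γ) w n.KT h.real h.hP h.zero.a4 h.a4
    (hc.sol _ _ E.hZ h.real).1 ((h.n01 hc).trans (by
      linarith [n.s1, n.s2, n.d1, n.d0, n.e1, E.hδ, E.δ₁0, E.δ₀0, E.ε0]))
  refine ⟨a1, a2, ?_, ?_⟩
  · rwa [(hc.sol _ _ E.hZ h.real).2, sub_zero, zero_sub, norm_neg, norm_zero, zero_add] at a3
  · have a5 := a4 0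
    rw [zero_sub, norm_neg, h.real.st, norm_real, Real.norm_of_nonneg (by linarith [T0 E]),
      h.trd hc] at a5
    rw [← h.trp hc]
    exact a5

theorem n11 : (γ.cyl a).nrm muCyl 1 (γ.resc 0 a (jS γ)) ≤ E.C * sgS E :=
  (h.na hc 1).2.1.trans (mul_le_mul_of_nonneg_left (h.n01 hc) (by linarith [E.hC]))

theorem n1w : (γ.cyl a).nrm muCyl (wC γ a) (γ.resc 0 a (jS γ)) ≤ 2 * (E.C * sgS E) := by
  have h1 := (nrm_mono (γ.cyl 0) muCyl h.w_le zero_le_two (jS γ)).trans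
    (mul_le_mul_of_nonneg_left (h.n0w hc) zero_le_two)
  have h2 := mul_le_mul_of_nonneg_left h1 (show 0 ≤ E.C by linarith [E.hC])
  linarith [(h.na hc (wC γ a)).2.1]

theorem res : ‖W.C (wC γ a) * γ.Ecyl a (γ.resc 0 a (jS γ))‖ ≤ E.C * E.c₀ := by
  have n := num E
  have hP := h.P0
  have hT := T0 E
  have h1 := (nrm_mono (γ.cyl 0) muCyl h.wz_le (by positivity) (jS γ)).trans
    (mul_le_mul_of_nonneg_left ((h.n0w hc).trans (s1 E)) (by positivity))
  have h2 : ‖wC γ a * γ.ze‖ ≤ 2 * P * (P / S.T) := norm_BC_le fun t =>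
    (h.wz_le t).trans (mul_le_mul_of_nonneg_left (h.w0_le t) (by positivity))
  have h3 : ‖a‖ * (P / S.T) ≤ 1 / 1000 := by
    rw [← mul_div_assoc, div_le_iff₀ (by linarith)]
    linarith [h.aP, c0 E, n.e1, E.ε0]
  have h4 : ‖a‖ * ‖wC γ a * γ.ze‖ ≤ 2 * P * (1 / 1000) := by
    have h5 := mul_le_mul_of_nonneg_left h2 (norm_nonneg a)
    have h6 := mul_le_mul_of_nonneg_left h3 (show 0 ≤ 2 * P by positivity)
    linarith
  refine (h.na hc (wC γ a)).2.2.1.trans ?_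
  rw [mul_assoc]
  refine mul_le_mul_of_nonneg_left (le_trans ?_ h.aP) (by linarith [E.hC])
  exact mul_le_mul_of_nonneg_left (by linarith) (norm_nonneg _)

theorem nd : ‖dS S.T‖ ≤ 1 / 1000 := by
  rw [← h.trd hc]
  exact (y2_le _ _ _ _).trans ((h.n01 hc).trans (s1 E))

theorem np : ‖πS S.T‖ ≤ 1 / 1000 := by
  rw [← h.trp hc]
  exact (pi_le _ _ _ _).trans ((h.n01 hc).trans (s1 E))

/-- the mismatch at `T` -/
theorem mis : ‖cvY a 0 S.T (dS S.T) - dS S.T‖ ≤ E.C * E.c₀ ∧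
    ‖πS S.T - cvP a 0 S.T (dS S.T) (γ.piC a (γ.resc 0 a (jS γ)) 0)‖ ≤ 2 * (E.C * E.c₀) := by
  have n := num E
  have hT := T0 E
  have hC : 0 ≤ E.C := by linarith [E.hC]
  have k0 := c0 E
  have hc0 := E.c₀0
  have he := n.e1
  obtain ⟨u, u1, u2, u3, -⟩ := h.adm.dir 0
  have u4 := h.adm.big 0
  rw [h.real.st] at u3 u4
  have t0 : 0 ≤ tht a 0 S.T := by unfold tht; positivity
  have t1 : tht a 0 S.T ≤ E.c₀ / 2 := by
    have e : ((S.T : ℂ) - 2) = ((S.T - 2 : ℝ) : ℂ) := by push_cast; ring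
    rw [tht, sub_zero, e, norm_real, Real.norm_of_nonneg (by linarith)]
    simp only [rh, zero_mul, add_zero, Complex.norm_ofNat]
    linarith [h.aT, norm_nonneg a]
  obtain ⟨b1, -, b3, -⟩ := E.pt.1 E.K a 0 S.T u (dS S.T) (γ.piC a (γ.resc 0 a (jS γ)) 0) le_rfl
    (by rw [ofReal_re]; exact n.KT) h.aK h.zero.aK u1 u2 u3 u4 (by linarith) (by simp [rh])
  have d1 := h.nd hc
  have d2 := h.np hc
  have d3 : ‖γ.piC a (γ.resc 0 a (jS γ)) 0‖ ≤ 1 / 1000 :=
    (pi_le _ _ _ _).trans ((h.n11 hc).trans (by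
      linarith [n.s2, n.d1, n.d0, E.hδ, E.δ₁0, E.δ₀0, E.ε0]))
  have d4 : 1 / E.K ≤ 1 / 1000 := one_div_le_one_div_of_le (by norm_num) n.K1
  have d5 : E.C * tht a 0 S.T ≤ E.C * E.c₀ / 2 := by
    rw [mul_div_assoc]; exact mul_le_mul_of_nonneg_left t1 hC
  have d6 : 0 ≤ E.C * E.c₀ := by positivity
  refine ⟨b1.trans ((mul_le_mul d5 (show _ ≤ 2 by linarith) (by positivity)
    (by positivity)).trans (by linarith)), ?_⟩
  have d7 := b3.trans (mul_le_mul d5 (show _ ≤ 2 by linarith) (by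
    have := n.K1
    positivity) (by positivity))
  have d8 : E.C * ‖a‖ * S.T ≤ E.C * E.c₀ := by
    rw [mul_assoc]; exact mul_le_mul_of_nonneg_left h.aT hC
  have d9 := (h.na hc 1).2.2.2.trans (mul_le_mul d8 (show _ ≤ 1 by linarith) (by positivity) d6)
  have := norm_sub_le_norm_sub_add_norm_sub (πS S.T) (γ.piC a (γ.resc 0 a (jS γ)) 0)
    (cvP a 0 S.T (dS S.T) (γ.piC a (γ.resc 0 a (jS γ)) 0))
  rw [norm_sub_rev] at d7 d9
  linarith

end RA

theorem ra {P : ℝ} {γ : Cy → Path} {γc : Co → Path} {a : Cy → ℂ} (hP : S.T ≤ P)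
    (h : S.RS 0 P γ γc) (ha : ‖a‖ < E.c₀ / P) (i : Cy) : RA E P (γ i) (a i) :=
  ⟨(h.cyl i).1, (h.cyl i).2.2, hP, (norm_le_pi_norm a i).trans ha.le⟩

/-! ### One conical end -/

section cone
variable {γ : Path} (h : γ.RealP S.T) (e : Co)
include E h

theorem ksol : γ.IsCone (S.cc e) (S.ka e) (S.kd e) (S.kS e γ) :=
  let ⟨_, hc⟩ := E.coneE e
  hc.sol _ _ E.hZ h

theorem ktr : tr 0 (S.kS e γ).y2 = S.dK e S.T ∧ γ.piK (S.cc e) (S.kS e γ) 0 = S.πK e S.T := by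
  obtain ⟨_, hc⟩ := E.coneE e
  have h1 := hc.trs _ _ E.hZ h 0
  rwa [h.st, ofReal_re] at h1

theorem kwc : γ.cone.WC (pk E.Λ γ 0) E.Λ 0 (1 / 5) :=
  ((E.wtK γ h).1 0 ⟨le_rfl, by norm_num⟩).1

theorem kWt : ‖γ.cone.Wt (pk E.Λ γ 0) p0‖ ≤ 2 := norm_BC_le fun t => by
  simpa using (((E.wtK γ h).1 0 ⟨le_rfl, by norm_num⟩).2 t).2

omit h in
theorem krl : W.cj (S.ka e) = S.ka e ∧ W.cj (S.kd e) = S.kd e := by
  obtain ⟨_, hc⟩ := E.coneE e
  have h1 : W.cj (S.ka e) = S.ka e := isRl_iff_WD.2 hc.ka_real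
  refine ⟨h1, W.ext fun m => ?_⟩
  have h2 : star ((S.ka e).c (-m)) = (S.ka e).c m := congrArg (fun d : WD => d.c m) h1
  rw [W.c_cj, hc.kd_eq, hc.kd_eq, star_mul', h2]
  simp

end cone

end S1a

open S1a

namespace Env
variable {S : Sys J0 Cy Co} (E : Env S)

theorem s1ex (h : E.Exm) : E.S1ex := by
  intro P γ γc hP hR
  have n := num E
  have hC : 0 ≤ E.C := by linarith [E.hC]
  have hμ := E.μ0
  have hr := E.r0
  have hc := E.c₀0
  have hδ := E.δ0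
  have hδ₀ := E.δ₀0
  have hδ₁ := E.δ₁0
  have hCμ : 0 ≤ E.C * E.μ := by positivity
  have hCc : 0 ≤ E.C * E.c₀ := by positivity
  have d01 := n.d0
  have d12 := n.d1
  have hs1 := n.s1
  have hs2 := n.s2
  have hm1 := n.m1
  have hm2 := n.m2
  have hm3 := n.m3
  have hm4 := n.m4
  have hr1 := n.r1
  have hr2 := n.r2
  have hc1 := n.c1
  have hc2 := n.c2
  choose v hv using E.cylE
  set U : Set ((Cy → ℂ) × (J0 → ℂ)) := ball 0 (E.c₀ / P) ×ˢ ball 0 E.r with hU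
  have hUo : IsOpen U := isOpen_ball.prod isOpen_ball
  have mem : ∀ z ∈ U, ‖z.1‖ < E.c₀ / P ∧ ‖z.2‖ < E.r := fun z hz =>
    ⟨mem_ball_zero_iff.1 hz.1, mem_ball_zero_iff.1 hz.2⟩
  have R : ∀ z ∈ U, ∀ i, RA E P (γ i) (z.1 i) := fun z hz => ra E hP hR (mem z hz).1
  have ha : ∀ i, DifferentiableOn ℂ (fun z : (Cy → ℂ) × (J0 → ℂ) => z.1 i) U := fun i => by
    fun_prop
  have hρ : ∀ i, DifferentiableOn ℂ (fun z : (Cy → ℂ) × (J0 → ℂ) => (γ i).rho (z.1 i)) U :=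
    fun i => (Path.Hol.const (γ i) hUo).rho (ha i)
  have res : ∀ z ∈ U, ∀ i, ((γ i).cyl (z.1 i)).dsz sdCyl ((γ i).pw (z.1 i) (-(9 / 10))) 0 0
      ((γ i).Ecyl (z.1 i) ((γ i).resc 0 (z.1 i) (S.jS i (γ i)))) ≤ E.C * E.c₀ := fun z hz i => by
    rw [dsz_zero _ _ _ (map_zero _) rfl]
    exact (R z hz i).res (hv i)
  have resK : ∀ e, (γc e).cone.dsz sdAll (pk E.Λ (γc e) 0) 0 0
      ((γc e).Econe (S.cc e) (S.ka e) (S.kd e) (S.kS e (γc e))) = 0 := fun e => by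
    rw [dsz_zero _ _ _ (map_zero _) rfl, (ksol E (hR.cone e).1 e).2, mul_zero, norm_zero]
  obtain ⟨η, π, w, wc, k1, k2, k3, k4, k5⟩ := h ((Cy → ℂ) × (J0 → ℂ)) U sdCyl E.μ (E.μ / E.C ^ 4)
    (fun z => z.2) (fun z => z.1) (fun _ => γ) γc (fun z i => (γ i).pw (z.1 i) (-(9 / 10)))
    (fun z i => (γ i).pw (z.1 i) (-(9 / 10))) (fun e => pk E.Λ (γc e) 0) (fun e => pk E.Λ (γc e) 0)
    (fun z i => (γ i).resc 0 (z.1 i) (S.jS i (γ i))) (fun _ e => S.kS e (γc e)) (fun _ => 0)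
    (fun _ η => η) (fun _ => 0) (fun _ => 0) (fun _ => 0) hUo hμ
    (div_mul_cancel₀ _ (by have := E.hC; positivity)).le differentiableOn_snd differentiableOn_fst
    (fun _ => differentiableOn_const _) (fun _ => differentiableOn_const _)
    (differentiableOn_pi.2 fun i => ((((ha i).const_mul 2).const_sub 2).const_mul _).fun_smul
      ((differentiableOn_binv' hUo (hρ i) (M := fun _ => 1) continuousOn_const fun z hz t => by
        have := ((R z hz i).rh_bd t).1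
        rw [Path.rho_apply']
        linarith).const_mul _))
    (differentiableOn_pi.2 fun i => by
      have h1 := DifferentiableOn.WC ((hρ i).mul_const (binv ((γ i).rho 0)))
      exact (differentiableOn_const _).prodMk ((h1.mul_const _).prodMk
        ((h1.mul_const _).prodMk (differentiableOn_const _))))
    (differentiableOn_const _) (differentiableOn_const _) differentiableOn_snd
    (differentiableOn_const _) (differentiableOn_const _) (differentiableOn_const _)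
    (fun e => ⟨(hR.cone e).1, kwc E (hR.cone e).1, kwc E (hR.cone e).1⟩) (fun z hz => by
      have hb : ‖z.2‖ < E.r := (mem z hz).2
      have hp : ‖((z.2, 0, 0) : CP J0 Cy Co)‖ < E.r₀ := by
        simp only [Prod.norm_def, norm_zero, max_self]
        exact max_lt (by linarith) (by linarith)
      have hp0 : ‖(0 : CP J0 Cy Co)‖ < E.r₀ := by rw [norm_zero]; linarith
      have hbb : E.Cb * ‖z.2‖ ≤ E.Cb * E.r :=
        mul_le_mul_of_nonneg_left hb.le (by linarith [E.Cb1])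
      have o1 : ∀ i, ‖(S.out (z.2, 0, 0)).1 i‖ ≤ E.Cb * E.r := fun i => by
        have := E.core.lip1 _ _ hp hp0 i
        simp only [E.core.zero, Prod.fst_zero, Prod.snd_zero, Pi.zero_apply, sub_zero, map_zero,
          norm_zero, mul_zero, add_zero] at this
        exact this.trans hbb
      have o2 : ∀ e, ‖(S.out (z.2, 0, 0)).2 e‖ ≤ E.Cb * E.r := fun e => by
        have := E.core.lip2 _ _ hp hp0 e
        simp only [E.core.zero, Prod.fst_zero, Prod.snd_zero, Pi.zero_apply, sub_zero,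
          norm_zero, mul_zero, add_zero] at this
        exact this.trans hbb
      refine ⟨fun i => (R z hz i).sa, fun i => (R z hz i).adm,
        fun i => ⟨(R z hz i).typ, (R z hz i).typ⟩,
        fun i => ⟨((R z hz i).na (hv i) 1).1, ((R z hz i).n11 (hv i)).trans (by linarith)⟩,
        fun e => ⟨(ksol E (hR.cone e).1 e).1, by rw [sub_self, nrm_zero]; linarith⟩,
        by linarith, by rw [norm_zero]; linarith, fun η hη => ⟨by linarith, ?_, fun i => ?_⟩,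
        fun i => ?_, fun i => ?_, fun e => ?_, fun e => ?_,
        fun i => (res z hz i).trans (by linarith), fun e => (resK e).trans_le (by positivity),
        fun i => ?_, fun e => ?_⟩
      · rw [sub_zero]; linarith [norm_nonneg η]
      · rw [Pi.zero_apply, sub_zero, map_sub, bwd_bwd, sub_self, norm_zero]; positivity
      · have e1 : tr 0 ((γ i).resc 0 (z.1 i) (S.jS i (γ i))).y2 = S.dS i S.T :=
          (R z hz i).trd (hv i)
        rw [e1, show ∀ x y z : WD, x + y - z = y - (z - x) from fun x y z => by abel]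
        exact (norm_sub_le _ _).trans ((add_le_add (o1 i) ((R z hz i).mis (hv i)).1).trans
          (by linarith))
      · have e1 : tr 0 ((γ i).resc 0 (z.1 i) (S.jS i (γ i))).y2 = S.dS i S.T :=
          (R z hz i).trd (hv i)
        rw [e1, Prod.fst_zero, Pi.zero_apply, add_zero]
        exact ((R z hz i).mis (hv i)).2.trans (by linarith)
      · rw [(ktr E (hR.cone e).1 e).1, add_sub_cancel_left]
        exact (o2 e).trans (by linarith)
      · rw [(ktr E (hR.cone e).1 e).2, Prod.snd_zero, Pi.zero_apply, add_zero, sub_self, norm_zero]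
        positivity
      · have b1 := mul_le_mul (mul_le_mul_of_nonneg_left (R z hz i).Wt_le hC)
          (add_le_add (le_refl (6 * E.μ)) ((res z hz i).trans (show _ ≤ E.μ by linarith)))
          (by unfold Ctr.dsz; positivity) (by positivity)
        exact b1.trans (by linarith)
      · rw [Pi.zero_apply, resK e, add_zero]
        have b1 := mul_le_mul_of_nonneg_right
          (mul_le_mul_of_nonneg_left (kWt E (hR.cone e).1) hC) (show 0 ≤ 6 * E.μ by positivity)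
        exact b1.trans (by linarith))
  refine ⟨η, π, fun z i => (γ i).resc 0 (z.1 i) (S.jS i (γ i)) + w z i,
    fun z e => S.kS e (γc e) + wc z e, k1, k2, ?_, k4.const_add fun e => S.kS e (γc e),
    fun a b ha' hb' => ?_⟩
  · refine DifferentiableOn.add (differentiableOn_pi.2 fun i => ?_) k3
    have h1 := DifferentiableOn.WC ((hρ i).mul_const (binv ((γ i).rho 0)))
    exact (differentiableOn_const _).prodMk ((h1.mul_const _).prodMk
      ((h1.mul_const _).prodMk (differentiableOn_const _)))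
  have hz : (a, b) ∈ U := ⟨mem_ball_zero_iff.2 ha', mem_ball_zero_iff.2 hb'⟩
  have c := k5 _ hz
  refine ⟨c.ms, c.bw, c.hη.le, by simpa using c.hπ, fun i => ?_, fun i => ?_, fun e => ?_,
    fun i => ?_, fun e => ?_⟩
  · have e1 : low (tr 1 (w (a, b) i).y2) = 0 := (c.jet i).2.2.1.trans (map_zero _)
    rw [EJ.add_y2, map_add, map_add, e1, add_zero]
    rfl
  · have e1 : tr 1 (((γ i).cyl (a i)).piJ muCyl (w (a, b) i)) = 0 := (c.jet i).2.2.2
    simp only [Path.piC]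
    rw [piJ_add, map_add, e1, add_zero]
  · have e1 : tr 1 ((γc e).cone.piJ (muCone (S.cc e)) (wc (a, b) e)) = 0 := (c.kjet e).2.2
    simp only [Path.piK]
    rw [piJ_add, map_add, e1, add_zero]
  · have r := R _ hz i
    have b1 := ((E.far.1 S.T (a i) (γ i) sdCyl _ n.KT r.aK r.adm r.typ).1 _ _ (c.ms.cyl i).1
      (r.na (hv i) 1).1 (by rw [sub_zero]; exact c.ms.ncyl i)
      (by rw [sub_zero]; exact (r.n11 (hv i)).trans (by linarith))).1
    have e1 : tr 1 (((γ i).cyl (a i)).piJ muCyl (w (a, b) i)) = 0 := (c.jet i).2.2.2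
    have e2 : (γ i).Ecyl (a i) ((γ i).resc 0 (a i) (S.jS i (γ i)) + w (a, b) i) = 0 :=
      (c.ms.cyl i).2
    rw [add_sub_cancel_left, dsz_zero _ _ _ ((c.jet i).2.2.1.trans (map_zero _)) e1,
      e2, zero_sub, mul_neg, norm_neg] at b1
    have b2 := mul_le_mul_of_nonneg_left (add_le_add ((norm_fwd_le sdCyl _).trans (c.jet i).2.1)
      ((r.res (hv i)).trans (show _ ≤ E.μ by linarith))) hC
    exact (nrm_add_le _ _ _ _ _).trans
      ((add_le_add (r.n1w (hv i)) (b1.trans b2)).trans (by linarith))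
  · have r := (hR.cone e).1
    have b1 := ((E.fcone e (γc e) _ r (kwc E r)).1 _ _ (c.ms.cone e).1 (ksol E r e).1
      (c.ms.ncone e) (by rw [sub_self, nrm_zero]; linarith)).1
    have e1 : tr 1 ((γc e).cone.piJ (muCone (S.cc e)) (wc (a, b) e)) = 0 := (c.kjet e).2.2
    rw [add_sub_cancel_left, dsz_zero _ _ _ (bwd_all _) e1,
      (c.ms.cone e).2, (ksol E r e).2, sub_self, mul_zero, norm_zero, add_zero] at b1
    have b2 := mul_le_mul_of_nonneg_left ((norm_fwd_le sdAll _).trans (c.kjet e).2.1) hC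
    rw [add_sub_cancel_left]
    exact (nrm_one_le _ _ (pk E.Λ (γc e) 0) _).trans ((mul_le_mul (kWt E r) (b1.trans b2)
      (nrm_nonneg _ _ _ _) zero_le_two).trans (by linarith))

theorem s1sym (h1 : E.Cmp) (h2 : E.CjMS) : E.S1sym := by
  intro P γ γc hP hR
  have n := num E
  have hT := T0 E
  have hμ := E.μ0
  have hδ := E.δ0
  have hδ₀ := E.δ₀0
  have hδ₁ := E.δ₁0
  choose v hv using E.cylE
  refine ⟨?_, fun a b x π j k ha s => ⟨fun x' π' j' k' s' => ?_, ?_⟩⟩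
  · have R : ∀ i, RA E P (γ i) 0 := ra E (a := 0) hP hR
      (by rw [norm_zero]; exact div_pos E.c₀0 (by linarith))
    have z : ‖(0 : ℂ)‖ < 1 / (4 * S.T) := by rw [norm_zero]; positivity
    have e0 : S.out (0, 0, 0) = 0 := E.core.zero
    refine ⟨⟨?_, fun i => (hv i).sol _ _ E.hZ (R i).real,
      fun i => ((R i).n01 (hv i)).trans (by linarith [n.s1, n.s2, n.d1, n.d0]), fun i => ?_,
      fun i => ?_, fun e => ksol E (hR.cone e).1 e, fun e => by rw [sub_self, nrm_zero]; linarith,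
      fun e => ?_, fun e => ?_⟩, fun i => map_zero _, by rw [norm_zero]; linarith,
      by rw [norm_zero]; linarith, fun i => rfl, fun i => by rw [Pi.zero_apply, resc_zero],
      fun e => rfl, fun i => ((R i).n0w (hv i)).trans (by linarith [n.s1, n.s2, n.s0]),
      fun e => by rw [sub_self, nrm_zero]; linarith⟩
    · change ‖(0 : CP J0 Cy Co)‖ < _
      rw [norm_zero]; linarith [n.m3]
    · rw [e0, Pi.zero_apply, (E.pt2 S.T 0 0 0 _ 0 hT z z z).1, (R i).trd (hv i)]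
      exact add_zero _
    · rw [Pi.zero_apply, (E.pt2 S.T 0 0 0 _ _ hT z z z).2.1, (R i).trp (hv i)]
      exact add_zero _
    · rw [e0, (ktr E (hR.cone e).1 e).1]
      exact add_zero _
    · rw [(ktr E (hR.cone e).1 e).2]
      exact add_zero _
  · have R := ra E hP hR ha
    have c := (h1 (b, x, π) (b, x', π') sdCyl a γ j j' γc k k'
      (fun i => (γ i).pw (a i) (-(9 / 10))) (fun e => pk E.Λ (γc e) 0) 0 ‖x - x'‖ s.ms s'.ms le_rfl
      le_rfl (fun i => ⟨(R i).sa, (R i).adm, (R i).typ, by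
        have e1 : bwd sdCyl (tr 1 (j i).y2 - tr 1 (j' i).y2) = 0 := by
          rw [map_sub]; exact sub_eq_zero.2 ((s.ty i).trans (s'.ty i).symm)
        rw [e1, s.tp, s'.tp, sub_self, norm_zero, add_zero, mul_zero]⟩)
      (fun e => ⟨(hR.cone e).1, kwc E (hR.cone e).1, by
        rw [s.kp, s'.kp, sub_self, norm_zero, mul_zero]⟩) _ le_rfl).2.1
    have h0 := norm_nonneg (x - x')
    have h3 : E.C ^ 4 * E.ε ≤ 1 / 2 := by
      have h4 := sm4 E E.ε0.le E.hε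
      have h5 := leC E E.ε0.le
      have h6 : 0 < E.C ^ 4 := by have := E.hC; positivity
      rw [le_div_iff₀ h6] at h4
      nlinarith [mul_le_mul_of_nonneg_right h5 h6.le, mul_pos h6 E.ε0]
    have h7 : ‖x - x'‖ ≤ 1 / 2 * ‖x - x'‖ := by
      refine (pi_norm_le_iff_of_nonneg (by positivity)).2 fun i => ?_
      have h8 := (c i).1
      simp only [sub_self, norm_zero, mul_zero, add_zero] at h8
      rw [bwd_bwd, map_sub, s.lo, s'.lo, ← mul_assoc] at h8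
      exact h8.trans (mul_le_mul_of_nonneg_right h3 h0)
    exact sub_eq_zero.1 (norm_eq_zero.1 (by linarith))
  · have R := ra E hP hR ha
    obtain ⟨c1, -, c3, c4⟩ := h2 E.δ P (b, x, π) a γ j γc k le_rfl hR
      (fun i => ⟨(R i).a4, (R i).sa⟩) s.ms
    have cj := fun i (j : EJ) => (E.cj S.T P (γ i) j hT (R i).real).1
    have ck := fun e (j : EJ) => (E.cj S.T P (γc e) j hT (hR.cone e).1).2 (S.cc e) _ _
      (krl E e).1 (krl E e).2
    refine ⟨c1, fun i => ?_, (norm_cjF x).trans_le s.xb, (norm_cjD π).trans_le s.pb, fun i => ?_,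
      fun i => ?_, fun e => ?_, fun i => ?_, fun e => ?_⟩
    · rw [cjF, ← cj_low, s.lo]
    · rw [EJ.y2_cj, ← cj_tr, ← cj_low, s.ty, cj_low, cj_tr, ← EJ.y2_cj, c3]
    · have e1 := (cj i (S.jS i (γ i)) 0 (a i) (R i).up (R i).zero.a4 (R i).a4).2.2.2.2.2.1
      rw [map_zero, c3] at e1
      have e2 := fun j => (cj i j (a i) (a i) (R i).up (R i).a4 (R i).a4).2.2.1
      have e3 := s.tp i
      simp only [Path.piC] at e3 ⊢
      change tr 1 (((γ i).cyl (conj (a i))).piJ muCyl (j i).cj) = tr 1 (((γ i).cyl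
        (conj (a i))).piJ muCyl ((γ i).resc 0 (conj (a i)) (S.jS i (γ i))))
      rw [e1, e2, e2, ← cj_tr, ← cj_tr, e3]
    · have e3 := s.kp e
      simp only [Path.piK] at e3 ⊢
      rw [(ck e _).2.2.1, ← cj_tr, e3, cj_tr, ← (ck e _).2.2.1, c4]
    · exact ((cj i (j i) (a i) (a i) (R i).up (R i).a4 (R i).a4).2.2.2.1 _).trans_le (s.dec i)
    · rw [← c4, ← EJ.cj_sub, (ck e _).2.2.2.1]
      exact s.kdec e

end Env

end Vale.Agent.P218N.Glue
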