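import Vale.Agent.P218N.Glue.Stmt
import Vale.Agent.P218N.End.Ap
import Vale.Agent.P218N.End.ApiBas

/-! The first stage: consistency under truncation and dependence on the slopes. -/

open Filter Topology Metric Set Complex

noncomputable section

namespace Vale.Agent.P218N.Glue

open Vale.Agent.P218N.End Vale.Agent.P218N.J

namespace S1b

section gen
variable {c c' K K' T P A : ℝ} {a : ℂ} {γ : Path} {Γ : Ctr} {μ : ℤ → ℝ} {w w' : BC}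

theorem admP_mono (h : AdmP c K T a γ) (hc : c' ≤ c) (hK : K' ≤ K) : AdmP c' K' T a γ :=
  ⟨h.ok, h.st, fun t => (h.dir t).imp fun _ k => ⟨k.1, hc.trans k.2.1,
    (mul_le_mul_of_nonneg_right hc (norm_nonneg _)).trans k.2.2.1, k.2.2.2⟩,
    fun t => hK.trans (h.big t)⟩

theorem y2_le (j : EJ) : ‖W.C w * j.y2‖ ≤ Γ.nrm μ w j :=
  (j.wt w).norm_y2_le.trans (le_max_left _ _)

theorem nrm_nn (j : EJ) : 0 ≤ Γ.nrm μ w j := (norm_nonneg _).trans (y2_le j)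

theorem nrm_mono (hA : 0 ≤ A) (h : ∀ t, ‖w t‖ ≤ A * ‖w' t‖) (j : EJ) :
    Γ.nrm μ w j ≤ A * Γ.nrm μ w' j := by
  have k : ∀ f : WB, ‖W.C w' * f‖ ≤ Γ.nrm μ w' j → ‖W.C w * f‖ ≤ A * Γ.nrm μ w' j := fun f hf =>
    (wle hA h f).trans (mul_le_mul_of_nonneg_left hf hA)
  have l := le_max_left ‖j.wt w'‖ ‖W.C w' * Γ.piJ μ j‖
  exact max_le (EJ.norm_le _ (k _ (y2_le j)) (k _ ((j.wt w').norm_op_le.trans l))
    (k _ ((j.wt w').norm_oq_le.trans l)) (k _ ((j.wt w').norm_pt_le.trans l)))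
    (k _ (le_max_right _ _))

theorem nrm_sub (j j' : EJ) : Γ.nrm μ w (j - j') ≤ Γ.nrm μ w j + Γ.nrm μ w j' := by
  refine max_le ?_ ?_
  · rw [EJ.wt_sub]
    exact (norm_sub_le _ _).trans (add_le_add (le_max_left _ _) (le_max_left _ _))
  · rw [Ctr.piJ_sub, mul_sub]
    exact (norm_sub_le _ _).trans (add_le_add (le_max_right _ _) (le_max_right _ _))

theorem tr_le (t : ℝ) (w : BC) (f : WB) : ‖w t‖ * ‖tr t f‖ ≤ ‖W.C w * f‖ := by
  have : tr t (W.C w * f) = w t • tr t f := by ext m; simp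
  rw [← norm_smul, ← this]
  exact norm_tr_apply_le t _

theorem tr_y2 (t : ℝ) (j : EJ) : ‖w t‖ * ‖tr t j.y2‖ ≤ Γ.nrm μ w j := (tr_le t w _).trans (y2_le j)

theorem tr_pi (t : ℝ) (j : EJ) : ‖w t‖ * ‖tr t (Γ.piJ μ j)‖ ≤ Γ.nrm μ w j :=
  (tr_le t w _).trans (le_max_right _ _)

theorem tr_y2' (t : ℝ) (j : EJ) : ‖tr t j.y2‖ ≤ Γ.nrm μ 1 j := by simpa using tr_y2 (w := 1) t j

theorem tr_pi' (t : ℝ) (j : EJ) : ‖tr t (Γ.piJ μ j)‖ ≤ Γ.nrm μ 1 j := by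
  simpa using tr_pi (w := 1) t j

theorem nb (s : ℤ → Icc (0 : ℝ) 1) (m : ℤ) : ‖(if s m = p0 then 0 else 1 : ℂ)‖ ≤ 1 := by
  split_ifs <;> simp

theorem bwd_le (s : ℤ → Icc (0 : ℝ) 1) (d : WD) : ‖bwd s d‖ ≤ ‖d‖ :=
  (norm_mult_apply_le (nb s) d).trans_eq (one_mul _)

theorem fwd_le (s : ℤ → Icc (0 : ℝ) 1) (d : WD) : ‖fwd s d‖ ≤ ‖d‖ :=
  (norm_mult_apply_le (K := 1) (fun m => by split_ifs <;> simp) d).trans_eq (one_mul _)

theorem bwd_all (d : WD) : bwd sdAll d = 0 := by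
  ext m
  rw [bwd, c_mult (nb _)]
  simp [sdAll]

theorem low_one : low 1 = 1 := by
  ext m
  rw [low, bwd, c_mult (nb _), W.c_one]
  by_cases h : m = 0
  · simp [h, sdCyl, p0, p1, Subtype.ext_iff]
  · simp [h]

theorem resc_sub (γ : Path) (a a' : ℂ) (j j' : EJ) :
    γ.resc a a' (j - j') = γ.resc a a' j - γ.resc a a' j' := by
  simp only [Path.resc, EJ.sub_y2, EJ.sub_op, EJ.sub_oq, EJ.sub_pt, mul_sub, Prod.mk_sub_mk]

theorem resc_self (h : γ.CV a) (j : EJ) : γ.resc a a j = j := by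
  have : γ.rho a * binv (γ.rho a) = 1 := by
    ext t
    rw [BoundedContinuousFunction.mul_apply, h.ir]
    exact mul_inv_cancel₀ (h.rh_ne t)
  simp only [Path.resc, this, map_one, one_mul]
  rfl

theorem uu_ratio (h : γ.RealP T) (hT : 2 ≤ T) (hP : ∀ t, (γ.ze t).re ≤ P)
    (ha : ‖a‖ ≤ 1 / (4 * P)) (t : ℝ) :
    0 < uu a T / uu a (γ.ze t) ∧ uu a T / uu a (γ.ze t) ≤ 2 * (T / (γ.ze t).re) := by
  have k : ∀ t, 4 / 9 * (γ.ze t).re ≤ uu a (γ.ze t) ∧ uu a (γ.ze t) ≤ 4 / 7 * (γ.ze t).re :=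
    fun t => by
      have h1 := h.rh_near hT hP ha t
      have h2 := norm_le_insert' (rh a (γ.ze t)) 2
      have h3 := norm_le_insert (rh a (γ.ze t)) 2
      have h4 := h.T_le t
      rw [Complex.norm_ofNat] at h2 h3
      rw [uu, norm_div, h.norm_ze (by linarith), le_div_iff₀ (by linarith), div_le_iff₀ (by linarith)]
      constructor <;> nlinarith
  have k0 := k 0
  have k1 := k t
  have h4 := h.T_le t
  rw [h.st, ofReal_re] at k0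
  refine ⟨div_pos (by linarith) (by linarith), ?_⟩
  rw [← mul_div_assoc, div_le_div_iff₀ (by linarith) (by linarith)]
  nlinarith

theorem uu_zero (h : γ.RealP T) (hT : 0 ≤ T) (t : ℝ) :
    uu 0 T / uu 0 (γ.ze t) = T / (γ.ze t).re := by
  simp only [uu, rh, zero_mul, add_zero, norm_div, h.norm_ze hT, norm_real, Real.norm_of_nonneg hT,
    Complex.norm_ofNat]
  rw [div_div_div_cancel_right₀ two_ne_zero]

theorem dec_pt {q Q N δ : ℝ} (hq : 0 < q) (hQ : q ≤ Q) (hδ : 0 ≤ δ)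
    (h : q ^ (-(9 / 10) : ℝ) * N ≤ δ) : N ≤ δ * Q ^ (9 / 10 : ℝ) := by
  rw [Real.rpow_neg hq.le, inv_mul_le_iff₀ (Real.rpow_pos_of_pos hq _), mul_comm] at h
  exact h.trans (by gcongr)

theorem key_w {q ρ : ℝ} (hq : 0 < q) (h : q ≤ 2 * ρ) (h1 : ρ ≤ 1) :
    q ^ (9 / 20 : ℝ) ≤ 2 ∧ q ^ (9 / 20 : ℝ) ≤ 2 * ρ * ρ ^ (-(9 / 10) : ℝ) := by
  have h0 : 0 < ρ := by linarith
  have h2 : (2 : ℝ) ^ (9 / 20 : ℝ) ≤ 2 :=
    (Real.rpow_le_rpow_of_exponent_le one_le_two (by norm_num)).trans_eq (Real.rpow_one 2)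
  have h3 : q ^ (9 / 20 : ℝ) ≤ 2 * ρ ^ (9 / 20 : ℝ) :=
    calc _ ≤ (2 * ρ) ^ (9 / 20 : ℝ) := by gcongr
      _ ≤ _ := by rw [Real.mul_rpow zero_le_two h0.le]; gcongr
  refine ⟨h3.trans (by linarith [Real.rpow_le_one h0.le h1 (by norm_num : (0 : ℝ) ≤ 9 / 20)]),
    h3.trans ?_⟩
  rw [mul_assoc, mul_comm ρ, ← Real.rpow_add_one h0.ne']
  gcongr ?_ * ?_
  exact Real.rpow_le_rpow_of_exponent_ge h0 h1 (by norm_num)

theorem sm {C x y : ℝ} (hC : 100000 ≤ C) (hx : 0 ≤ x) (h : x * C ^ 8 ≤ y) {n : ℕ} (hn : n ≤ 7) :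
    100000 * (C ^ n * x) ≤ y := by
  have h1 : C ^ n ≤ C ^ 7 := pow_le_pow_right₀ (by linarith) hn
  calc _ ≤ C * (C ^ 7 * x) := by gcongr
    _ = x * C ^ 8 := by ring
    _ ≤ y := h

end gen

variable {J0 Cy Co : Type} [Fintype J0] [Fintype Cy] [Fintype Co] {S : Sys J0 Cy Co} (E : Env S)

/-- the inequalities between the constants -/
structure Num : Prop where
  e1 : 100000 * E.ε ≤ 1
  e4 : 100000 * (E.C ^ 3 * E.ε) ≤ 1
  e5 : 100000 * (E.C ^ 4 * E.ε) ≤ 1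
  d0 : E.δ₁ ≤ 1 / 1000
  d1 : E.C * E.δ₁ ≤ E.δ
  d4 : 100000 * (E.C ^ 4 * E.δ₁) ≤ 1
  d5 : 100000 * (E.C ^ 5 * E.δ₁) ≤ 1
  c1 : E.c₀ ≤ E.δ₁
  c2 : E.c₀ ≤ E.ε
  c3 : E.C * E.c₀ ≤ 1 / 2
  K1 : 1000 ≤ E.K
  KT : E.K ≤ S.T
  Td : 1 ≤ S.T * E.δ₁
  cs : E.CS * S.T ^ (-(9 / 10) : ℝ) ≤ E.δ₁

theorem num : Num E := by
  have hC := E.hC
  have a0 := sm hC E.ε0.le E.hε (n := 0) (by norm_num)
  have a1 := sm hC E.δ₀0.le E.hδ₀ (n := 0) (by norm_num)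
  have a2 := sm hC E.δ₁0.le E.hδ₁ (n := 0) (by norm_num)
  have a3 := sm hC E.δ₁0.le E.hδ₁ (n := 1) (by norm_num)
  have a4 := sm hC E.δ₁0.le E.hδ₁ (n := 4) (by norm_num)
  have a5 := sm hC E.δ₁0.le E.hδ₁ (n := 5) (by norm_num)
  have a6 := sm hC E.μ0.le E.hμ (n := 0) (by norm_num)
  have a7 := sm hC E.c₀0.le E.hc₀ (n := 0) (by norm_num)
  have a8 := sm hC E.c₀0.le E.hc₀ (n := 1) (by norm_num)
  have T0 : 0 < S.T := by
    have : 0 < E.K := (mul_pos_iff_of_pos_right E.δ₁0).1 (lt_of_lt_of_le (by positivity) E.hK)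
    exact lt_of_lt_of_le (by positivity) E.hT
  have a9 := sm hC (mul_nonneg E.CS0 (Real.rpow_nonneg T0.le _)) E.hS (n := 0) (by norm_num)
  have b0 := sm hC zero_le_one ((one_mul _).trans_le E.hK) (n := 0) (by norm_num)
  have h1 := E.hδ
  have h2 := E.δ₁0
  have h3 := E.μ0
  have h4 := E.c₀0
  have h5 := E.δ₀0
  have h6 := E.δ0
  have h7 := mul_nonneg E.CS0 (Real.rpow_nonneg T0.le (-(9 / 10)))
  have h8 : 0 < E.C * E.δ₁ := by positivity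
  simp only [pow_zero, pow_one, one_mul, mul_one] at a0 a1 a2 a3 a6 a7 a8 a9 b0
  have k1 : 1000 ≤ E.K := by nlinarith
  have k2 : E.K ≤ S.T := by nlinarith [E.hT]
  exact ⟨a0, sm hC E.ε0.le E.hε (by norm_num), sm hC E.ε0.le E.hε (by norm_num), by linarith,
    by linarith, by linarith, by linarith, by linarith, by linarith, by linarith, k1, k2,
    by nlinarith, by linarith⟩

/-- facts about slopes and real paths -/
structure Pa (P : ℝ) (a : ℂ) (γ : Path) : Prop where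
  rl : γ.RealP S.T
  le : ∀ t, (γ.ze t).re ≤ P
  a4 : ‖a‖ ≤ 1 / (4 * P)
  aP : ‖a‖ * P ≤ E.c₀
  aT : ‖a‖ * S.T ≤ E.c₀
  aK : ‖a‖ ≤ 1 / E.K
  adm : AdmP (1 / 100) E.K S.T a γ

variable {E}

theorem pa {P : ℝ} {a : ℂ} {γ : Path} (h : γ.RealP S.T) (hP : (γ.ze 1).re ≤ P)
    (ha : ‖a‖ ≤ E.c₀ / P) : Pa E P a γ := by
  have n := num E
  have l : ∀ t, (γ.ze t).re ≤ P := fun t => (le_re_of_dir one_pos h.ok h.dir t).2.trans hP
  have h1 : S.T ≤ P := (h.T_le 0).trans (l 0)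
  have := n.K1
  have := n.KT
  have := n.c1
  have := n.d0
  have h2 := (le_div_iff₀ (by linarith)).1 ha
  have h3 : ‖a‖ ≤ 1 / (4 * P) := (le_div_iff₀ (by linarith)).2 (by linarith)
  have h4 : ‖a‖ * S.T ≤ E.c₀ := le_trans (by gcongr) h2
  exact ⟨h, l, h3, h2, h4, (le_div_iff₀ (by linarith)).2 (by nlinarith [norm_nonneg a]),
    admP_mono (h.admP (by linarith) l h3) (by norm_num) n.KT⟩

theorem Pa.w {P : ℝ} {a : ℂ} {γ : Path} (h : Pa E P a γ) (p t : ℝ) :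
    ‖(γ.cyl a).iW (γ.pw a p) p0 t‖ = (uu a S.T / uu a (γ.ze t)) ^ p :=
  ((E.wt _ _ _ _ le_rfl (num E).KT h.aK h.adm).1 p t).1

theorem Pa.ty {P : ℝ} {a : ℂ} {γ : Path} (h : Pa E P a γ) :
    (γ.cyl a).TypW sdCyl (γ.pw a (9 / 20)) :=
  (E.wt _ _ _ _ le_rfl (num E).KT h.aK h.adm).2.2.2.2.2.2.1 _ (by norm_num)

theorem Pa.q {P : ℝ} {a : ℂ} {γ : Path} (h : Pa E P a γ) (t : ℝ) :
    0 < uu a S.T / uu a (γ.ze t) ∧ uu a S.T / uu a (γ.ze t) ≤ 2 * (S.T / (γ.ze t).re) :=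
  uu_ratio h.rl (by linarith [(num E).K1, (num E).KT]) h.le h.a4 t

theorem Pa.dec {P Q : ℝ} {a : ℂ} {γ : Path} (h : Pa E P a γ) {j : EJ} {t : ℝ} (hQ : 0 < Q)
    (ht : Q ≤ (γ.ze t).re)
    (hj : (γ.cyl a).nrm muCyl ((γ.cyl a).iW (γ.pw a (-(9 / 10))) p0) j ≤ E.δ₁) :
    ‖tr t j.y2‖ ≤ E.δ₁ * (2 * (S.T / Q)) ^ (9 / 10 : ℝ) ∧
      ‖γ.piC a j t‖ ≤ E.δ₁ * (2 * (S.T / Q)) ^ (9 / 10 : ℝ) := by
  have h0 : 0 ≤ S.T := by linarith [(num E).K1, (num E).KT]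
  have h1 : uu a S.T / uu a (γ.ze t) ≤ 2 * (S.T / Q) := (h.q t).2.trans (by gcongr)
  exact ⟨dec_pt (h.q t).1 h1 E.δ₁0.le (h.w _ t ▸ (tr_y2 t j).trans hj),
    dec_pt (h.q t).1 h1 E.δ₁0.le (h.w _ t ▸ (tr_pi t j).trans hj)⟩

theorem cyl_est {P B : ℝ} {a : ℂ} {γ : Path} (h : Pa E P a γ) (h0 : Pa E P 0 γ) {j j' jS : EJ}
    (hB : ‖a‖ ≤ B) (hj : γ.IsCyl a j) (nj : (γ.cyl a).nrm muCyl 1 j ≤ E.δ) (hj' : γ.IsCyl 0 j')
    (dj : (γ.cyl 0).nrm muCyl ((γ.cyl 0).iW (γ.pw 0 (-(9 / 10))) p0) j' ≤ E.δ₁)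
    (hS : (γ.cyl 0).IsJet jS)
    (dS : (γ.cyl 0).nrm muCyl ((γ.cyl 0).iW (γ.pw 0 (-(9 / 10))) p0) jS ≤ E.δ₁)
    (ty : low (tr 1 j.y2) = low (tr 1 j'.y2)) (tp : γ.piC a j 1 = γ.piC a (γ.resc 0 a jS) 1)
    (tp' : γ.piC 0 j' 1 = γ.piC 0 jS 1) :
    ‖cvY a 0 S.T (tr 0 j.y2) - tr 0 j'.y2 - tr 0 (j - γ.resc 0 a j').y2 - ((S.τ : ℂ) * a) • 1‖ ≤
      E.C * E.ε * ‖tr 0 (j - γ.resc 0 a j').y2‖ + 7 * (E.C * (E.δ₁ * S.T * B)) ∧
    ‖cvP a 0 S.T (tr 0 j.y2) (γ.piC a j 0) - γ.piC 0 j' 0 - γ.piC a (j - γ.resc 0 a j') 0‖ ≤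
      E.C * E.ε * (‖γ.piC a (j - γ.resc 0 a j') 0‖ + ‖tr 0 (j - γ.resc 0 a j').y2‖) +
        7 * (E.C * (E.δ₁ * S.T * B)) ∧
    ‖γ.piC a (j - γ.resc 0 a j') 0‖ + ‖bwd sdCyl (tr 0 (j - γ.resc 0 a j').y2)‖ ≤
      E.ε * ‖fwd sdCyl (tr 0 (j - γ.resc 0 a j').y2)‖ + E.C * (8 * (E.C * (E.δ₁ * S.T * B))) := by
  have n := num E
  have T1 : 1000 ≤ S.T := n.K1.trans n.KT
  have T0 : 0 < S.T := by linarith
  have C0 : 0 ≤ E.C := by linarith [E.hC]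
  have d0 := E.δ₁0.le
  have a0 := norm_nonneg a
  have aT := h.aT
  have c1 := n.c1
  set w' := (γ.cyl 0).iW (γ.pw 0 (-(9 / 10))) p0
  set w := (γ.cyl a).iW (γ.pw a (9 / 20)) p0 with hw
  have z0 : ∀ t, 0 < (γ.ze t).re := fun t => T0.trans_le (h.rl.T_le t)
  have ρ1 : ∀ t, S.T / (γ.ze t).re ≤ 1 := fun t => (div_le_one (z0 t)).2 (h.rl.T_le t)
  have w1 : ∀ t, ‖w' t‖ = (S.T / (γ.ze t).re) ^ (-(9 / 10) : ℝ) := fun t => by
    rw [← uu_zero h.rl T0.le, h0.w]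
  have n1 : ∀ J, (γ.cyl 0).nrm muCyl 1 J ≤ (γ.cyl 0).nrm muCyl w' J := fun J =>
    (nrm_mono zero_le_one (fun t => by
      simpa [w1] using Real.one_le_rpow_of_pos_of_le_one_of_nonpos (div_pos T0 (z0 t)) (ρ1 t)
        (by norm_num : (-(9 / 10) : ℝ) ≤ 0)) J).trans_eq (one_mul _)
  have w2 : ∀ t, ‖(w * γ.ze) t‖ ≤ 2 * P ∧ ‖(w * γ.ze) t‖ ≤ 2 * S.T * ‖w' t‖ := fun t => by
    obtain ⟨k1, k2⟩ := key_w (h.q t).1 (h.q t).2 (ρ1 t)
    have k3 := z0 t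
    rw [BoundedContinuousFunction.mul_apply, norm_mul, hw, h.w, w1, h.rl.norm_ze T0.le]
    refine ⟨mul_le_mul k1 (h.le t) k3.le zero_le_two,
      (mul_le_mul_of_nonneg_right k2 k3.le).trans_eq ?_⟩
    field_simp
  have na := fun J (w : BC) => E.na S.T P 0 a γ J w n.KT h.rl h.le h0.a4 h.a4
  have j1 := (n1 j').trans dj
  obtain ⟨m1, m2, -, m4⟩ := na j' 1 hj'.1 (by linarith [n.d0])
  have m3 := (na j' w hj'.1 (by linarith [n.d0])).2.2.1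
  have s1 := (nrm_sub jS j').trans (add_le_add dS dj)
  have m5 := (na (jS - j') 1 (hS.sub hj'.1) (by linarith [n1 (jS - j'), n.d0])).2.2.2 1
  simp only [zero_sub, norm_neg, norm_zero, zero_add] at m3 m4 m5
  have y0 := (tr_y2' 0 j').trans j1
  have π0 := (tr_pi' 0 j').trans j1
  have hθ : tht a 0 S.T ≤ E.ε := by
    rw [tht, sub_zero, rh, zero_mul, add_zero, Complex.norm_ofNat, ← ofReal_ofNat, ← ofReal_sub,
      norm_real, Real.norm_of_nonneg (by linarith)]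
    nlinarith [n.c2]
  obtain ⟨u, u1, u2, u3, -⟩ := h.adm.dir 0
  have u4 := h.adm.big 0
  rw [h.rl.st] at u3 u4
  have pt1 := fun d π => E.pt.1 E.K a 0 S.T u d π le_rfl n.KT h.aK h0.aK u1 u2 u3 u4
    (by linarith [n.e1]) (by simp [rh])
  have pt2 := fun d π => (E.pt.2 S.T n.KT).2.2.2 a 0 d π
    ((lt_div_iff₀ (by positivity)).2 (by linarith [n.d0])) (by rw [norm_zero]; positivity)
  have pt3 := fun d π => E.pt2 S.T 0 0 0 d π T1 (by rw [norm_zero]; positivity)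
    (by rw [norm_zero]; positivity) (by rw [norm_zero]; positivity)
  simp only [sub_zero, norm_zero, add_zero, (pt3 _ 0).1, (pt3 _ _).2.1] at pt2
  have ey : (γ.resc 0 a j').y2 = j'.y2 := rfl
  have H : ∀ {x y : ℝ}, x ≤ y * E.δ₁ → E.C * ‖a‖ * S.T * x ≤ E.C * ‖a‖ * (y * (E.δ₁ * S.T)) :=
    fun hx => (mul_le_mul_of_nonneg_left hx (by positivity)).trans_eq (by ring)
  have G : ∀ {x : ℝ}, 0 ≤ x → E.C * ‖a‖ * (x * (E.δ₁ * S.T)) ≤ x * (E.C * (E.δ₁ * S.T * B)) :=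
    fun hx => (mul_le_mul_of_nonneg_right (mul_le_mul_of_nonneg_left hB C0)
      (by positivity)).trans_eq (by ring)
  refine ⟨?_, ?_, ?_⟩
  · have k1 : ‖sgm a 0 S.T - 1‖ ≤ E.C * E.ε := by
      have := (pt1 0 0).1
      simp only [cvY, smul_zero, zero_add, sub_zero, norm_smul, norm_one, mul_one, norm_zero,
        add_zero] at this
      exact this.trans (by gcongr)
    have k2 : cvY a 0 S.T (tr 0 j.y2) - tr 0 j'.y2 - tr 0 (j - γ.resc 0 a j').y2 -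
        ((S.τ : ℂ) * a) • 1 = (sgm a 0 S.T - 1) • tr 0 (j - γ.resc 0 a j').y2 +
          (cvY a 0 S.T (tr 0 j'.y2) - tr 0 j'.y2 - (a * (S.T - 2) / 4) • 1) := by
      simp only [cvY, EJ.sub_y2, ey, map_sub, Sys.τ]
      push_cast
      module
    rw [k2]
    refine (norm_add_le _ _).trans (add_le_add ?_ ((pt2 _ 0).2.trans ((H (by linarith)).trans
      (G (by norm_num)))))
    rw [norm_smul]
    gcongr
  · have k1 := m4 0
    rw [h.rl.st, norm_real, Real.norm_of_nonneg T0.le] at k1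
    have k2 : ‖γ.piC a (γ.resc 0 a j') 0 - γ.piC 0 j' 0‖ ≤ E.C * ‖a‖ * (2 * (E.δ₁ * S.T)) :=
      k1.trans (H (by linarith))
    have k3 : ‖γ.piC a (γ.resc 0 a j') 0‖ ≤ 2 * E.δ₁ := by
      have : E.C * (‖a‖ * S.T) ≤ E.C * E.c₀ := by gcongr
      have := norm_le_insert' (γ.piC a (γ.resc 0 a j') 0) (γ.piC 0 j' 0)
      have : ‖γ.piC 0 j' 0‖ ≤ E.δ₁ := π0
      nlinarith [n.c3]
    have k4 : γ.piC a (j - γ.resc 0 a j') 0 = γ.piC a j 0 - γ.piC a (γ.resc 0 a j') 0 := by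
      rw [Path.piC, Ctr.piJ_sub, map_sub]
      rfl
    have k5 := (pt1 (tr 0 j.y2) (γ.piC a j 0)).2.2.2.2.1 (tr 0 j'.y2) (γ.piC a (γ.resc 0 a j') 0)
    have k6 : ‖cvP a 0 S.T (tr 0 j'.y2) (γ.piC a (γ.resc 0 a j') 0) - γ.piC a (γ.resc 0 a j') 0‖ ≤
        E.C * ‖a‖ * (5 * (E.δ₁ * S.T)) := by
      refine (pt2 _ _).1.trans (mul_le_mul_of_nonneg_left ?_ (by positivity))
      have : S.T * (‖γ.piC a (γ.resc 0 a j') 0‖ + ‖tr 0 j'.y2‖ + S.T * ‖a‖) ≤ S.T * (4 * E.δ₁) :=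
        mul_le_mul_of_nonneg_left (by linarith) T0.le
      linarith [n.Td]
    rw [k4, EJ.sub_y2, ey, map_sub]
    calc _ = ‖(cvP a 0 S.T (tr 0 j.y2) (γ.piC a j 0) -
          cvP a 0 S.T (tr 0 j'.y2) (γ.piC a (γ.resc 0 a j') 0) -
          (γ.piC a j 0 - γ.piC a (γ.resc 0 a j') 0)) +
          (cvP a 0 S.T (tr 0 j'.y2) (γ.piC a (γ.resc 0 a j') 0) - γ.piC a (γ.resc 0 a j') 0) +
          (γ.piC a (γ.resc 0 a j') 0 - γ.piC 0 j' 0)‖ := by congr 1; abel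
      _ ≤ _ := norm_add₃_le.trans ?_
    have k7 := G (x := 7) (by norm_num)
    have k8 := k5.trans (mul_le_mul_of_nonneg_right (mul_le_mul_of_nonneg_left hθ C0)
      (by positivity))
    linarith
  · have ap := ((E.far.1 S.T a γ sdCyl _ n.KT h.aK h.adm h.ty).1 j _ hj.1 m1 (by rwa [sub_zero])
      (by rw [sub_zero]; exact m2.trans (le_trans (by gcongr) n.d1))).2
    rw [zero_mul, add_zero] at ap
    refine ap.trans (add_le_add_right (mul_le_mul_of_nonneg_left ?_ C0) _)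
    have k1 : tr 1 ((γ.cyl a).piJ muCyl (j - γ.resc 0 a j')) =
        tr 1 ((γ.cyl a).piJ muCyl (γ.resc 0 a (jS - j'))) := by
      rw [resc_sub, Ctr.piJ_sub, Ctr.piJ_sub, map_sub, map_sub]
      exact congrArg (· - _) tp
    have k2 : tr 1 ((γ.cyl 0).piJ muCyl (jS - j')) = 0 := by
      rw [Ctr.piJ_sub, map_sub]
      exact sub_eq_zero.2 tp'.symm
    rw [k2, sub_zero, norm_zero, zero_add] at m5
    rw [hj'.2, sub_zero] at m3
    rw [Ctr.dsz, EJ.sub_y2, ey, map_sub, map_sub, ty, sub_self, norm_zero, zero_add, k1, hj.2,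
      zero_sub, mul_neg, norm_neg, ← hw]
    have k3 : ‖w 1‖ * ‖γ.ze 1‖ * ‖tr 1 (jS - j').y2‖ ≤ 4 * (E.δ₁ * S.T) := by
      have b1 := (w2 1).2
      rw [BoundedContinuousFunction.mul_apply, norm_mul] at b1
      calc _ ≤ 2 * S.T * (‖w' 1‖ * ‖tr 1 (jS - j').y2‖) := by rw [← mul_assoc]; gcongr
        _ ≤ 2 * S.T * (E.δ₁ + E.δ₁) := by gcongr; exact (tr_y2 1 _).trans s1
        _ = _ := by ring
    have k4 : (γ.cyl 0).nrm muCyl (w * γ.ze) j' + ‖a‖ * ‖w * γ.ze‖ ≤ 4 * (E.δ₁ * S.T) := by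
      have b1 := (nrm_mono (by positivity) (fun t => (w2 t).2) j').trans
        (mul_le_mul_of_nonneg_left dj (by positivity))
      have b2 : ‖a‖ * ‖w * γ.ze‖ ≤ ‖a‖ * (2 * P) := by
        gcongr
        exact norm_BC_le fun t => (w2 t).1
      nlinarith [h.aP]
    have k5 := G (x := 8) (by norm_num)
    have k6 := m3.trans (mul_le_mul_of_nonneg_left k4 (by positivity))
    have k7 := mul_le_mul_of_nonneg_left m5 (norm_nonneg (w 1))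
    have k8 := mul_le_mul_of_nonneg_left k3 (mul_nonneg C0 a0)
    linarith

end S1b

open S1b

variable {J0 Cy Co : Type} [Fintype J0] [Fintype Cy] [Fintype Co] {S : Sys J0 Cy Co} (E : Env S)

theorem Env.s1cons (h1 : E.Cmp) (h2 : E.Restr) : E.S1cons := by
  intro P P' γ γ' γc γc' φ ψ a b x π j k x' π' j' k' hP hP' R R' hφ hψ ha s s'
  have n := num E
  have T0 : 0 < S.T := by linarith [n.K1, n.KT]
  have P0 : 0 < P := T0.trans_le hP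
  have d0 := E.δ₁0.le
  have la : ∀ i, ‖a i‖ ≤ E.c₀ / P' := fun i => (norm_le_pi_norm a i).trans ha.le
  have p := fun i => pa (R.cyl i).1 (R.cyl i).2.2 (la i)
  have p' := fun i => pa (R'.cyl i).1 (R'.cyl i).2.2 (la i)
  have o1 : (1 : ℝ) ∈ Icc (0 : ℝ) 1 := ⟨zero_le_one, le_rfl⟩
  obtain ⟨m, r1, r2⟩ := h2 _ _ a γ γ' j γc γc' k φ ψ le_rfl s.ms
    (fun i => ⟨(p i).aT.trans n.c2, admP_mono (p i).adm (by norm_num) (by linarith [n.K1]),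
      (p' i).rl.ok, hφ i⟩) fun e => ⟨(R.cone e).1, (R'.cone e).1, hψ e⟩
  have q0 : 0 < S.T / P := by positivity
  have q1 : S.T / P ≤ 1 := (div_le_one P0).2 hP
  set q := S.T / P with hq
  have hD : 0 ≤ 16 * E.δ₁ * q ^ (27 / 20 : ℝ) := by positivity
  have key := (h1 (b, x, π) (b, x', π') sdCyl a γ' _ j' γc' _ k'
    (fun i => (γ' i).pw (a i) (9 / 20)) (fun e => pk E.Λ (γc' e) 2) _ _ m s'.ms hD le_rfl
    (fun i => ⟨(p i).aT.trans n.c2, (p' i).adm, (p' i).ty, ?_⟩)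
    (fun e => ⟨(R'.cone e).1, ((E.wtK _ (R'.cone e).1).1 2 (by norm_num)).1, ?_⟩) _ le_rfl).2.1
  · have h3 : ‖x - x'‖ ≤ E.C ^ 4 * (E.ε * ‖x - x'‖ + 16 * E.δ₁ * q ^ (27 / 20 : ℝ)) := by
      refine (pi_norm_le_iff_of_nonneg (by have := E.ε0; positivity)).2 fun i => ?_
      have := (key i).1
      simp only [map_sub, s.lo, s'.lo, sub_self, norm_zero, mul_zero, add_zero] at this
      exact this
    have h4 := Real.rpow_nonneg q0.le (27 / 20 : ℝ)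
    nlinarith [n.e5, n.d4, norm_nonneg (x - x')]
  · have e1 := (hφ i).1.eq 1 o1
    obtain ⟨b1, b2⟩ := (p i).dec (t := φ i 1) P0 (e1 ▸ (R'.cyl i).2.1) (s.dec i)
    obtain ⟨b3, b4⟩ := (p' i).dec P0 (R'.cyl i).2.1 (s'.dec i)
    rw [(r1 i 1 o1).1, (r1 i 1 o1).2.1, (p' i).w]
    have h3 : (uu (a i) S.T / uu (a i) ((γ' i).ze 1)) ^ (9 / 20 : ℝ) ≤ (2 * q) ^ (9 / 20 : ℝ) :=
      Real.rpow_le_rpow ((p' i).q 1).1.le (((p' i).q 1).2.trans (by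
        rw [hq]; gcongr; exact (R'.cyl i).2.1)) (by norm_num)
    have h4 : (2 * q) ^ (9 / 20 : ℝ) * (2 * q) ^ (9 / 10 : ℝ) ≤ 4 * q ^ (27 / 20 : ℝ) := by
      rw [← Real.rpow_add (by positivity), Real.mul_rpow zero_le_two q0.le]
      norm_num
      gcongr
      exact (Real.rpow_le_rpow_of_exponent_le one_le_two (by norm_num : (27 / 20 : ℝ) ≤ 2)).trans_eq
        (by norm_num)
    calc _ ≤ (2 * q) ^ (9 / 20 : ℝ) * (4 * (E.δ₁ * (2 * q) ^ (9 / 10 : ℝ))) := by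
          gcongr
          linarith [(bwd_le sdCyl _).trans (norm_sub_le (tr (φ i 1) (j i).y2) (tr 1 (j' i).y2)),
            norm_sub_le ((γ i).piC (a i) (j i) (φ i 1)) ((γ' i).piC (a i) (j' i) 1)]
      _ = 4 * E.δ₁ * ((2 * q) ^ (9 / 20 : ℝ) * (2 * q) ^ (9 / 10 : ℝ)) := by ring
      _ ≤ 4 * E.δ₁ * (4 * q ^ (27 / 20 : ℝ)) := by gcongr
      _ = _ := by ring
  · rw [s'.kp, (r2 e 1 o1).1, (r2 e 1 o1).2.1, Path.piK, Path.piK, ← map_sub, ← Ctr.piJ_sub]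
    have h3 : ‖(γc' e).cone.iW (pk E.Λ (γc' e) 2) p0 1‖ ≤ q ^ (27 / 20 : ℝ) := by
      have h4 := (R'.cone e).2
      refine (((E.wtK _ (R'.cone e).1).1 2 (by norm_num)).2 1).1.trans (le_trans ?_
        (Real.rpow_le_rpow_of_exponent_ge q0 q1 (by norm_num : (27 / 20 : ℝ) ≤ 2)))
      exact Real.rpow_le_rpow (div_nonneg T0.le (by linarith)) (by rw [hq]; gcongr) zero_le_two
    calc _ ≤ q ^ (27 / 20 : ℝ) * E.δ₁ := by gcongr; exact (tr_pi' _ _).trans (s.kdec e)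
      _ ≤ _ := by nlinarith

theorem Env.s1lip (h : E.Loop) : E.S1lip := by
  intro P γ γc a b x π j k x' π' j' k' hP R ha s s'
  have n := num E
  have T1 : 1000 ≤ S.T := n.K1.trans n.KT
  have C0 : 0 ≤ E.C := by linarith [E.hC]
  have d0 := E.δ₁0.le
  have τ1 : S.T ≤ 5 * S.τ := by rw [Sys.τ]; linarith
  have τ0 : 0 ≤ S.τ := by linarith
  have p := fun i => pa (R.cyl i).1 (R.cyl i).2.2 ((norm_le_pi_norm a i).trans ha.le)
  have p0 := fun i => pa (a := 0) (R.cyl i).1 (R.cyl i).2.2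
    (norm_zero.trans_le ((norm_nonneg a).trans ha.le))
  have pt3 := fun d π => E.pt2 S.T 0 0 0 d π T1 (by rw [norm_zero]; positivity)
    (by rw [norm_zero]; positivity) (by rw [norm_zero]; positivity)
  set Y : Cy → WD := fun i => x i - x' i - ((S.τ : ℂ) * a i) • 1 with hY
  have hX : ‖x - x'‖ ≤ ‖Y‖ + S.τ * ‖a‖ := by
    refine (pi_norm_le_iff_of_nonneg (by positivity)).2 fun i => ?_
    refine (norm_le_insert' _ (((S.τ : ℂ) * a i) • (1 : WD))).trans ?_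
    rw [norm_smul, norm_one, mul_one, norm_mul, norm_real, Real.norm_of_nonneg τ0, add_comm]
    gcongr
    · exact norm_le_pi_norm Y i
    · exact norm_le_pi_norm a i
  have key := (h (b, x, π) (b, x', π') sdCyl (fun i => tr 0 (j i - (γ i).resc 0 (a i) (j' i)).y2)
    (fun i => (γ i).piC (a i) (j i - (γ i).resc 0 (a i) (j' i)) 0) (fun i => ((S.τ : ℂ) * a i) • 1)
    (7 * (E.C * (E.δ₁ * S.T * ‖a‖))) (E.C * (8 * (E.C * (E.δ₁ * S.T * ‖a‖)))) _ _ s.ms.ball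
    s'.ms.ball (by positivity) (by positivity) hX (norm_nonneg Y) (fun i => ?_) (fun e => ?_) _
    le_rfl).2.1
  · have h3 : ‖Y‖ ≤ E.C ^ 3 * (E.ε * (‖Y‖ + S.τ * ‖a‖ + ‖Y‖) + 7 * (E.C * (E.δ₁ * S.T * ‖a‖)) +
        E.C * (8 * (E.C * (E.δ₁ * S.T * ‖a‖)))) := by
      refine (pi_norm_le_iff_of_nonneg (by have := E.ε0; positivity)).2 fun i => ?_
      have := (key i).1
      simp only [map_sub, map_smul, low_one, s.lo, s'.lo, sub_self, norm_zero, mul_zero,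
        add_zero] at this
      exact this
    have h4 : S.T * ‖a‖ ≤ 5 * (S.τ * ‖a‖) := by rw [← mul_assoc]; gcongr
    have h5 := mul_le_mul_of_nonneg_right n.e4 (norm_nonneg Y)
    have h6 := mul_le_mul_of_nonneg_right n.e4 (mul_nonneg τ0 (norm_nonneg a))
    have h7 := mul_le_mul_of_nonneg_right n.d4 (show 0 ≤ S.T * ‖a‖ by positivity)
    have h8 := mul_le_mul_of_nonneg_right n.d5 (show 0 ≤ S.T * ‖a‖ by positivity)
    have h9 := mul_nonneg τ0 (norm_nonneg a)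
    intro i
    refine (norm_le_pi_norm Y i).trans ?_
    linarith
  · obtain ⟨v, c⟩ := E.cylE i
    have cv := admP_cv ((p0 i).rl.one_le (by linarith)) (by linarith [n.K1]) (p0 i).adm
    have ty : low (tr 1 (j i).y2) = low (tr 1 (j' i).y2) := (s.ty i).trans (s'.ty i).symm
    have tp : (γ i).piC 0 (j' i) 1 = (γ i).piC 0 (S.jS i (γ i)) 1 :=
      (s'.tp i).trans (congrArg ((γ i).piC 0 · 1) (resc_self cv _))
    obtain ⟨k1, k2, k3⟩ := cyl_est (p i) (p0 i) (norm_le_pi_norm a i) (s.ms.cyl i) (s.ms.ncyl i)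
      (s'.ms.cyl i) (s'.dec i) (c.sol _ _ E.hZ (p i).rl).1
      ((c.dec _ _ E.hZ (p i).rl).trans n.cs) ty (s.tp i) tp
    have e1 : S.dS i S.T + (S.out (b, x', π')).1 i = tr 0 (j' i).y2 :=
      (s'.ms.my i).trans (pt3 _ 0).1
    have e2 : S.πS i S.T + π'.1 i = (γ i).piC 0 (j' i) 0 := (s'.ms.mp i).trans (pt3 _ _).2.1
    rw [← s.ms.my i, ← e1, add_sub_add_left_eq_sub] at k1
    rw [← s.ms.mp i, ← e2, add_sub_add_left_eq_sub] at k2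
    refine ⟨?_, k1, k2, k3⟩
    rw [map_sub, s.lo, s'.lo]
    exact norm_le_pi_norm Y i
  · have hr := (R.cone e).1
    have ap := ((E.fcone e _ _ hr ((E.wtK _ hr).1 0 (by norm_num)).1).1 (k e) (k' e)
      (s.ms.cone e).1 (s'.ms.cone e).1 (s.ms.ncone e) (s'.ms.ncone e)).2
    have e1 : (S.out (b, x, π)).2 e - (S.out (b, x', π')).2 e = tr 0 (k e - k' e).y2 := by
      rw [EJ.sub_y2, map_sub, ← s.ms.ky, ← s'.ms.ky, add_sub_add_left_eq_sub]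
    have e2 : ∀ t, tr t ((γc e).cone.piJ (muCone (S.cc e)) (k e - k' e)) =
        (γc e).piK (S.cc e) (k e) t - (γc e).piK (S.cc e) (k' e) t := fun t => by
      rw [Ctr.piJ_sub, map_sub]
      rfl
    rw [Ctr.dsz, bwd_all, bwd_all, e2, e2, s.kp, s'.kp, ← s.ms.kp, ← s'.ms.kp, (s.ms.cone e).2,
      (s'.ms.cone e).2, add_sub_add_left_eq_sub, EJ.y, tr_mult symb_y] at ap
    simp only [sub_self, mul_zero, norm_zero, add_zero] at ap
    rw [e1]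
    refine ap.trans (le_add_of_le_of_nonneg (add_le_add_left ?_ _) (by positivity))
    exact mul_le_mul_of_nonneg_left (fwd_le _ _) E.ε0.le

end Vale.Agent.P218N.Glue
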