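import Vale.Agent.P218N.Glue.Restr

/-! Two matched solutions with the same core parameters are exponentially close. -/

open Filter Topology Metric Set Complex
open scoped ComplexConjugate

noncomputable section

namespace Vale.Agent.P218N.Glue

open Vale.Agent.P218N.End Vale.Agent.P218N.J

namespace Rs

theorem bwd_all (d : WD) : bwd sdAll d = 0 := by
  ext m
  rw [bwd, c_mult (K := 1) fun m => by simp [sdAll]]
  simp [sdAll]

theorem norm_tr_w (t : ℝ) (w : BC) (f : WB) : ‖tr t (W.C w * f)‖ = ‖w t‖ * ‖tr t f‖ := by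
  rw [← norm_smul]
  congr 1
  ext m
  simp

theorem y_le (j : EJ) : ‖j.y‖ ≤ ‖j‖ :=
  (norm_mult_apply_le sym0_le _).trans (by rw [one_mul]; exact y2_le j)

theorem AA_sub {γ : Path} {T B : ℝ} (hr : γ.RealP T) (hT : 10 ≤ T) {j j' : EJ} (h : ‖j‖ ≤ 1)
    (h' : ‖j'‖ ≤ 1) {t : ℝ} (hB : ‖tr t (j - j').y‖ ≤ B) : ‖γ.AA 0 j t - γ.AA 0 j' t‖ ≤ B := by
  have h1 := (norm_tr_apply_le t _).trans ((y_le j).trans h)
  have h2 := (norm_tr_apply_le t _).trans ((y_le j').trans h')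
  rw [EJ.sub_y, map_sub] at hB
  have e : γ.AA 0 j t - γ.AA 0 j' t = 2 * ((tr t j.y - tr t j'.y) *
      (1 + tr t j.y + (1 + tr t j'.y))).c 0 / (γ.ze t - 2) := by
    rw [Path.AA, Path.AA, sq_c, sq_c, show (tr t j.y - tr t j'.y) * (1 + tr t j.y + (1 + tr t j'.y))
      = (1 + tr t j.y) ^ 2 - (1 + tr t j'.y) ^ 2 by ring, W.c_sub, rh]
    ring
  have h3 : 8 ≤ ‖γ.ze t - 2‖ := by
    refine le_trans ?_ (re_le_norm _)
    rw [sub_re, re_ofNat]
    linarith [hr.T_le t]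
  have h4 : ‖1 + tr t j.y + (1 + tr t j'.y)‖ ≤ 4 := by
    refine (norm_add_le _ _).trans ?_
    have := norm_add_le 1 (tr t j.y)
    have := norm_add_le 1 (tr t j'.y)
    rw [norm_one] at *
    linarith
  have h5 := (W.norm_c_le _ 0).trans ((norm_mul_le (tr t j.y - tr t j'.y) _).trans
    (mul_le_mul hB h4 (norm_nonneg _) ((norm_nonneg _).trans hB)))
  rw [e, norm_div, norm_mul, Complex.norm_ofNat, div_le_iff₀ (by linarith)]
  nlinarith [(norm_nonneg _).trans hB]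

end Rs

open Rs

variable {J0 Cy Co : Type} [Fintype J0] [Fintype Cy] [Fintype Co]

namespace Env
variable {S : Sys J0 Cy Co} (E : Env S)

theorem to0 {Q : ℝ} {p : CP J0 Cy Co} {a : Cy → ℂ} {γ : Cy → Path} {j : Cy → EJ}
    {γc : Co → Path} {k : Co → EJ} (rs : S.RS Q Q γ γc) (hQ : S.T ≤ Q)
    (ms : S.MS (E.δ / E.C ^ 2) E.r₀ p a γ j γc k) (ha : ∀ i, ‖a i‖ * Q ≤ E.δ / E.C ^ 2) :
    S.MS E.δ E.r₀ p 0 γ (fun i => (γ i).conv (a i) 0 (j i)) γc k ∧
      ∀ i t, (γ i).AA 0 ((γ i).conv (a i) 0 (j i)) t = (γ i).AA (a i) (j i) t := by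
  have hC := E.hC
  have hT := Tbig E
  have d0 := E.δ0
  have e0 := eps0 E
  have d1 : E.C * (E.δ / E.C ^ 2 + E.δ / E.C ^ 2) ≤ E.δ := by
    rw [show E.C * (E.δ / E.C ^ 2 + E.δ / E.C ^ 2) = E.δ * (2 / E.C) by field_simp; ring]
    exact mul_le_of_le_one_right d0.le ((div_le_one (by linarith)).2 (by linarith))
  have d2 : E.δ / E.C ^ 2 ≤ E.ε := (div_le_self d0.le (one_le_pow₀ (by linarith))).trans E.hδ
  have hP : ∀ i t, ((γ i).ze t).re ≤ Q := fun i t =>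
    (le_re_of_dir one_pos (rs.cyl i).1.ok (rs.cyl i).1.dir t).2.trans (rs.cyl i).2.2
  have b1 : ∀ i, ‖a i‖ * S.T ≤ E.ε := fun i =>
    (mul_le_mul_of_nonneg_left hQ (norm_nonneg _)).trans ((ha i).trans d2)
  have b2 : ‖(0 : ℂ)‖ * S.T ≤ E.ε := by rw [norm_zero, zero_mul]; exact E.ε0.le
  have ad : ∀ i, AdmP (1 / 100) E.K S.T (a i) (γ i) := fun i =>
    admP_mono ((rs.cyl i).1.admP (by linarith) (hP i) (by
      rw [le_div_iff₀ (by linarith)]; linarith [ha i])) (by norm_num) (KT E)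
  have th : ∀ i t, tht (a i) 0 ((γ i).ze t) ≤ E.δ / E.C ^ 2 := fun i t => by
    have h3 : ‖(γ i).ze t - 2‖ ≤ Q := by
      have := (rs.cyl i).1.T_le t
      rw [(rs.cyl i).1.ze_eq, ← ofReal_ofNat, ← ofReal_sub, norm_real,
        Real.norm_of_nonneg (by linarith)]
      linarith [hP i t]
    have h4 := (mul_le_mul_of_nonneg_left h3 (norm_nonneg (a i))).trans (ha i)
    rw [tht, rh, zero_mul, add_zero, sub_zero, Complex.norm_ofNat]
    linarith [mul_nonneg (norm_nonneg (a i)) (norm_nonneg ((γ i).ze t - 2))]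
  refine ⟨(E.cvms _ _ _ p a 0 γ j _ γc k ms (by positivity) d1 le_rfl
    fun i => Or.inr ⟨b1 i, b2, ad i, th i, rfl⟩).1, fun i t => ?_⟩
  exact (((E.conv E.K S.T _ (a i) 0 (γ i) le_rfl (KT E) (aK E (b1 i)) (aK E b2) (ad i)
    (by linarith) (th i) (rhT E b2)).2.1 (j i) (ms.cyl i).1).2.2.2.1 t).2.2.1

theorem sl (h : E.Cmp) : E.Sl := by
  intro Q p p' a a' γ j j' γc k k' rs hQ e1 e2 ms ms' ha
  obtain ⟨m, A⟩ := E.to0 rs hQ ms fun i => (ha i).1
  obtain ⟨m', A'⟩ := E.to0 rs hQ ms' fun i => (ha i).2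
  have hC := E.hC
  have hT := Tbig E
  have d0 := E.δ0
  have b2 : ‖(0 : ℂ)‖ * S.T ≤ E.ε := by rw [norm_zero, zero_mul]; exact E.ε0.le
  have ad : ∀ i, AdmP (1 / 100) E.K S.T 0 (γ i) := fun i =>
    admP_mono ((rs.cyl i).1.admP (P := Q) (by linarith) (fun t => (le_re_of_dir one_pos
      (rs.cyl i).1.ok (rs.cyl i).1.dir t).2.trans (rs.cyl i).2.2) (by
        rw [norm_zero]; exact div_nonneg zero_le_one (by linarith))) (by norm_num) (KT E)
  have w := fun i => E.wt E.K S.T 0 (γ i) le_rfl (KT E) (aK E b2) (ad i)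
  set x := Real.exp (-((Q - S.T) / 8)) with hx
  have x0 : 0 < x := Real.exp_pos _
  have hle : ∀ z : ℝ, Q ≤ z → Real.exp (-(1 / 8 * (z - S.T))) ≤ x := fun z hz =>
    Real.exp_le_exp.2 (by linarith)
  have c5 : 4 * E.C ^ 5 * E.δ ≤ 1 := by
    have := eps5 E
    have := mul_le_mul_of_nonneg_right E.hδ (show 0 ≤ E.C ^ 5 by positivity)
    linarith
  have c4 : 2 * E.C * (E.C ^ 4 * (x * (2 * E.δ))) ≤ x := by
    rw [show 2 * E.C * (E.C ^ 4 * (x * (2 * E.δ))) = 4 * E.C ^ 5 * E.δ * x by ring]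
    exact mul_le_of_le_one_left x0.le c5
  obtain ⟨r1, r2, r3⟩ := h p p' sdAll 0 γ _ _ γc k k' (fun _ => ((1 / 8 : ℝ) : ℂ) • 1)
    (fun _ => ((1 / 8 : ℝ) : ℂ) • 1) (x * (2 * E.δ)) 0 m m' (by positivity)
    (by rw [e2, sub_self, norm_zero])
    (fun i => ⟨b2, ad i, (w i).2.2.2.2.2.2.2.2.1, by
      rw [bwd_all, norm_zero, zero_add]
      refine mul_le_mul (((w i).2.2.2.2.1 _ 1).1.trans_le (hle _ (rs.cyl i).2.1))
        ((norm_sub_le _ _).trans ?_) (norm_nonneg _) x0.le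
      have := (norm_tr_apply_le 1 _).trans ((pi_le_nrm _ _ _).trans (m.ncyl i))
      have := (norm_tr_apply_le 1 _).trans ((pi_le_nrm _ _ _).trans (m'.ncyl i))
      unfold Path.piC
      linarith⟩)
    (fun e => ⟨(rs.cone e).1, (E.wtK _ (rs.cone e).1).2.1, by
      refine mul_le_mul (((E.wtK _ (rs.cone e).1).2.2 _ 1).1.trans_le (hle _ (rs.cone e).2))
        ?_ (norm_nonneg _) x0.le
      have h1 := (norm_tr_apply_le 1 _).trans ((pi_le_nrm _ _ _).trans (m.ncone e))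
      have h2 := (norm_tr_apply_le 1 _).trans ((pi_le_nrm _ _ _).trans (m'.ncone e))
      rw [piJ_sub, map_sub] at h1 h2
      rw [Path.piK, Path.piK, ← sub_sub_sub_cancel_right _ _
        (tr 1 ((γc e).cone.piJ (muCone (S.cc e)) (S.kS e (γc e))))]
      linarith [norm_sub_le (tr 1 ((γc e).cone.piJ (muCone (S.cc e)) (k e)) -
        tr 1 ((γc e).cone.piJ (muCone (S.cc e)) (S.kS e (γc e))))
        (tr 1 ((γc e).cone.piJ (muCone (S.cc e)) (k' e)) -
          tr 1 ((γc e).cone.piJ (muCone (S.cc e)) (S.kS e (γc e))))]⟩)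
    (E.C ^ 4 * (x * (2 * E.δ))) (by rw [e1, sub_self, norm_zero]; simp)
  have n : ∀ i, ((γ i).cyl 0).nrm muCyl (((γ i).cyl 0).iW (((1 / 8 : ℝ) : ℂ) • 1) p0)
      ((γ i).conv (a i) 0 (j i) - (γ i).conv (a' i) 0 (j' i)) ≤ x := fun i =>
    (r2 i).2.trans (by rw [zero_add]; exact c4)
  refine ⟨r1.trans (le_trans (le_mul_of_one_le_left (by positivity) (by linarith)) c4),
    fun i => ⟨n i, fun t => ?_⟩, fun e => (r3 e).trans c4⟩
  rw [← A, ← A']
  refine AA_sub (rs.cyl i).1 (by linarith)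
    (((norm_le_nrm _ _ _).trans (m.ncyl i)).trans (by linarith [E.hδ, eps0 E]))
    (((norm_le_nrm _ _ _).trans (m'.ncyl i)).trans (by linarith [E.hδ, eps0 E])) ?_
  have h1 := (norm_tr_apply_le t _).trans ((y_le _).trans ((le_max_left _ _).trans (n i)))
  rw [EJ.wt_y, norm_tr_w, ((w i).2.2.2.2.1 _ t).1, ← le_div_iff₀' (Real.exp_pos _), hx,
    ← Real.exp_sub] at h1
  exact h1.trans_eq (congrArg Real.exp (by ring))

end Env

end Vale.Agent.P218N.Glue
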