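import Vale.Agent.P218N.Glue.S2
import Vale.Agent.P218N.Glue.As
import Vale.Agent.P218N.Glue.Ns
import Vale.Agent.P218N.Glue.Cone
import Vale.Agent.P218N.Glue.Coord0
import Vale.Agent.P218N.Glue.Easy
import Vale.Agent.P218N.Glue.Exm
import Vale.Agent.P218N.Glue.Fin
import Vale.Agent.P218N.Glue.G2
import Vale.Agent.P218N.Glue.Res
import Vale.Agent.P218N.Glue.S1a
import Vale.Agent.P218N.Glue.S1b
import Vale.Agent.P218N.Glue.Sl

/-! The glued problem: assembly of the steps. -/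

namespace Vale.Agent.P218N.Glue

open Vale.Agent.P218N.J

variable {J0 Cy Co : Type} [Fintype J0] [Fintype Cy] [Fintype Co] {S : Sys J0 Cy Co} (E : Env S)

theorem Env.exists_ctx : ∃ X rX, E.Ctx X rX := by
  have s1 := E.s1ex E.exm
  obtain ⟨X, c₁, CX, P₀, h⟩ := E.coord0 s1 (E.s1cons E.cmp E.restr) (E.s1lip E.loop)
    (E.s1sym E.cmp E.cjms)
  have e := E.s2ex h (by norm_num) E.exm s1
  obtain ⟨X', rX, c₁', CX', P₀', h', hq⟩ := E.g2 E.restr (E.sl E.cmp) E.cjms _ _ _ _ _ h e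
    (E.s2pr e (E.s2uq (h.mono (by norm_num))))
  have e' := E.s2ex h' le_rfl E.exm s1
  have u' := E.s2uq h'
  have p' := E.s2pr e' u'
  exact ⟨X', rX, E.cmp, E.restr, E.cvms, E.fv, E.cjms, E.sl E.cmp, ⟨_, _, _, h'⟩, e', u', p',
    E.as p' hq, E.ns p', E.fin e' u' (E.as p' hq)⟩

theorem Env.Ctx.spec0' [DecidableEq J0] [DecidableEq Cy] {E : Env S} {X : XT J0 Cy} {rX : ℝ}
    (h : E.Ctx X rX) : Spec0 (E.par rX) (E.Sol X) := Env.spec0 h (E.lres h) (E.lcone h)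

end Vale.Agent.P218N.Glue
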