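import Vale.Agent.P218N.Glue.Stmt
import Vale.Agent.P218N.End.ApiBas

/-! Tools for the asymptotics of the slopes and the symmetry of the far parts. -/

open Filter Topology Metric Set Complex
open scoped ComplexConjugate

noncomputable section

namespace Vale.Agent.P218N.Glue

open Vale.Agent.P218N.End Vale.Agent.P218N.J Vale.Agent.P218N.J.PolyP

namespace AsP

/-! ### Roots -/

theorem exists_root {x : ℝ} (hx : 0 < x) : ∃ y, 0 < y ∧ x = y ^ 20 :=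
  ⟨x ^ ((20 : ℕ)⁻¹ : ℝ), Real.rpow_pos_of_pos hx _,
    (Real.rpow_inv_natCast_pow hx.le (by norm_num)).symm⟩

theorem rp {y p : ℝ} (hy : 0 ≤ y) (k : ℕ) (hp : 20 * p = k) : (y ^ 20) ^ p = y ^ k := by
  rw [← Real.rpow_natCast, ← Real.rpow_mul hy, ← Real.rpow_natCast, ← hp]
  norm_num

theorem rpd {x y p : ℝ} (hx : 0 ≤ x) (hy : 0 ≤ y) (k : ℕ) (hp : 20 * p = k) :
    (x ^ 20 / y ^ 20) ^ p = (x / y) ^ k := by
  rw [← div_pow, rp (div_nonneg hx hy) k hp]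

theorem root_le {x y : ℝ} (hy : 0 ≤ y) (h : x ^ 20 ≤ y ^ 20) : x ≤ y :=
  le_of_pow_le_pow_left₀ (by norm_num) hy h

theorem small (l : List ℝ) {e : ℝ} (he : 0 < e) : ∃ ρ₀ > 0, ∀ ρ, 0 < ρ → ρ ≤ ρ₀ →
    ∃ σ : ℝ, 0 < σ ∧ ρ = σ ^ 20 ∧ σ ≤ 1 ∧ ∀ A ∈ l, A * σ ≤ e := by
  induction l with
  | nil =>
    refine ⟨1, one_pos, fun ρ h0 h1 => ?_⟩
    obtain ⟨σ, k0, rfl⟩ := exists_root h0
    exact ⟨σ, k0, rfl, root_le zero_le_one (by simpa using h1), by simp⟩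
  | cons A l ih =>
    obtain ⟨ρ₁, h1, H⟩ := ih
    refine ⟨min ρ₁ ((e / (|A| + 1)) ^ 20), by positivity, fun ρ h0 h2 => ?_⟩
    obtain ⟨σ, k0, rfl, k1, k2⟩ := H ρ h0 (h2.trans (min_le_left _ _))
    refine ⟨σ, k0, rfl, k1, List.forall_mem_cons.2 ⟨?_, k2⟩⟩
    have k3 := root_le (by positivity) (h2.trans (min_le_right _ _))
    rw [le_div_iff₀ (by positivity)] at k3
    nlinarith [le_abs_self A]

theorem le_sm {A σ e : ℝ} (hA : 0 ≤ A) (h0 : 0 < σ) (h1 : σ ≤ 1) (h : A * σ ≤ e) (k : ℕ)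
    (hk : k ≠ 0) : A * σ ^ k ≤ e :=
  (mul_le_mul_of_nonneg_left (pow_le_of_le_one h0.le h1 hk) hA).trans h

/-! ### Paths -/

variable {c K T Q : ℝ} {a : ℂ} {γ γ' γ'' : Path} {φ χ : ℝ → ℝ} {j : EJ}

theorem admP_suffix (h : AdmP c K T a γ) (ho : γ'.Ok) (h0 : γ'.ze 0 = Q) (hs : Sub φ γ γ')
    (hg : ∀ t, ∃ r : ℝ, 0 ≤ r ∧ γ'.g t = r * γ.g (φ (cl t))) : AdmP c K Q a γ' := by
  have e : ∀ t, γ'.ze t = γ.ze (φ (cl t)) := fun t => by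
    rw [← ze_cl ho, hs.eq _ (cl_mem t)]
  refine ⟨ho, h0, fun t => ?_, fun t => by rw [e]; exact h.big _⟩
  obtain ⟨u, h1, h2, h3, h4⟩ := h.dir (φ (cl t))
  obtain ⟨r, hr, h5⟩ := hg t
  refine ⟨u, h1, h2, by rw [e]; exact h3, ?_⟩
  rw [h5, norm_mul, norm_real, Real.norm_of_nonneg hr, ofReal_mul, mul_assoc, ← h4]

theorem pre_rep {P t₀ : ℝ} (hp : γ.Pre P) (hr : Rep φ γ γ' t₀) (h : P ≤ (γ.ze t₀).re) :
    γ'.Pre P := by
  obtain ⟨t₁, h1, h2, h3⟩ := hp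
  have z1 : (1 : ℝ) ∈ Icc (0 : ℝ) 1 := ⟨zero_le_one, le_rfl⟩
  have h0 : t₀ ∈ Icc (0 : ℝ) 1 := hr.one ▸ hr.maps z1
  obtain ⟨s, hs, e⟩ := intermediate_value_Icc zero_le_one hr.cont
    (show min t₀ t₁ ∈ Icc (φ 0) (φ 1) by
      rw [hr.zero, hr.one]; exact ⟨le_min h0.1 h1.1, min_le_left _ _⟩)
  refine ⟨s, hs, fun t ht => ?_, ?_⟩
  · have h4 : t ∈ Icc (0 : ℝ) 1 := ⟨ht.1, ht.2.trans hs.2⟩
    rw [hr.eq t h4]
    exact h2 _ ⟨(hr.maps h4).1, ((hr.mono h4 hs ht.2).trans_eq e).trans (min_le_right _ _)⟩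
  · rw [hr.eq s hs, e]
    rcases min_choice t₀ t₁ with h5 | h5 <;> rw [h5] <;> assumption

/-- the part of the path between `Q` and `t₀` -/
theorem exists_part (hs : SubStmt) (hr : RpStmt) {P t₀ : ℝ} (hc : 0 < c) (h : AdmP c K T a γ)
    (hp : γ.Pre P) (ho : γ'.Ok) (hφ : Rep φ γ γ' t₀) (h0 : P ≤ (γ.ze t₀).re) (hQ : T ≤ Q)
    (hP : Q ≤ P) : ∃ χ γ'', AdmP c K Q a γ'' ∧ Sub χ γ γ'' ∧ χ 1 = t₀ := by
  have h1 := hr.1 c K T t₀ a γ γ' φ hc h ho hφ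
  obtain ⟨ψ, γ'', k1, k2, k3, k4, k5⟩ :=
    (hs.2.2 γ' c T P Q hc ho h1.st h1.re_g (pre_rep hp hφ h0) hQ hP).2
  exact ⟨φ ∘ ψ, γ'', admP_suffix h1 k1 k2 k3 k5, ⟨hφ.cont.comp k3.cont k3.maps,
    hφ.maps.comp k3.maps, fun t ht => (k3.eq t ht).trans (hφ.eq _ (k3.maps ht))⟩,
    by rw [Function.comp_apply, k4, hφ.one]⟩

theorem AA_eq (γ : Path) (a : ℂ) (j : EJ) (t : ℝ) : γ.AA a j t =
    (rh a (γ.ze t) * ((1 + ibr (tr t j.y2)) ^ 2).c 0 - 2) / (γ.ze t - 2) := by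
  have h1 : tr t j.y = ibr (tr t j.y2) := tr_mult symb_y t _
  rw [Path.AA, ← c_tr, ← trA_apply, map_pow, map_add, map_one, trA_apply, h1]

/-- the transfer of solutions to a part of the path -/
theorem transfer (ht : TrStmt) (hc : 0 < c) (hK : 128 / c ≤ K) (hT : 1 ≤ T) (h : AdmP c K T a γ)
    (ho : γ'.Ok) (hs : Sub χ γ γ') (hj : γ.IsCyl a j) : γ'.IsCyl a (j.cmp χ) ∧
    (γ'.cyl a).nrm muCyl 1 (j.cmp χ) ≤ (γ.cyl a).nrm muCyl 1 j ∧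
    (γ'.cyl a).piJ muCyl (j.cmp χ) = cmpW χ ((γ.cyl a).piJ muCyl j) ∧
    (∀ t ∈ Icc (0 : ℝ) 1, ∀ f, tr t (cmpW χ f) = tr (χ t) f) ∧
    ∀ t ∈ Icc (0 : ℝ) 1, ptN (γ'.cyl a) muCyl (j.cmp χ) t = ptN (γ.cyl a) muCyl j (χ t) ∧
      γ'.AA a (j.cmp χ) t = γ.AA a j (χ t) := by
  obtain ⟨k1, k2, -, k4, -⟩ := ht χ γ γ' c hc h.ok ho hs h.re_g
    fun t => (hT.trans (h.T_le hc t)).trans (re_le_norm _)
  obtain ⟨l1, l2, l3, -⟩ := k4 a K T j hK h hj.1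
  have e : ∀ t ∈ Icc (0 : ℝ) 1, ∀ f, tr t (cmpW χ f) = tr (χ t) f := fun t ht f => by
    rw [k1, cl_of_mem ht]
  have n : ∀ f, ‖W.C (1 : BC) * cmpW χ f‖ ≤ ‖W.C (1 : BC) * f‖ := fun f => by
    simpa using k2 f 1 1 1 zero_le_one (fun t _ => by simp) fun t => by simp
  refine ⟨⟨l1, by rw [l2, hj.2, map_zero]⟩, ?_, l3, e, fun t ht => ⟨?_, ?_⟩⟩
  · refine max_le_max (EJ.norm_le _ ((n _).trans (j.wt 1).norm_y2_le)
      ((n _).trans (j.wt 1).norm_op_le) ((n _).trans (j.wt 1).norm_oq_le)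
      ((n _).trans (j.wt 1).norm_pt_le)) ?_
    rw [l3]
    exact n _
  · unfold ptN
    rw [l3, e t ht, ← e t ht j.y2, ← e t ht j.op, ← e t ht j.oq, ← e t ht j.pt]
    rfl
  · rw [AA_eq, AA_eq, hs.eq t ht, ← e t ht]
    rfl

/-- `uu` at real points of the initial part -/
theorem uu_real (hQ : 2 ≤ Q) (h : ‖a‖ * Q ≤ 1 / 2) : Q / 3 ≤ uu a Q ∧ uu a Q ≤ Q := by
  have h1 : ‖rh a Q - 2‖ ≤ 1 / 2 := by
    rw [rh, add_sub_cancel_left, norm_mul, ← ofReal_ofNat, ← ofReal_sub, norm_real,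
      Real.norm_of_nonneg (by linarith)]
    nlinarith [norm_nonneg a]
  have h2 := norm_le_insert' (rh a Q) 2
  have h3 := norm_le_insert (rh a Q) 2
  simp only [Complex.norm_ofNat] at h2 h3
  rw [uu, norm_div, norm_real, Real.norm_of_nonneg (by linarith), le_div_iff₀ (by linarith),
    div_le_iff₀ (by linarith)]
  constructor <;> nlinarith

theorem uu_mul {ζ : ℂ} (h : Om a ζ ≠ 0) : uu a ζ * ‖Om a ζ‖ = ‖ζ‖ ^ 2 := by
  have h1 : rh a ζ ≠ 0 := right_ne_zero_of_mul h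
  rw [uu, Om, ← norm_mul, ← norm_pow]
  congr 1
  field_simp

end AsP

namespace Env

variable {J0 Cy Co : Type} [Fintype J0] [Fintype Cy] [Fintype Co] {S : Sys J0 Cy Co} (E : Env S)

/-- the sizes of the constants -/
theorem as_cst : E.δ ≤ 1 / E.C ^ 8 ∧ E.δ₀ ≤ 1 / E.C ^ 8 ∧ E.δ₁ ≤ 1 ∧ E.C ^ 8 ≤ E.K ∧
    128 / (1 / 100) ≤ E.K ∧ E.K ≤ S.T ∧ E.ε ≤ 1 := by
  have h1 : 1 ≤ E.C := by linarith [E.hC]
  have h2 : E.C ≤ E.C ^ 8 := le_self_pow₀ h1 (by norm_num)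
  have h3 : E.δ ≤ 1 / E.C ^ 8 := E.hδ.trans (by rw [le_div_iff₀ (by positivity)]; exact E.hε)
  have h4 : E.ε ≤ 1 := by nlinarith [E.hε, E.ε0]
  have h5 : E.δ₀ ≤ E.δ := by nlinarith [E.hδ₀, E.δ₀0]
  have h6 : E.δ₁ ≤ 1 := by nlinarith [E.hδ₁, E.δ₁0, E.hδ]
  have h7 : 0 < E.K := (mul_pos_iff_of_pos_right E.δ₁0).1 (lt_of_lt_of_le (by positivity) E.hK)
  have h8 : E.C ^ 8 ≤ E.K := by nlinarith [E.hK]
  refine ⟨h3, h5.trans h3, h6, h8, by linarith [E.hC], by nlinarith [E.hT], h4⟩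

theorem as_slope {X : XT J0 Cy} {d : TD Cy Co} {β b} {u : TU Cy Co} (h : E.TS X d β b u) (i : Cy) :
    ‖u.a i‖ ≤ 1 / E.K := by
  obtain ⟨-, -, -, -, c1, c2, c3⟩ := E.as_cst
  rw [le_div_iff₀ (by linarith)]
  exact (mul_le_mul_of_nonneg_left c2 (norm_nonneg _)).trans ((h.sa i).trans c3)

open AsP in
/-- the sizes of `uu` at the points `T`, `Q` and at the end -/
theorem as_geo {M N Q σ : ℝ} {d : TD Cy Co} {a : Cy → ℂ} (h : E.Gd M (σ ^ 20) d a) (i : Cy)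
    (hM : 1 ≤ M) (hN : M ≤ N) (h0 : 0 < σ) (q1 : 3 / (N * σ ^ 20) ≤ Q)
    (q2 : Q ≤ 1 / (2 * M * σ ^ 20)) (hT : S.T ≤ Q) : ∃ x y z : ℝ, 0 < x ∧ 0 < y ∧ 0 < z ∧
    uu (a i) ((d.γ i).ze 1) = x ^ 20 ∧ uu (a i) Q = y ^ 20 ∧ uu (a i) S.T = z ^ 20 ∧
    x ≤ N / σ ^ 2 ∧ 1 / y ^ 20 ≤ N * σ ^ 20 ∧ 1 / y ≤ N * σ ∧ y ≤ 1 / σ ∧ z ≤ S.T ∧
    1 ≤ (N * σ ^ 20) ^ 2 * (x ^ 20 * ‖Om (a i) ((d.γ i).ze 1)‖) ∧
    1 / (M * σ ^ 20) ≤ ((d.γ i).ze 1).re := by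
  obtain ⟨-, -, -, -, c1, c2, -⟩ := E.as_cst
  have hO := (h.adm i).big 1
  have O0 : 0 < ‖Om (a i) ((d.γ i).ze 1)‖ := by linarith
  have e1 := uu_mul (norm_pos_iff.1 O0)
  have k1 : 1 / (M * σ ^ 20) ≤ ((d.γ i).ze 1).re := by
    obtain ⟨t, ht, -, k⟩ := h.pre i
    exact k.trans ((h.adm i).mono_re (by norm_num) ht.2)
  have k2 := k1.trans (re_le_norm _)
  have k3 : 0 < ‖(d.γ i).ze 1‖ := lt_of_lt_of_le (by positivity) k2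
  have k4 : ‖a i‖ * Q ≤ 1 / 2 := by
    calc _ ≤ M * σ ^ 20 * (1 / (2 * M * σ ^ 20)) := by
          gcongr
          · linarith
          · exact h.al i
      _ = _ := by field_simp
  obtain ⟨u1, u2⟩ := uu_real (by linarith) k4
  obtain ⟨u3, u4⟩ := uu_real (a := a i) (Q := S.T) (by linarith)
    ((mul_le_mul_of_nonneg_left hT (norm_nonneg _)).trans k4)
  obtain ⟨x, x0, hx⟩ := exists_root ((mul_pos_iff_of_pos_right O0).1 (e1 ▸ pow_pos k3 2))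
  obtain ⟨y, y0, hy⟩ := exists_root (show 0 < uu (a i) Q by linarith)
  obtain ⟨z, z0, hz⟩ := exists_root (show 0 < uu (a i) S.T by linarith)
  have N1 := hM.trans hN
  have y1 : 1 / y ^ 20 ≤ N * σ ^ 20 := by
    rw [div_le_iff₀ (by positivity)] at q1 ⊢
    nlinarith [mul_le_mul_of_nonneg_left (hy ▸ u1) (show 0 ≤ N * σ ^ 20 by positivity)]
  refine ⟨x, y, z, x0, y0, z0, hx, hy, hz, root_le (by positivity) ?_, y1,
    root_le (by positivity) ?_, root_le (by positivity) ?_, root_le (by linarith) ?_, ?_, k1⟩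
  · calc _ ≤ x ^ 20 * ‖Om (a i) ((d.γ i).ze 1)‖ := le_mul_of_one_le_right (by positivity)
          (by linarith)
      _ ≤ (N / σ ^ 20) ^ 2 := by
          rw [← hx, e1]
          gcongr
          exact (h.up i 1).trans (by gcongr)
      _ = N ^ 2 / (σ ^ 2) ^ 20 := by rw [div_pow, ← pow_mul, ← pow_mul]
      _ ≤ _ := by rw [div_pow]; gcongr; norm_num
  · rw [div_pow, one_pow, mul_pow]
    exact y1.trans (by gcongr; exact le_self_pow₀ N1 (by norm_num))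
  · rw [div_pow, one_pow, ← hy]
    exact u2.trans (q2.trans (by gcongr; nlinarith [pow_pos h0 20]))
  · exact (hz ▸ u4).trans (le_self_pow₀ (by linarith) (by norm_num))
  · rw [← hx, e1, ← mul_pow]
    rw [div_le_iff₀ (by positivity)] at k2
    exact one_le_pow₀ (k2.trans (by rw [mul_comm]; gcongr))

end Env

end Vale.Agent.P218N.Glue
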