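import Vale.Agent.P218N.Glue.Stmt
import Vale.Agent.P218N.End.ApiFar
import Vale.Agent.P218N.End.ApiTr
import Vale.Agent.P218N.End.ApiAB

/-! Common facts for the glued problem. -/

open Filter Topology Metric Set Complex
open scoped ComplexConjugate

noncomputable section

namespace Vale.Agent.P218N.Glue

open Vale.Agent.P218N.End Vale.Agent.P218N.J

/-! ### Projections -/

section proj
variable (s : ℤ → Icc (0 : ℝ) 1) (d : WD)

theorem fwd_add_bwd : fwd s d + bwd s d = d := W.ext fun m => by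
  rw [W.c_add, c_fwd, c_bwd]; split_ifs <;> simp

theorem bwd_bwd : bwd s (bwd s d) = bwd s d := W.ext fun m => by
  rw [c_bwd, c_bwd]; split_ifs <;> rfl

theorem fwd_bwd : fwd s (bwd s d) = 0 := W.ext fun m => by
  rw [c_fwd, c_bwd]; split_ifs <;> rfl

theorem eq_of_fwd_bwd {d d' : WD} (h1 : fwd s d = fwd s d') (h2 : bwd s d = bwd s d') : d = d' := by
  rw [← fwd_add_bwd s d, h1, h2, fwd_add_bwd]

theorem bwd_sdAll : bwd sdAll d = 0 := W.ext fun m => by rw [c_bwd]; exact if_pos rfl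

theorem fwd_sdAll : fwd sdAll d = d := W.ext fun m => by rw [c_fwd]; exact if_pos rfl

theorem bwd_sdF : bwd sdF d = d.c 0 • (1 : WD) := W.ext fun m => by
  rw [c_bwd, W.c_smul]
  change _ = d.c 0 • (W.one1 0 1 : WD).c m
  rw [W.c_one1]
  by_cases h : m = 0
  · subst h; simp [sdF, p1_ne_p0]
  · simp [sdF, h]

theorem norm_one_WD : ‖(1 : WD)‖ = 1 := (W.norm_one1 0 (1 : ℂ)).trans norm_one

theorem c_one_zero : (1 : WD).c 0 = 1 := (W.c_one1 0 (1 : ℂ) 0).trans (if_pos rfl)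

theorem norm_bwd_sdF : ‖bwd sdF d‖ = ‖d.c 0‖ := by rw [bwd_sdF, norm_smul, norm_one_WD, mul_one]

theorem c_low_zero : (low d).c 0 = d.c 0 := by rw [c_bwd]; simp [sdCyl, p1_ne_p0]

theorem low_one : low (1 : WD) = 1 := W.ext fun m => by
  rw [c_bwd]
  change _ = (W.one1 0 1 : WD).c m
  split_ifs with h
  · rw [W.c_one1, if_neg]
    rintro rfl
    simp [sdCyl, p1_ne_p0] at h
  · rfl

theorem bwd_sdF_low : bwd sdF (low d) = bwd sdF d := by rw [bwd_sdF, bwd_sdF, c_low_zero]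

theorem cj_low : W.cj (low d) = low (W.cj d) :=
  cj_mult (fun m => by simp only [sdCyl, abs_neg]; split_ifs <;> simp) d

theorem norm_ibr_le : ‖ibr d‖ ≤ ‖d‖ := (norm_mult_apply_le sym0_le d).trans_eq (one_mul _)

theorem tr_y (t : ℝ) (j : EJ) : tr t j.y = ibr (tr t j.y2) := tr_mult sym0_le t _

theorem norm_nsD_le : ‖nsD d‖ ≤ ‖d‖ :=
  (norm_mult_apply_le (fun _ => nind' _) d).trans_eq (one_mul _)

end proj

/-! ### Weighted norms -/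

section nrm
variable (Γ : Ctr) (μ : ℤ → ℝ) (w : BC) (j j' : EJ)

theorem piJ_zero : Γ.piJ μ 0 = 0 := by simpa using Ctr.piJ_sub (Γ := Γ) (μ := μ) 0 0

theorem differentiable_piJ : Differentiable ℂ (Γ.piJ μ) := by
  unfold Ctr.piJ
  fun_prop

theorem nrm_smul (z : ℂ) : Γ.nrm μ w (z • j) = ‖z‖ * Γ.nrm μ w j := by
  rw [Ctr.nrm, Ctr.nrm, ← nm_one, ← nm_one, nm_smul, piJ_smul, mul_smul_comm, norm_smul,
    mul_max_of_nonneg _ _ (norm_nonneg z)]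

theorem nrm_zero : Γ.nrm μ w 0 = 0 := by simpa using nrm_smul Γ μ w 0 0

theorem nrm_neg : Γ.nrm μ w (-j) = Γ.nrm μ w j := by simpa using nrm_smul Γ μ w j (-1)

theorem nrm_sub_rev : Γ.nrm μ w (j - j') = Γ.nrm μ w (j' - j) := by rw [← nrm_neg, neg_sub]

theorem nrm_sub_le : Γ.nrm μ w (j - j') ≤ Γ.nrm μ w j + Γ.nrm μ w j' := by
  rw [sub_eq_add_neg, ← nrm_neg Γ μ w j']; exact Γ.nrm_add_le μ w _ _

theorem nrm_tri (j'' : EJ) : Γ.nrm μ w (j - j'') ≤ Γ.nrm μ w (j - j') + Γ.nrm μ w (j' - j'') := by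
  rw [← sub_add_sub_cancel j j' j'']; exact Γ.nrm_add_le μ w _ _

theorem norm_le_nrm : ‖j‖ ≤ Γ.nrm μ 1 j := by
  rw [Ctr.nrm, EJ.wt_one]; exact le_max_left _ _

theorem norm_piJ_le_nrm : ‖Γ.piJ μ j‖ ≤ Γ.nrm μ 1 j := by
  rw [Ctr.nrm, map_one, one_mul]; exact le_max_right _ _

variable {w} in
theorem nrm_mono {w' : BC} {A : ℝ} (hA : 0 ≤ A) (h : ∀ t, ‖w t‖ ≤ A * ‖w' t‖) :
    Γ.nrm μ w j ≤ A * Γ.nrm μ w' j := by
  refine max_le ?_ ((wle hA h _).trans (mul_le_mul_of_nonneg_left (le_max_right _ _) hA))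
  rw [← nm_one]
  refine (nm_mono 1 j h hA).trans ?_
  rw [nm_one]
  exact mul_le_mul_of_nonneg_left (le_max_left _ _) hA

theorem tr_le (f : WB) (t : ℝ) : ‖w t‖ * ‖tr t f‖ ≤ ‖W.C w * f‖ := by
  rw [← norm_tr_C_mul]; exact norm_tr_apply_le t _

theorem y2_le_nrm : ‖W.C w * j.y2‖ ≤ Γ.nrm μ w j :=
  (EJ.norm_y2_le (j.wt w)).trans (le_max_left _ _)
theorem op_le_nrm : ‖W.C w * j.op‖ ≤ Γ.nrm μ w j :=
  (EJ.norm_op_le (j.wt w)).trans (le_max_left _ _)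
theorem oq_le_nrm : ‖W.C w * j.oq‖ ≤ Γ.nrm μ w j :=
  (EJ.norm_oq_le (j.wt w)).trans (le_max_left _ _)
theorem pt_le_nrm : ‖W.C w * j.pt‖ ≤ Γ.nrm μ w j :=
  (EJ.norm_pt_le (j.wt w)).trans (le_max_left _ _)

theorem tr_y2_le (t : ℝ) : ‖w t‖ * ‖tr t j.y2‖ ≤ Γ.nrm μ w j :=
  (tr_le w _ t).trans (y2_le_nrm Γ μ w j)

theorem tr_pi_le (t : ℝ) : ‖w t‖ * ‖tr t (Γ.piJ μ j)‖ ≤ Γ.nrm μ w j :=
  (tr_le w _ t).trans (le_max_right _ _)

theorem tr_y2_le_one (t : ℝ) : ‖tr t j.y2‖ ≤ Γ.nrm μ 1 j := by simpa using tr_y2_le Γ μ 1 j t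

theorem tr_pi_le_one (t : ℝ) : ‖tr t (Γ.piJ μ j)‖ ≤ Γ.nrm μ 1 j := by
  simpa using tr_pi_le Γ μ 1 j t

theorem ptN_nonneg (t : ℝ) : 0 ≤ ptN Γ μ j t := by unfold ptN; positivity

theorem ptN_le (t : ℝ) : ‖w t‖ * ptN Γ μ j t ≤ 5 * Γ.nrm μ w j := by
  have h1 := tr_y2_le Γ μ w j t
  have h2 := (tr_le w _ t).trans (op_le_nrm Γ μ w j)
  have h3 := (tr_le w _ t).trans (oq_le_nrm Γ μ w j)
  have h4 := (tr_le w _ t).trans (pt_le_nrm Γ μ w j)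
  have h5 := tr_pi_le Γ μ w j t
  unfold ptN
  linarith

/-- the pointwise bound in terms of the weight -/
theorem ptN_le_Wt (φ : BC) (t : ℝ) :
    ptN Γ μ j t ≤ 5 * ‖Γ.Wt φ p0 t‖ * Γ.nrm μ (Γ.iW φ p0) j := by
  have h := ptN_le Γ μ (Γ.iW φ p0) j t
  have e : ‖Γ.Wt φ p0 t‖ * ‖Γ.iW φ p0 t‖ = 1 := by
    rw [← norm_mul, ← BoundedContinuousFunction.mul_apply, Ctr.Wt_mul_iW]; simp
  calc ptN Γ μ j t = ‖Γ.Wt φ p0 t‖ * (‖Γ.iW φ p0 t‖ * ptN Γ μ j t) := by rw [← mul_assoc, e, one_mul]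
    _ ≤ ‖Γ.Wt φ p0 t‖ * (5 * Γ.nrm μ (Γ.iW φ p0) j) := by gcongr
    _ = _ := by ring

theorem ptN_add_le (t : ℝ) : ptN Γ μ (j + j') t ≤ ptN Γ μ j t + ptN Γ μ j' t := by
  simp only [ptN, EJ.add_y2, EJ.add_op, EJ.add_oq, EJ.add_pt, piJ_add, map_add]
  linarith [norm_add_le (tr t j.y2) (tr t j'.y2), norm_add_le (tr t j.op) (tr t j'.op),
    norm_add_le (tr t j.oq) (tr t j'.oq), norm_add_le (tr t j.pt) (tr t j'.pt),
    norm_add_le (tr t (Γ.piJ μ j)) (tr t (Γ.piJ μ j'))]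

theorem y2_le_ptN (t : ℝ) : ‖tr t j.y2‖ ≤ ptN Γ μ j t := by
  unfold ptN
  linarith [norm_nonneg (tr t j.op), norm_nonneg (tr t j.oq), norm_nonneg (tr t j.pt),
    norm_nonneg (tr t (Γ.piJ μ j))]

theorem pi_le_ptN (t : ℝ) : ‖tr t (Γ.piJ μ j)‖ ≤ ptN Γ μ j t := by
  unfold ptN
  linarith [norm_nonneg (tr t j.op), norm_nonneg (tr t j.oq), norm_nonneg (tr t j.pt),
    norm_nonneg (tr t j.y2)]

variable {Γ μ j j'} in
theorem eq_of_nrm {φ : BC} (h : Γ.nrm μ (Γ.iW φ p0) (j - j') ≤ 0) : j = j' := by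
  have h1 := (norm_le_nrm Γ μ (j - j')).trans (Γ.nrm_one_le μ φ p0 (j - j'))
  have h2 := mul_nonpos_of_nonneg_of_nonpos (norm_nonneg (Γ.Wt φ p0)) h
  exact sub_eq_zero.1 (norm_le_zero_iff.1 (h1.trans h2))

end nrm

theorem piC_add (γ : Path) (a : ℂ) (j j' : EJ) (t : ℝ) :
    γ.piC a (j + j') t = γ.piC a j t + γ.piC a j' t := by
  rw [Path.piC, piJ_add, map_add]; rfl

theorem piC_sub (γ : Path) (a : ℂ) (j j' : EJ) (t : ℝ) :
    γ.piC a (j - j') t = γ.piC a j t - γ.piC a j' t := by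
  rw [Path.piC, Ctr.piJ_sub, map_sub]; rfl

theorem piK_add (γ : Path) (c : ℝ) (j j' : EJ) (t : ℝ) :
    γ.piK c (j + j') t = γ.piK c j t + γ.piK c j' t := by
  rw [Path.piK, piJ_add, map_add]; rfl

theorem piK_sub (γ : Path) (c : ℝ) (j j' : EJ) (t : ℝ) :
    γ.piK c (j - j') t = γ.piK c j t - γ.piK c j' t := by
  rw [Path.piK, Ctr.piJ_sub, map_sub]; rfl

/-! ### Paths -/

section path
variable {c c' K K' T P Q : ℝ} {a : ℂ} {γ γ' : Path} {φ : ℝ → ℝ}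

theorem admP_mono (h : AdmP c K T a γ) (hc : c' ≤ c) (hK : K' ≤ K) : AdmP c' K' T a γ :=
  ⟨h.ok, h.st, fun t => let ⟨u, h1, h2, h3, h4⟩ := h.dir t
    ⟨u, h1, hc.trans h2, (mul_le_mul_of_nonneg_right hc (norm_nonneg _)).trans h3, h4⟩,
    fun t => hK.trans (h.big t)⟩

theorem re_le_end (h : γ.RealP T) (t : ℝ) : (γ.ze t).re ≤ (γ.ze 1).re := by
  rw [← PolyP.ze_cl h.ok t]; exact h.mono (cl_mem t).2

/-- the part of an admissible path which starts at the real point `Q` -/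
theorem admP_suffix (h : AdmP c K T a γ) (ho : γ'.Ok) (h0 : γ'.ze 0 = Q) (hs : Sub φ γ γ')
    (hg : ∀ t, ∃ r : ℝ, 0 ≤ r ∧ γ'.g t = r * γ.g (φ (cl t))) : AdmP c K Q a γ' := by
  refine ⟨ho, h0, fun t => ?_, fun t => by rw [hs.ze ho]; exact h.big _⟩
  obtain ⟨u, h1, h2, h3, h4⟩ := h.dir (φ (cl t))
  obtain ⟨r, hr, e⟩ := hg t
  refine ⟨u, h1, h2, by rwa [hs.ze ho], ?_⟩
  rw [e, norm_mul, Complex.norm_real, Real.norm_of_nonneg hr, ofReal_mul, mul_assoc, ← h4]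

theorem sub_id (γ : Path) : Sub id γ γ := ⟨continuousOn_id, mapsTo_id _, fun _ _ => rfl⟩

theorem sub_of_rep {t₀ : ℝ} (h : Rep φ γ γ' t₀) : Sub φ γ γ' := ⟨h.cont, h.maps, h.eq⟩

theorem Pre.mono (h : γ.Pre P) (hQ : Q ≤ P) : γ.Pre Q :=
  let ⟨t, h1, h2, h3⟩ := h; ⟨t, h1, h2, hQ.trans h3⟩

theorem CPre.mono (h : γ.CPre γ' P) (hQ : Q ≤ P) : γ.CPre γ' Q :=
  let ⟨t, h1, h2, h3⟩ := h; ⟨t, h1, h2, hQ.trans h3⟩

theorem Pre.cpre (h : γ.Pre P) : γ.CPre γ P :=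
  let ⟨t, h1, h2, h3⟩ := h; ⟨t, h1, fun s hs => ⟨h2 s hs, rfl⟩, h3⟩

theorem Pre.le_end (h : γ.Pre P) (hm : Monotone fun t => (γ.ze t).re) : P ≤ (γ.ze 1).re :=
  let ⟨_, h1, _, h3⟩ := h; h3.trans (hm h1.2)

/-- a function along the path only depends on the point -/
theorem eq_of_ze (hc : 0 < c) (ho : γ.Ok) (hd : ∀ t, c * ‖γ.g t‖ ≤ (γ.g t).re) {y p : BC}
    (hy : ∀ t, HasDerivAt y (γ.g t * p t) t) {t t' : ℝ} (e : γ.ze t = γ.ze t') : y t = y t' := by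
  wlog h : t ≤ t' generalizing t t'
  · exact (this e.symm (le_of_not_ge h)).symm
  have hm := mono_of_dir hc ho hd
  have h0 : ∀ x ∈ Ioo t t', γ.g x = 0 := fun x hx => by
    have h1 : (fun s => (γ.ze s).re) =ᶠ[𝓝 x] fun _ => (γ.ze t).re := by
      filter_upwards [Ioo_mem_nhds hx.1 hx.2] with s hs
      exact le_antisymm ((hm hs.2.le).trans_eq (congrArg re e.symm)) (hm hs.1.le)
    have h2 := (PolyP.hasDerivAt_re ho x).unique ((hasDerivAt_const x _).congr_of_eventuallyEq h1)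
    have h3 := hd x
    rw [h2] at h3
    exact norm_le_zero_iff.1 (nonpos_of_mul_nonpos_right h3 hc |> fun h => h)
  have h1 := intervalIntegral.integral_eq_sub_of_hasDerivAt (f := y) (a := t) (b := t')
    (fun x _ => hy x) ((γ.g.continuous.mul p.continuous).intervalIntegrable _ _)
  rw [intervalIntegral.integral_of_le h, MeasureTheory.integral_Ioc_eq_integral_Ioo,
    MeasureTheory.setIntegral_eq_zero_of_forall_eq_zero fun x hx => by rw [h0 x hx, zero_mul]] at h1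
  exact (sub_eq_zero.1 h1.symm).symm

theorem jet_eq_of_ze (hc : 0 < c) (ho : γ.Ok) (hd : ∀ t, c * ‖γ.g t‖ ≤ (γ.g t).re) {j : EJ}
    (hj : (γ.cyl a).IsJet j) {t t' : ℝ} (e : γ.ze t = γ.ze t') :
    tr t j.y = tr t' j.y ∧ γ.AA a j t = γ.AA a j t' := by
  have h1 : tr t j.y = tr t' j.y := W.ext fun m => by
    rw [c_tr, c_tr]; exact eq_of_ze hc ho hd (hj m).1 e
  refine ⟨h1, ?_⟩
  have h2 : ∀ s, ((1 + j.y) ^ 2).c 0 s = ((1 + tr s j.y) ^ 2).c 0 := fun s => by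
    rw [← c_tr, ← trA_apply, map_pow, map_add, map_one, trA_apply]
  rw [Path.AA, Path.AA, e, h2, h2, h1]

theorem resc_sub (γ : Path) (a a' : ℂ) (j j' : EJ) :
    γ.resc a a' (j - j') = γ.resc a a' j - γ.resc a a' j' := by
  simp only [Path.resc, EJ.sub_y2, EJ.sub_op, EJ.sub_oq, EJ.sub_pt, mul_sub]; rfl

theorem rho_mul_binv (h : γ.CV a) : γ.rho a * binv (γ.rho a) = 1 :=
  BoundedContinuousFunction.ext fun t => by
    rw [BoundedContinuousFunction.mul_apply, h.ir]; exact mul_inv_cancel₀ (h.rh_ne t)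

theorem resc_self (h : γ.CV a) (j : EJ) : γ.resc a a j = j := by
  simp only [Path.resc, rho_mul_binv h, map_one, one_mul]; rfl

@[simp] theorem resc_y2 (γ : Path) (a a' : ℂ) (j : EJ) : (γ.resc a a' j).y2 = j.y2 := rfl

theorem rh_zero (ζ : ℂ) : rh 0 ζ = 2 := by simp [rh]

theorem tht_zero_le (a : ℂ) (hT : 2 ≤ T) : tht a 0 T ≤ ‖a‖ * T / 2 := by
  rw [tht, rh_zero, sub_zero, ← ofReal_ofNat, ← ofReal_sub, norm_real, norm_real,
    Real.norm_of_nonneg (by linarith), Real.norm_of_nonneg zero_le_two]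
  gcongr
  linarith

end path

/-! ### Fixed points -/

/-- A holomorphic self map of a ball into the ball of one eighth of the radius. -/
theorem exists_fixed' {X B : Type*} [NormedAddCommGroup X] [NormedSpace ℂ X] [NormedAddCommGroup B]
    [NormedSpace ℂ B] [CompleteSpace B] {Φ : X → B → B} {U : Set X} (hU : IsOpen U) {R : ℝ}
    (hR : 0 < R) (hd : DifferentiableOn ℂ (fun p : X × B => Φ p.1 p.2) (U ×ˢ ball 0 R))
    (hm : ∀ y ∈ U, ∀ b ∈ ball (0 : B) R, ‖Φ y b‖ ≤ R / 8) :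
    ∃ z : X → B, DifferentiableOn ℂ z U ∧ ∀ y ∈ U, ‖z y‖ ≤ R / 8 ∧ Φ y (z y) = z y ∧
      ∀ b, ‖b‖ < R / 2 → Φ y b = b → b = z y := by
  have hs : ball (0 : B) (R / 2) ⊆ ball 0 R := ball_subset_ball (by linarith)
  have h1 : ∀ y ∈ U, DifferentiableOn ℂ (Φ y) (ball 0 R) := fun y hy =>
    hd.comp ((differentiableOn_const y).prodMk differentiableOn_id) fun b hb => ⟨hy, hb⟩
  obtain ⟨z, z1, z2⟩ := exists_fixed (Φ := Φ) (b₀ := 0) (r := R / 8) (R := R / 2) (κ := 1 / 2) hU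
    (by positivity) (by linarith) (by norm_num) (by norm_num) (hd.mono (prod_mono_right hs))
    (fun y hy b hb => mem_closedBall_zero_iff.2 (hm y hy b (hs hb))) fun y hy b hb b' hb' => by
      refine (convex_ball 0 (R / 2)).norm_image_sub_le_of_norm_fderiv_le (𝕜 := ℂ)
        (fun x hx => (h1 y hy).differentiableAt (isOpen_ball.mem_nhds (hs hx))) (fun x hx => ?_)
        hb' hb
      have hb : ball x (R / 2) ⊆ ball 0 R := ball_subset_ball' (by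
        rw [mem_ball] at hx; linarith)
      refine (norm_fderiv_le_of_bdd (by positivity) ((h1 y hy).mono hb)
        fun u hu => hm y hy u (hb hu)).trans_eq ?_
      field_simp
      norm_num
  exact ⟨z, z1, fun y hy => ⟨mem_closedBall_zero_iff.1 (z2 y hy).1, (z2 y hy).2.1,
    fun b hb => (z2 y hy).2.2 b (mem_ball_zero_iff.2 hb)⟩⟩

/-! ### The constants -/

namespace Env
variable {J0 Cy Co : Type} [Fintype J0] [Fintype Cy] [Fintype Co] {S : Sys J0 Cy Co} (E : Env S)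

theorem C1 : 1 ≤ E.C := by linarith [E.hC]
theorem C0 : 0 < E.C := by linarith [E.hC]
theorem pow_le {m n : ℕ} (h : m ≤ n) : E.C ^ m ≤ E.C ^ n := pow_le_pow_right₀ E.C1 h

/-- a power of `C` absorbs a numerical factor -/
theorem num_le (n : ℕ) : 100000 * E.C ^ n ≤ E.C ^ (n + 1) := by
  rw [pow_succ, mul_comm]; exact mul_le_mul_of_nonneg_left E.hC (pow_pos E.C0 n).le

/-- from `x C⁸ ≤ y` to `10⁵ Cⁿ x ≤ y`, `n ≤ 7` -/
theorem small {x y : ℝ} (hx : 0 ≤ x) (h : x * E.C ^ 8 ≤ y) {n : ℕ} (hn : n ≤ 7) :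
    100000 * E.C ^ n * x ≤ y := by
  refine le_trans ?_ h
  rw [mul_comm x]
  exact mul_le_mul_of_nonneg_right ((E.num_le n).trans (E.pow_le (by omega))) hx

theorem le_of {x y : ℝ} (hx : 0 ≤ x) (h : x * E.C ^ 8 ≤ y) : 100000 * x ≤ y := by
  simpa using E.small hx h (n := 0) (by norm_num)

theorem ε_le : 100000 * E.ε ≤ 1 := E.le_of E.ε0.le E.hε
theorem δ_le : 100000 * E.δ ≤ 1 := by linarith [E.ε_le, E.hδ]
theorem δ₀_le : 100000 * E.δ₀ ≤ E.δ := E.le_of E.δ₀0.le E.hδ₀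
theorem δ₁_le : 100000 * E.δ₁ ≤ E.δ₀ := E.le_of E.δ₁0.le E.hδ₁
theorem μ_le : 100000 * E.μ ≤ E.δ₁ := E.le_of E.μ0.le E.hμ
theorem μ_le' : 100000 * E.μ ≤ E.r₀ := E.le_of E.μ0.le E.hμ'
theorem c₀_le : 100000 * E.c₀ ≤ E.μ := E.le_of E.c₀0.le E.hc₀
theorem r_le : 100000 * E.r ≤ E.μ := by
  have := E.le_of (mul_nonneg (by linarith [E.Cb1]) E.r0.le) E.hr
  nlinarith [E.Cb1, E.r0]
theorem r₀0 : 0 < E.r₀ := by linarith [E.μ_le', E.μ0]
theorem δ₁_lt : E.δ₁ ≤ 1 := by linarith [E.δ₁_le, E.δ₀_le, E.δ_le, E.δ₁0, E.δ₀0, E.δ0]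
theorem K0 : 0 < E.K := (mul_pos_iff_of_pos_right E.δ₁0).1 ((pow_pos E.C0 8).trans_le E.hK)
theorem C8_le_K : E.C ^ 8 ≤ E.K := E.hK.trans (mul_le_of_le_one_right E.K0.le E.δ₁_lt)
theorem C_le_K : E.C ≤ E.K := by simpa using (E.pow_le (show 1 ≤ 8 by norm_num)).trans E.C8_le_K
theorem K_ge : 100000 ≤ E.K := E.hC.trans E.C_le_K
theorem KT : 100000 * E.K ≤ S.T := (mul_le_mul_of_nonneg_right E.hC E.K0.le).trans E.hT
theorem K_le_T : E.K ≤ S.T := by linarith [E.KT, E.K0]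
theorem T_ge (E : Env S) : 100000 ≤ S.T := E.K_ge.trans E.K_le_T
theorem T0 (E : Env S) : 0 < S.T := by linarith [E.T_ge]
theorem inv_K : 1 / E.K * E.C ^ 8 ≤ E.δ₁ := by
  rw [div_mul_eq_mul_div, one_mul, div_le_iff₀ E.K0, mul_comm]; exact E.hK
theorem τ_le (E : Env S) : S.T ≤ 5 * S.τ ∧ S.τ ≤ S.T := by
  unfold Sys.τ; constructor <;> linarith [E.T_ge]
theorem τ1 (E : Env S) : 1 ≤ S.τ := by linarith [E.τ_le.1, E.T_ge]

variable {a : ℂ}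

theorem sa_lt (h : ‖a‖ * S.T ≤ E.ε) : ‖a‖ < 1 / (100 * S.T) := by
  rw [lt_div_iff₀ (by linarith [E.T0])]; linarith [E.ε_le]

theorem sa_K (h : ‖a‖ * S.T ≤ E.ε) : ‖a‖ ≤ 1 / E.K := by
  rw [le_div_iff₀ E.K0]
  nlinarith [E.ε_le, E.K_le_T, norm_nonneg a]

theorem sa_tht (h : ‖a‖ * S.T ≤ E.ε) : tht a 0 S.T ≤ E.ε :=
  (tht_zero_le a (by linarith [E.T_ge])).trans (by linarith [E.ε0])

theorem admP_real {γ : Path} {P T : ℝ} (h : γ.RealP T) (hT : E.K ≤ T) (hP : (γ.ze 1).re ≤ P)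
    (ha : ‖a‖ ≤ 1 / (4 * P)) : AdmP (1 / 100) E.K T a γ :=
  admP_mono (h.admP (by linarith [E.K_ge]) (fun t => (re_le_end h t).trans hP) ha) (by norm_num) hT

theorem cv {γ : Path} {c K T : ℝ} (_ : Env S) (hc : 0 < c) (hK : 0 < K) (hT : 1 ≤ T)
    (h : AdmP c K T a γ) : γ.CV a :=
  admP_cv (fun t => (hT.trans (h.T_le hc t)).trans (re_le_norm _)) hK h

end Env

theorem Sys.MS.mono {J0 Cy Co : Type} [Fintype J0] [Fintype Cy] [Fintype Co] {S : Sys J0 Cy Co}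
    {δ δ' r₀ : ℝ} {p a γ j γc k} (h : S.MS δ r₀ p a γ j γc k)
    (h1 : ∀ i, ((γ i).cyl (a i)).nrm muCyl 1 (j i) ≤ δ')
    (h2 : ∀ e, (γc e).cone.nrm (muCone (S.cc e)) 1 (k e - S.kS e (γc e)) ≤ δ') :
    S.MS δ' r₀ p a γ j γc k :=
  ⟨h.ball, h.cyl, h1, h.my, h.mp, h.cone, h2, h.ky, h.kp⟩

end Vale.Agent.P218N.Glue
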