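import Vale.Agent.P218N.Glue.Stmt

/-! The glued problem: the loop estimate, comparison and uniqueness of matched solutions. -/

open Filter Topology Metric Set Complex
open scoped ComplexConjugate

noncomputable section

namespace Vale.Agent.P218N.Glue

open Vale.Agent.P218N.End Vale.Agent.P218N.J

namespace CmpA

theorem sf_le (s : ℤ → Icc (0 : ℝ) 1) (m : ℤ) : ‖(if s m = p0 then 1 else 0 : ℂ)‖ ≤ 1 := by
  split_ifs <;> simp

theorem sb_le (s : ℤ → Icc (0 : ℝ) 1) (m : ℤ) : ‖(if s m = p0 then 0 else 1 : ℂ)‖ ≤ 1 := by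
  split_ifs <;> simp

theorem fwd_le (s : ℤ → Icc (0 : ℝ) 1) (d : WD) : ‖fwd s d‖ ≤ ‖d‖ :=
  (norm_mult_apply_le (sf_le s) d).trans_eq (one_mul _)

theorem bwd_le (s : ℤ → Icc (0 : ℝ) 1) (d : WD) : ‖bwd s d‖ ≤ ‖d‖ :=
  (norm_mult_apply_le (sb_le s) d).trans_eq (one_mul _)

theorem c_bwd (s : ℤ → Icc (0 : ℝ) 1) (d : WD) (m : ℤ) :
    (bwd s d).c m = (if s m = p0 then 0 else 1 : ℂ) • d.c m := c_mult (sb_le s) d m

theorem bwd_all (d : WD) : bwd sdAll d = 0 := by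
  ext m; rw [c_bwd]; simp [sdAll]

theorem p1_ne : p1 ≠ p0 := fun h => by
  have := congrArg Subtype.val h
  simp [p0, p1] at this

theorem bwd_F {d : WD} (h : d.c 0 = 0) : bwd sdF d = 0 := by
  ext m
  rw [c_bwd]
  by_cases hm : m = 0
  · subst hm; simp [h]
  · simp [sdF, hm]

theorem c0_le (d : WD) : ‖d.c 0‖ ≤ ‖bwd sdF (low d)‖ := by
  have h := (bwd sdF (low d)).norm_c_le 0
  rw [c_bwd, c_bwd] at h
  simpa [sdF, sdCyl, p1_ne] using h

theorem piJ_sub (Γ : Ctr) (μ : ℤ → ℝ) (j j' : EJ) :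
    Γ.piJ μ (j - j') = Γ.piJ μ j - Γ.piJ μ j' := by
  simp only [Ctr.piJ, EJ.sub_pt, EJ.sub_op, EJ.sub_y2, map_sub, smul_sub]; abel

theorem tr_y (t : ℝ) (j : EJ) : tr t j.y = ibr (tr t j.y2) := tr_mult sym0_le t j.y2

theorem eq_of_nrm {Γ : Ctr} {μ : ℤ → ℝ} {φ : BC} {j j' : EJ}
    (h : Γ.nrm μ (Γ.iW φ p0) (j - j') ≤ 0) : j = j' := by
  have h0 : (j - j').wt (Γ.iW φ p0) = 0 := norm_le_zero_iff.1 ((le_max_left _ _).trans h)
  have key : ∀ f : WB, W.C (Γ.iW φ p0) * f = 0 → f = 0 := fun f hf => by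
    have : W.C (Γ.Wt φ p0) * (W.C (Γ.iW φ p0) * f) = f := by
      rw [← mul_assoc, ← map_mul, Ctr.Wt_mul_iW, map_one, one_mul]
    rw [← this, hf, mul_zero]
  rw [← sub_eq_zero]
  exact Prod.ext (key _ (congrArg EJ.y2 h0)) (Prod.ext (key _ (congrArg EJ.op h0))
    (Prod.ext (key _ (congrArg EJ.oq h0)) (key _ (congrArg EJ.pt h0))))

/-- the numbers in the loop estimate -/
structure Num (C ε X X' B Er D P Q : ℝ) : Prop where
  hC : 100000 ≤ C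
  ε0 : 0 < ε
  e2 : C ^ 2 * ε ≤ 1 / 100000
  X0 : 0 ≤ X
  X'0 : 0 ≤ X'
  B0 : 0 ≤ B
  Er0 : 0 ≤ Er
  D0 : 0 ≤ D
  P0 : 0 ≤ P
  hQ : Q = ε * X + ε * X' + B + Er + D

namespace Num
variable {C ε X X' B Er D P Q : ℝ} (h : Num C ε X X' B Er D P Q)
include h

theorem a1 : 0 ≤ ε * X := mul_nonneg h.ε0.le h.X0
theorem a2 : 0 ≤ ε * X' := mul_nonneg h.ε0.le h.X'0
theorem Q0 : 0 ≤ Q := by linarith [h.a1, h.a2, h.B0, h.Er0, h.D0, h.hQ]
theorem C0 : 0 ≤ C := by linarith [h.hC]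
theorem e0 : ε ≤ C * ε := by nlinarith [h.hC, h.ε0]
theorem e1 : C * ε ≤ 1 / 100000 := by
  have := mul_le_mul_of_nonneg_right h.hC (mul_nonneg h.C0 h.ε0.le)
  nlinarith [h.e2, mul_nonneg h.C0 h.ε0.le]
theorem q1 : 100000 * Q ≤ C * Q := mul_le_mul_of_nonneg_right h.hC h.Q0
theorem q2 : 100000 * (C * Q) ≤ C ^ 2 * Q := by
  have := mul_le_mul_of_nonneg_right h.hC (mul_nonneg h.C0 h.Q0); linarith [pow_two C, mul_assoc C C Q]
theorem q3 : 100000 * (C ^ 2 * Q) ≤ C ^ 3 * Q := by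
  have := mul_le_mul_of_nonneg_right h.hC (mul_nonneg (pow_nonneg h.C0 2) h.Q0)
  linarith [show C ^ 3 * Q = C * (C ^ 2 * Q) by ring]

theorem nd {d : ℝ} (hd : 0 ≤ d) (h1 : d ≤ X' + (B + ε * X + C * P) + (C * ε * d + Er)) :
    d ≤ 2 * (X' + B + ε * X + C * P + Er) := by
  linarith [mul_le_mul_of_nonneg_right h.e1 hd]

theorem ned {d : ℝ} (hd : d ≤ 2 * (X' + B + ε * X + C * P + Er)) :
    C * ε * d ≤ 3 * (C * Q) + P / 10000 := by
  have h1 := mul_le_mul_of_nonneg_left hd (mul_nonneg h.C0 h.ε0.le)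
  have h2 : C * ε * (B + ε * X + Er) ≤ 1 / 100000 * (B + ε * X + Er) :=
    mul_le_mul_of_nonneg_right h.e1 (by linarith [h.a1, h.B0, h.Er0])
  have h3 : C ^ 2 * ε * P ≤ 1 / 100000 * P := mul_le_mul_of_nonneg_right h.e2 h.P0
  have h4 : C * (ε * X') ≤ C * Q :=
    mul_le_mul_of_nonneg_left (by linarith [h.a1, h.B0, h.Er0, h.D0, h.hQ]) h.C0
  have e : C * ε * (2 * (X' + B + ε * X + C * P + Er)) =
    2 * (C * (ε * X')) + 2 * (C * ε * (B + ε * X + Er)) + 2 * (C ^ 2 * ε * P) := by ring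
  linarith [h.q1, h.a1, h.a2, h.B0, h.Er0, h.D0, h.hQ, h.P0]

theorem np1 {d π y : ℝ} (d0 : 0 ≤ d) (π0 : 0 ≤ π) (hd : d ≤ 2 * (X' + B + ε * X + C * P + Er))
    (h1 : π ≤ ε * d + D) (h2 : y ≤ C * ε * (π + d) + Er + π) : y ≤ 8 * (C * Q) + P / 2 := by
  have h3 := h.ned hd
  have h4 := mul_le_mul_of_nonneg_right h.e0 d0
  have h5 := mul_le_mul_of_nonneg_right h.e1 π0
  have h6 := mul_nonneg h.ε0.le d0
  linarith [h.q1, h.a1, h.a2, h.B0, h.Er0, h.D0, h.hQ, h.P0, mul_add (C * ε) π d]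

theorem np2 {o i y : ℝ} (h1 : o ≤ B + ε * X + C * P) (h2 : i ≤ B + (ε * X + ε * P))
    (h3 : y ≤ ε * o + C * i + D) : y ≤ 8 * (C * Q) + P / 2 := by
  have h4 := mul_le_mul_of_nonneg_left h1 h.ε0.le
  have h5 := mul_le_mul_of_nonneg_left h2 h.C0
  have h6 := mul_le_mul_of_nonneg_right h.e1 h.P0
  have h7 : C * (B + ε * X) ≤ C * Q :=
    mul_le_mul_of_nonneg_left (by linarith [h.a2, h.Er0, h.D0, h.hQ]) h.C0
  have h8 : ε * (B + ε * X) ≤ 1 * (B + ε * X) :=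
    mul_le_mul_of_nonneg_right (by linarith [h.e0, h.e1]) (by linarith [h.a1, h.B0])
  have e1 : ε * (B + ε * X + C * P) = ε * (B + ε * X) + C * ε * P := by ring
  have e2 : C * (B + (ε * X + ε * P)) = C * (B + ε * X) + C * ε * P := by ring
  linarith [h.q1, h.a1, h.a2, h.B0, h.Er0, h.D0, h.hQ, h.P0]

theorem cp (h1 : P ≤ 8 * (C * Q) + P / 2) : P ≤ 16 * (C * Q) ∧ C * P ≤ 16 * (C ^ 2 * Q) := by
  have h2 : P ≤ 16 * (C * Q) := by linarith
  exact ⟨h2, (mul_le_mul_of_nonneg_left h2 h.C0).trans_eq (by ring)⟩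

theorem fin1 (h1 : P ≤ 8 * (C * Q) + P / 2) : P ≤ C ^ 3 * Q ∧ B + ε * X + C * P ≤ C ^ 3 * Q ∧
    2 * (X' + B + ε * X + C * P + Er) ≤ 2 * X' + C ^ 3 * Q := by
  obtain ⟨h2, h3⟩ := h.cp h1
  refine ⟨?_, ?_, ?_⟩ <;>
  linarith [h.q1, h.q2, h.q3, h.a1, h.a2, h.B0, h.Er0, h.D0, h.hQ, h.P0, h.Q0]

theorem fin2 (h1 : P ≤ 8 * (C * Q) + P / 2) {d y : ℝ} (d0 : 0 ≤ d)
    (hd : d ≤ 2 * (X' + B + ε * X + C * P + Er))
    (h2 : y ≤ ε * d + D + (C * ε * d + Er) + (B + ε * X + C * P)) : y ≤ C ^ 3 * Q := by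
  obtain ⟨h3, h4⟩ := h.cp h1
  have h5 := h.ned hd
  have h6 := mul_le_mul_of_nonneg_right h.e0 d0
  linarith [h.q1, h.q2, h.q3, h.a1, h.a2, h.B0, h.Er0, h.D0, h.hQ, h.P0, h.Q0]

end Num

end CmpA

open CmpA

variable {J0 Cy Co : Type} [Fintype J0] [Fintype Cy] [Fintype Co]

namespace Env
variable {S : Sys J0 Cy Co} (E : Env S)

theorem cmp_C1 : 1 ≤ E.C := by linarith [E.hC]

theorem cmp_eps (n : ℕ) (hn : n ≤ 7) : E.C ^ n * E.ε ≤ 1 / 100000 := by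
  have h1 : E.C ^ n ≤ E.C ^ 7 := pow_le_pow_right₀ E.cmp_C1 hn
  have h2 : E.C ^ 7 * E.ε * E.C ≤ 1 := by linarith [E.hε, show E.C ^ 7 * E.ε * E.C = E.ε * E.C ^ 8 by ring]
  have h3 : 0 ≤ E.C ^ 7 * E.ε := mul_nonneg (pow_nonneg (by linarith [E.hC]) _) E.ε0.le
  have h4 : E.C ^ 7 * E.ε * 100000 ≤ 1 := (mul_le_mul_of_nonneg_left E.hC h3).trans h2
  have h5 := mul_le_mul_of_nonneg_right h1 E.ε0.le
  linarith

theorem cmp_K0 : 0 < E.K := by
  have h1 : 0 < E.C ^ 8 := pow_pos (by linarith [E.hC]) _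
  exact pos_of_mul_pos_left (h1.trans_le E.hK) E.δ₁0.le

theorem cmp_K1 : 1 ≤ E.K := by
  have h1 : 1 ≤ E.C ^ 8 := one_le_pow₀ E.cmp_C1
  have e1 := E.cmp_eps 0 (by norm_num)
  have h2 : E.δ₀ ≤ 1 := by nlinarith [E.hδ₀, E.hδ, E.δ₀0]
  have h3 : E.δ₁ ≤ 1 := by nlinarith [E.hδ₁, E.δ₁0]
  nlinarith [E.hK, E.cmp_K0]

theorem cmp_KT : E.K ≤ S.T := by nlinarith [E.hT, E.cmp_C1, E.cmp_K0]

include E in
theorem cmp_T : 100000 ≤ S.T := by nlinarith [E.hT, E.hC, E.cmp_K1]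

include E in
theorem cmp_tau : 0 < S.τ := by unfold Sys.τ; linarith [E.cmp_T]

theorem cmp_aK {a : ℂ} (h : ‖a‖ * S.T ≤ E.ε) : ‖a‖ ≤ 1 / E.K := by
  have e1 := E.cmp_eps 0 (by norm_num)
  rw [le_div_iff₀ E.cmp_K0]
  nlinarith [mul_le_mul_of_nonneg_left E.cmp_KT (norm_nonneg a)]

theorem cmp_tht {a : ℂ} (h : ‖a‖ * S.T ≤ E.ε) : tht a 0 S.T ≤ E.ε := by
  have hT := E.cmp_T
  have e : ‖(S.T : ℂ) - 2‖ = S.T - 2 := by
    rw [show (S.T : ℂ) - 2 = ((S.T - 2 : ℝ) : ℂ) by push_cast; ring, Complex.norm_real,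
      Real.norm_of_nonneg (by linarith)]
  unfold tht rh
  rw [e]
  simp only [sub_zero, zero_mul, add_zero, Complex.norm_ofNat]
  nlinarith [norm_nonneg a, E.ε0]

theorem loop : E.Loop := by
  intro p p' s d π sh Er D X X' hp hp' hEr hD hX hX' H Hc N hN
  have h : Num E.C E.ε X X' (E.Cb * ‖p.1 - p'.1‖) Er D ‖p.2.2 - p'.2.2‖ _ :=
    ⟨E.hC, E.ε0, E.cmp_eps 2 (by norm_num), (norm_nonneg _).trans hX, hX',
      mul_nonneg (by linarith [E.Cb1]) (norm_nonneg _), hEr, hD, norm_nonneg _, rfl⟩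
  rw [mul_add E.ε] at hN
  have hεX : E.ε * ‖p.2.1 - p'.2.1‖ ≤ E.ε * X := mul_le_mul_of_nonneg_left hX E.ε0.le
  have l1 := fun i => (E.core.lip1 p p' hp hp' i).trans
    (add_le_add (add_le_add le_rfl hεX) le_rfl)
  have l2 := fun e => (E.core.lip2 p p' hp hp' e).trans
    (add_le_add (add_le_add le_rfl hεX) le_rfl)
  have l3 := fun e => (E.core.lip3 p p' hp hp' e).trans
    (add_le_add le_rfl ((mul_add _ _ _).trans_le (add_le_add hεX le_rfl)))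
  have hd := fun i => h.nd (norm_nonneg (d i)) (by
    obtain ⟨h1, h2, -, -⟩ := H i
    have e : (low (p.2.1 i - p'.2.1 i) - sh i) +
        ((S.out p).1 i - (S.out p').1 i - low (p.2.1 i - p'.2.1 i)) -
        ((S.out p).1 i - (S.out p').1 i - d i - sh i) = d i := by abel
    exact (congrArg norm e).symm.trans_le ((norm_sub_le _ _).trans
      (add_le_add ((norm_add_le _ _).trans (add_le_add h1 (l1 i))) h2)))
  have hf : ∀ i, ‖π i‖ + ‖bwd s (d i)‖ ≤ E.ε * ‖d i‖ + D := fun i => (H i).2.2.2.trans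
    (add_le_add (mul_le_mul_of_nonneg_left (fwd_le s (d i)) E.ε0.le) le_rfl)
  have hR := add_nonneg (mul_nonneg (by norm_num : (0 : ℝ) ≤ 8) (mul_nonneg h.C0 h.Q0))
    (div_nonneg h.P0 (by norm_num : (0 : ℝ) ≤ 2))
  have hP := (Prod.norm_def (p.2.2 - p'.2.2)).trans_le (max_le
    ((pi_norm_le_iff_of_nonneg hR).2 fun i => h.np1 (norm_nonneg (d i)) (norm_nonneg (π i)) (hd i)
      ((le_add_of_nonneg_right (norm_nonneg _)).trans (hf i))
      ((congrArg norm (sub_add_cancel (p.2.2.1 i - p'.2.2.1 i) (π i))).symm.trans_le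
        ((norm_add_le _ _).trans (add_le_add (H i).2.2.1 le_rfl))))
    ((pi_norm_le_iff_of_nonneg hR).2 fun e => h.np2 (l2 e) (l3 e) (Hc e)))
  obtain ⟨f1, f2, f3⟩ := h.fin1 hP
  refine ⟨f1.trans hN, fun i => ⟨?_, ((hd i).trans f3).trans (add_le_add le_rfl hN)⟩,
    fun e => ((l2 e).trans f2).trans hN⟩
  have e : low (p.2.1 i - p'.2.1 i) - sh i = d i +
      ((S.out p).1 i - (S.out p').1 i - d i - sh i) -
      ((S.out p).1 i - (S.out p').1 i - low (p.2.1 i - p'.2.1 i)) := by abel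
  rw [e, map_sub, map_add]
  exact (h.fin2 hP (norm_nonneg (d i)) (hd i) ((norm_sub_le _ _).trans (add_le_add
    ((norm_add_le _ _).trans (add_le_add ((le_add_of_nonneg_left (norm_nonneg _)).trans (hf i))
      ((bwd_le s _).trans (H i).2.1))) ((bwd_le s _).trans (l1 i))))).trans hN

theorem cmp_pt {a : ℂ} {γ : Path} (h : ‖a‖ * S.T ≤ E.ε) (ha : AdmP (1 / 100) E.K S.T a γ)
    (d d' π π' : WD) :
    ‖cvY a 0 S.T d - cvY a 0 S.T d' - (d - d')‖ ≤ E.C * E.ε * ‖d - d'‖ ∧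
    ‖cvP a 0 S.T d π - cvP a 0 S.T d' π' - (π - π')‖ ≤ E.C * E.ε * (‖π - π'‖ + ‖d - d'‖) := by
  obtain ⟨u, hu1, hu2, hu3, -⟩ := ha.dir 0
  have hb := ha.big 0
  rw [ha.st] at hu3 hb
  have ht := E.cmp_tht h
  have e0 := E.cmp_eps 0 (by norm_num)
  rw [pow_zero, one_mul] at e0
  have hC0 : 0 ≤ E.C := by linarith [E.hC]
  have key := fun d π => E.pt.1 E.K a 0 S.T u d π le_rfl (by simpa using E.cmp_KT) (E.cmp_aK h)
    (by simpa using E.cmp_K0.le) hu1 hu2 hu3 hb (by linarith) (by simp [rh])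
  have hCt : E.C * tht a 0 S.T ≤ E.C * E.ε := mul_le_mul_of_nonneg_left ht hC0
  constructor
  · have h1 := (key 0 0).1
    simp only [cvY, smul_zero, zero_add, sub_zero, norm_zero, add_zero, mul_one, norm_smul,
      norm_one] at h1
    have e : cvY a 0 S.T d - cvY a 0 S.T d' - (d - d') = (sgm a 0 S.T - 1) • (d - d') := by
      simp only [cvY, smul_sub, sub_smul, one_smul]; abel
    rw [e, norm_smul]
    exact mul_le_mul_of_nonneg_right (h1.trans hCt) (norm_nonneg _)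
  · exact ((key d π).2.2.2.2.1 d' π').trans (mul_le_mul_of_nonneg_right hCt (by positivity))

theorem cmp : E.Cmp := by
  intro p p' s a γ j j' γc k k' φ ψ D X h h' hD hX H Hc N hN
  have hC := E.hC
  have hC0 : 0 ≤ E.C := by linarith
  have hX0 : 0 ≤ X := (norm_nonneg _).trans hX
  have hB : 0 ≤ E.Cb * ‖p.1 - p'.1‖ := mul_nonneg (by linarith [E.Cb1]) (norm_nonneg _)
  have a1 : 0 ≤ E.ε * X := mul_nonneg E.ε0.le hX0
  have ap : ∀ i, ((γ i).cyl (a i)).nrm muCyl (((γ i).cyl (a i)).iW (φ i) p0) (j i - j' i) ≤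
      E.C * (‖fwd s (tr 0 (j i).y2 - tr 0 (j' i).y2)‖ + D) ∧
      ‖(γ i).piC (a i) (j i) 0 - (γ i).piC (a i) (j' i) 0‖ +
        ‖bwd s (tr 0 (j i).y2 - tr 0 (j' i).y2)‖ ≤
      E.ε * ‖fwd s (tr 0 (j i).y2 - tr 0 (j' i).y2)‖ + E.C * D := fun i => by
    obtain ⟨h1, h2, h3, h4⟩ := H i
    have := (E.far.1 S.T (a i) (γ i) s (φ i) E.cmp_KT (E.cmp_aK h1) h2 h3).1 (j i) (j' i)
      (h.cyl i).1 (h'.cyl i).1 (by rw [sub_zero]; exact h.ncyl i) (by rw [sub_zero]; exact h'.ncyl i)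
    rw [(h.cyl i).2, (h'.cyl i).2, piJ_sub] at this
    simp only [Ctr.dsz, EJ.sub_y2, map_sub (tr 0), map_sub (tr 1), sub_zero, mul_zero, norm_zero,
      add_zero, zero_mul] at this
    exact ⟨this.1.trans (mul_le_mul_of_nonneg_left (add_le_add le_rfl h4) hC0),
      this.2.trans (add_le_add le_rfl (mul_le_mul_of_nonneg_left h4 hC0))⟩
  have dk : ∀ e, (S.out p).2 e - (S.out p').2 e = tr 0 (k e).y2 - tr 0 (k' e).y2 := fun e => by
    rw [← h.ky e, ← h'.ky e]; abel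
  have ak : ∀ e, (γc e).cone.nrm (muCone (S.cc e)) ((γc e).cone.iW (ψ e) p0) (k e - k' e) ≤
      E.C * (‖(S.out p).2 e - (S.out p').2 e‖ + D) ∧
      ‖p.2.2.2 e - p'.2.2.2 e‖ ≤ E.ε * ‖(S.out p).2 e - (S.out p').2 e‖ +
        E.C * ‖ibr ((S.out p).2 e - (S.out p').2 e)‖ + E.C * D := fun e => by
    obtain ⟨h1, h2, h3⟩ := Hc e
    have := (E.fcone e (γc e) (ψ e) h1 h2).1 (k e) (k' e) (h.cone e).1 (h'.cone e).1 (h.ncone e)
      (h'.ncone e)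
    rw [(h.cone e).2, (h'.cone e).2, piJ_sub, tr_y] at this
    simp only [Ctr.dsz, EJ.sub_y2, map_sub (tr 0), map_sub (tr 1), sub_zero, mul_zero, norm_zero,
      add_zero, zero_add, bwd_all] at this
    have e1 : p.2.2.2 e - p'.2.2.2 e =
        (γc e).piK (S.cc e) (k e) 0 - (γc e).piK (S.cc e) (k' e) 0 := by
      rw [← h.kp e, ← h'.kp e]; abel
    rw [dk, e1]
    exact ⟨this.1.trans (mul_le_mul_of_nonneg_left (add_le_add (fwd_le _ _) h3) hC0),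
      this.2.trans (add_le_add (add_le_add (mul_le_mul_of_nonneg_left (fwd_le _ _) E.ε0.le) le_rfl)
        (mul_le_mul_of_nonneg_left h3 hC0))⟩
  have hN' : E.C ^ 3 * (E.ε * (X + X) + E.Cb * ‖p.1 - p'.1‖ + 0 + E.C * D) ≤ N := by
    refine le_trans ?_ hN
    rw [pow_succ E.C 3, mul_assoc]
    refine mul_le_mul_of_nonneg_left ?_ (pow_nonneg hC0 3)
    nlinarith [mul_le_mul_of_nonneg_right hC a1, mul_le_mul_of_nonneg_right hC hB]
  have hDN : D ≤ N := by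
    have h1 : 1 ≤ E.C ^ 4 := one_le_pow₀ E.cmp_C1
    nlinarith
  obtain ⟨r1, r2, r3⟩ := E.loop p p' s (fun i => tr 0 (j i).y2 - tr 0 (j' i).y2)
    (fun i => (γ i).piC (a i) (j i) 0 - (γ i).piC (a i) (j' i) 0) 0 0 (E.C * D) X X h.ball h'.ball
    le_rfl (mul_nonneg hC0 hD) hX hX0 (fun i => by
      obtain ⟨h1, h2, -, -⟩ := H i
      have hp := E.cmp_pt h1 h2 (tr 0 (j i).y2) (tr 0 (j' i).y2) ((γ i).piC (a i) (j i) 0)
        ((γ i).piC (a i) (j' i) 0)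
      rw [← h.my i, ← h'.my i, ← h.mp i, ← h'.mp i, add_sub_add_left_eq_sub,
        add_sub_add_left_eq_sub] at hp
      simp only [Pi.zero_apply, sub_zero, add_zero]
      exact ⟨(bwd_le _ _).trans ((norm_le_pi_norm (p.2.1 - p'.2.1) i).trans hX), hp.1, hp.2,
        (ap i).2⟩) (fun e => (ak e).2) N hN'
  refine ⟨r1, fun i => ⟨by simpa only [Pi.zero_apply, sub_zero] using (r2 i).1,
    (ap i).1.trans ?_⟩, fun e => (ak e).1.trans ?_⟩
  · have := (fwd_le s _).trans (r2 i).2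
    rw [mul_comm 2 E.C, mul_assoc]
    exact mul_le_mul_of_nonneg_left (by linarith) hC0
  · rw [mul_comm 2 E.C, mul_assoc]
    exact mul_le_mul_of_nonneg_left (by linarith [r3 e]) hC0

variable {E}

theorem Coord.mono {X : XT J0 Cy} {η η' rX c₁ CX P₀ : ℝ} (h : E.Coord X η rX c₁ CX P₀)
    (hη : η ≤ η') : E.Coord X η' rX c₁ CX P₀ :=
  ⟨h.rX0, h.rX1, h.c₁0, h.c₁1, h.CX0, h.hol, h.x1, fun β β' b h1 h2 h3 i =>
    (h.x2 β β' b h1 h2 h3 i).trans (mul_le_mul_of_nonneg_right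
      (mul_le_mul_of_nonneg_right hη E.cmp_tau.le) (norm_nonneg _)), h.zero, h.real⟩

variable (E)

theorem s2uq {X : XT J0 Cy} {rX c₁ CX P₀ : ℝ} (h : E.Coord X (1 / 50) rX c₁ CX P₀) :
    E.S2uq X rX := by
  intro d β β' b u u' hR hadm ha hβ hβ' hb h1 h2
  have hτ := E.cmp_tau
  have hx := h.x2 β β' b hβ hβ' hb
  have ms' := h2.ms
  rw [ha] at ms'
  have hn : ∀ i, ‖((S.τ : ℂ) * (β i - β' i)) • (1 : WD)‖ = S.τ * ‖β i - β' i‖ := fun i => by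
    rw [norm_smul, norm_one, mul_one, norm_mul, Complex.norm_real, Real.norm_of_nonneg hτ.le]
  have hX : ‖X (β, b) - X (β', b)‖ ≤ 51 / 50 * (S.τ * ‖β - β'‖) := by
    refine (pi_norm_le_iff_of_nonneg (by positivity)).2 fun i => ?_
    have h3 := norm_add_le (X (β, b) i - X (β', b) i - ((S.τ : ℂ) * (β i - β' i)) • (1 : WD))
      (((S.τ : ℂ) * (β i - β' i)) • (1 : WD))
    rw [sub_add_cancel, hn] at h3
    have h4 : S.τ * ‖β i - β' i‖ ≤ S.τ * ‖β - β'‖ :=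
      mul_le_mul_of_nonneg_left (norm_le_pi_norm (β - β') i) hτ.le
    change ‖X (β, b) i - X (β', b) i‖ ≤ _
    linarith [hx i]
  have hreal := (E.sub.1 S.T d.Rc hR).1
  obtain ⟨r1, r2, r3⟩ := E.cmp (b, X (β, b), u.π) (b, X (β', b), u'.π) sdF u.a d.γ u.j u'.j
    (fun _ => sg S.T d.Rc) u.k u'.k (fun i => (d.γ i).pw (u.a i) (3 / 5))
    (fun _ => pk E.Λ (sg S.T d.Rc) 0) 0 _ h1.ms ms' le_rfl hX (fun i => by
      refine ⟨h1.sa i, hadm i, (E.wt E.K S.T (u.a i) (d.γ i) le_rfl E.cmp_KT (E.cmp_aK (h1.sa i))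
        (hadm i)).2.2.2.2.2.2.2.1 _ ⟨by norm_num, by norm_num⟩, ?_⟩
      have e1 := h2.om i
      rw [ha] at e1
      rw [h1.om i, e1, bwd_F (by simp [h1.y0 i, h2.y0 i])]
      simp) (fun e => by
      refine ⟨hreal, ((E.wtK _ hreal).1 0 ⟨le_rfl, by norm_num⟩).1, ?_⟩
      rw [h1.oc e, h2.oc e]
      simp) _ le_rfl
  simp only [sub_self, norm_zero, mul_zero, add_zero] at r1 r2 r3
  have e4 := E.cmp_eps 4 (by norm_num)
  have hN : E.C ^ 4 * (E.ε * (51 / 50 * (S.τ * ‖β - β'‖))) ≤ S.τ * ‖β - β'‖ / 50 := by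
    have := mul_le_mul_of_nonneg_right e4 (mul_nonneg hτ.le (norm_nonneg (β - β')))
    nlinarith [mul_nonneg hτ.le (norm_nonneg (β - β'))]
  have hβ0 : ‖β - β'‖ ≤ ‖β - β'‖ / 2 := by
    refine (pi_norm_le_iff_of_nonneg (by positivity)).2 fun i => ?_
    have h3 := ((c0_le _).trans (r2 i).1).trans hN
    have h4 := (W.norm_c_le _ 0).trans (hx i)
    have h5 := norm_sub_le ((X (β, b) i - X (β', b) i).c 0)
      ((X (β, b) i - X (β', b) i - ((S.τ : ℂ) * (β i - β' i)) • (1 : WD)).c 0)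
    have e5 : (X (β, b) i - X (β', b) i).c 0 -
        (X (β, b) i - X (β', b) i - ((S.τ : ℂ) * (β i - β' i)) • (1 : WD)).c 0 =
        (S.τ : ℂ) * (β i - β' i) := by simp [W.c_one]
    rw [e5, norm_mul, Complex.norm_real, Real.norm_of_nonneg hτ.le] at h5
    change ‖β i - β' i‖ ≤ _
    refine le_of_mul_le_mul_left ?_ hτ
    linarith [mul_nonneg hτ.le (norm_nonneg (β - β'))]
  have hββ : β = β' := by
    rw [← sub_eq_zero, ← norm_le_zero_iff]; linarith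
  subst hββ
  simp only [sub_self, norm_zero, mul_zero, add_zero] at r1 r2 r3
  refine ⟨rfl, ?_⟩
  have q1 : u.π = u'.π := by rw [← sub_eq_zero, ← norm_le_zero_iff]; exact r1
  have q2 : u.j = u'.j := funext fun i => eq_of_nrm (r2 i).2
  have q3 : u.k = u'.k := funext fun e => eq_of_nrm (r3 e)
  cases u; cases u'
  simp only at ha q1 q2 q3
  rw [ha, q1, q2, q3]

theorem s2pr {X : XT J0 Cy} {rX : ℝ} (h1 : E.S2ex X rX) (h2 : E.S2uq X rX) : E.S2pr X rX := by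
  intro M hM
  obtain ⟨CM, hCM, ρ₀, hρ₀, H⟩ := h1 M hM
  have hT : 0 < S.T := by linarith [E.cmp_T]
  have hM0 : 0 < M := by linarith
  refine ⟨CM, hCM, min ρ₀ (1 / (M * S.T)), lt_min hρ₀ (by positivity), ?_⟩
  intro ρ hρ hρ1 d β b u hg hβ hb ht
  obtain ⟨β', u', -, -, H'⟩ := H ρ hρ (hρ1.trans (min_le_left _ _)) ℂ univ (fun _ => d)
    (fun _ => u.a) (fun _ => b) ⟨isOpen_univ, fun _ _ _ _ => rfl,
      fun _ => differentiableOn_const _, fun _ => differentiableOn_const _,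
      differentiableOn_const _, differentiableOn_const _, fun i _ _ _ _ => by
        obtain ⟨t, ht, h3, h4⟩ := hg.pre i
        exact ⟨t, ht, fun s hs => ⟨h3 s hs, rfl⟩, h4⟩⟩
    (differentiableOn_const _) (differentiableOn_const _) fun _ _ => ⟨hg, hb⟩
  obtain ⟨e1, e2, e3, e4⟩ := H' 0 (mem_univ _)
  have hR : S.T ≤ d.Rc := by
    refine le_trans ?_ hg.rc
    have h3 := hρ1.trans (min_le_right _ _)
    rw [le_div_iff₀ (by positivity)] at h3 ⊢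
    linarith
  obtain ⟨q1, q2⟩ := h2 d β (β' 0) b u (u' 0) hR hg.adm e1 hβ e2 hb ht e3
  rw [q1, q2]
  exact e4

end Env

end Vale.Agent.P218N.Glue
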