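import Mathlib

/-! Limits of Taylor coefficients along dyadic scales: the statement. -/

open Filter Topology Metric Set

namespace Vale.Agent.P218N.Glue

/-- the domain at the scale `2 ^ k` -/
def dmn (V B : Type) [NormedAddCommGroup V] [NormedAddCommGroup B] (c r : ℝ) (k : ℕ) :
    Set (V × B) := ball (0 : V) (c / 2 ^ k) ×ˢ ball (0 : B) r

/-- Holomorphic maps `f k` on shrinking domains with increments `O(2^{-kp})`, `n < p < n + 1`,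
have limiting Taylor coefficients `g l`, `l ≤ n`, in the first variable. -/
def ZlimStmt : Prop := ∀ (V B Y : Type) [NormedAddCommGroup V] [NormedSpace ℂ V]
  [NormedAddCommGroup B] [NormedSpace ℂ B] [NormedAddCommGroup Y] [NormedSpace ℂ Y]
  [CompleteSpace Y] (n k₀ : ℕ) (p c r C : ℝ) (f : ℕ → V × B → Y), (n : ℝ) < p → p < n + 1 →
  0 < c → (∀ k, k₀ ≤ k → DifferentiableOn ℂ (f k) (dmn V B c r k)) →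
  (∀ z ∈ dmn V B c r k₀, ‖f k₀ z‖ ≤ C) →
  (∀ k, k₀ ≤ k → ∀ z ∈ dmn V B c r (k + 1), ‖f (k + 1) z - f k z‖ ≤ C * ((2 : ℝ) ^ k) ^ (-p)) →
  ∃ (g : ℕ → V × B → Y) (C' : ℝ), 0 ≤ C' ∧
    (∀ l, l ≤ n → DifferentiableOn ℂ (g l) (univ ×ˢ ball 0 r) ∧ ∀ b ∈ ball (0 : B) r,
      (∀ (t : ℂ) (v : V), g l (t • v, b) = t ^ l • g l (v, b)) ∧
      (∀ v, ‖g l (v, b)‖ ≤ C' * ‖v‖ ^ l) ∧
      ∀ v v', ‖g l (v, b) - g l (v', b)‖ ≤ C' * (‖v‖ + ‖v'‖) ^ (l - 1) * ‖v - v'‖) ∧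
    (∀ k, k₀ ≤ k → ∀ z ∈ dmn V B c r (k + 1),
      ‖f k z - ∑ l ∈ Finset.range (n + 1), g l z‖ ≤ C' * ((2 : ℝ) ^ k) ^ (-p)) ∧
    (∀ b ∈ ball (0 : B) r, ∀ v, g 0 (v, b) = g 0 (0, b) ∧
      Tendsto (fun k => f k (0, b)) atTop (𝓝 (g 0 (0, b)))) ∧
    (1 ≤ n → ∀ b ∈ ball (0 : B) r, (∀ v v', g 1 (v + v', b) = g 1 (v, b) + g 1 (v', b)) ∧
      ∀ (L : V →L[ℂ] Y) (η q C'' : ℝ), 1 < q → (∀ k, k₀ ≤ k → ∀ v ∈ ball (0 : V) (c / 2 ^ (k + 1)),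
        ‖f k (v, b) - f k (0, b) - L v‖ ≤ η * ‖v‖ + C'' * ((2 : ℝ) ^ k) ^ (-q)) →
        ∀ v, ‖g 1 (v, b) - L v‖ ≤ η * ‖v‖) ∧
    ∀ (σV : V →L⋆[ℂ] V) (σB : B → B) (σY : Y →L⋆[ℂ] Y), (∀ v, ‖σV v‖ = ‖v‖) →
      (∀ b, ‖σB b‖ = ‖b‖) →
      (∀ k, k₀ ≤ k → ∀ z ∈ dmn V B c r k, f k (σV z.1, σB z.2) = σY (f k z)) →
      ∀ l, l ≤ n → ∀ v, ∀ b ∈ ball (0 : B) r, g l (σV v, σB b) = σY (g l (v, b))

end Vale.Agent.P218N.Glue
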