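import Vale.Agent.P218N.End.Api2
import Vale.Agent.P218N.Glue.ZSpec

/-! The glued problem: data, constants, matched solutions. -/

open Filter Topology Metric Set Complex
open scoped ComplexConjugate

noncomputable section

namespace Vale.Agent.P218N.Glue

open Vale.Agent.P218N.End Vale.Agent.P218N.J

/-- data at `T` on the cylindrical and on the conical ends -/
abbrev Dat (Cy Co : Type) : Type := (Cy → WD) × (Co → WD)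
/-- the parameters `(b, x, π)` of the core problem -/
abbrev CP (J0 Cy Co : Type) : Type := (J0 → ℂ) × (Cy → WD) × Dat Cy Co

/-- `y` from `y2` -/
def ibr : WD →L[ℂ] WD := mult fun m => ((br m : ℝ) : ℂ)⁻¹
/-- the modes `0, ±1` -/
abbrev low : WD →L[ℂ] WD := bwd sdCyl

/-- The fixed data: the ends of the shrinker and the core problem at `T`. -/
structure Sys (J0 Cy Co : Type) where
  T : ℝ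
  jS : Cy → Path → EJ
  dS : Cy → ℝ → WD
  πS : Cy → ℝ → WD
  kS : Co → Path → EJ
  dK : Co → ℝ → WD
  πK : Co → ℝ → WD
  cc : Co → ℝ
  ka : Co → WD
  kd : Co → WD
  out : CP J0 Cy Co → Dat Cy Co
  Fc : CP J0 Cy Co → ℂ
  rest : CP J0 Cy Co → CP J0 Cy Co → ℂ

variable {J0 Cy Co : Type}

/-- conjugation -/
def cjF {ι : Type} (d : ι → WD) : ι → WD := fun i => W.cj (d i)
/-- conjugation -/
def cjD (d : Dat Cy Co) : Dat Cy Co := (cjF d.1, cjF d.2)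
/-- conjugation -/
def cjP (p : CP J0 Cy Co) : CP J0 Cy Co := (star p.1, cjF p.2.1, cjD p.2.2)

variable [Fintype J0] [Fintype Cy] [Fintype Co]

/-- The core problem, normalised. -/
structure CoreL (S : Sys J0 Cy Co) (C ε Cb r₀ : ℝ) : Prop where
  hol : DifferentiableOn ℂ S.out (ball 0 r₀)
  holF : DifferentiableOn ℂ S.Fc (ball 0 r₀)
  zero : S.out 0 = 0
  lip1 : ∀ p p' : CP J0 Cy Co, ‖p‖ < r₀ → ‖p'‖ < r₀ → ∀ i,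
    ‖(S.out p).1 i - (S.out p').1 i - low (p.2.1 i - p'.2.1 i)‖ ≤
      Cb * ‖p.1 - p'.1‖ + ε * ‖p.2.1 - p'.2.1‖ + C * ‖p.2.2 - p'.2.2‖
  lip2 : ∀ p p' : CP J0 Cy Co, ‖p‖ < r₀ → ‖p'‖ < r₀ → ∀ e, ‖(S.out p).2 e - (S.out p').2 e‖ ≤
      Cb * ‖p.1 - p'.1‖ + ε * ‖p.2.1 - p'.2.1‖ + C * ‖p.2.2 - p'.2.2‖
  lip3 : ∀ p p' : CP J0 Cy Co, ‖p‖ < r₀ → ‖p'‖ < r₀ → ∀ e,
    ‖ibr ((S.out p).2 e - (S.out p').2 e)‖ ≤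
      Cb * ‖p.1 - p'.1‖ + ε * (‖p.2.1 - p'.2.1‖ + ‖p.2.2 - p'.2.2‖)
  bdd : ∀ p : CP J0 Cy Co, ‖p‖ < r₀ → ‖S.Fc p‖ ≤ Cb
  dF : ∀ p : CP J0 Cy Co, ‖p‖ < r₀ → ∀ v, fderiv ℂ S.Fc p v = S.rest p v +
    ∑ i, flC 0 S.T (S.dS i S.T + (S.out p).1 i) (S.πS i S.T + p.2.2.1 i) 0
      ((fderiv ℂ S.out p v).1 i) +
    ∑ e, flK (S.cc e) (S.ka e) S.T (S.dK e S.T + (S.out p).2 e) (S.πK e S.T + p.2.2.2 e)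
      ((fderiv ℂ S.out p v).2 e)
  rest0 : ∀ p (π : Dat Cy Co), S.rest p (0, 0, π) = 0
  real : ∀ p : CP J0 Cy Co, ‖p‖ < r₀ → S.out (cjP p) = cjD (S.out p) ∧ S.Fc (cjP p) = conj (S.Fc p)

/-! ### The statements about the ends at fixed constants -/

/-- the body of `FarCyl` -/
def FarB (c C ε δ K : ℝ) : Prop :=
  (∀ (T : ℝ) (a : ℂ) (γ : Path) s φ, K ≤ T → ‖a‖ ≤ 1 / K → AdmP c K T a γ → (γ.cyl a).TypW s φ →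
    APfor (γ.cyl a) muCyl s φ (γ.Ecyl a) 0 δ C ε 0 ∧
    ∀ j, γ.IsCyl a j → (γ.cyl a).nrm muCyl 1 j ≤ δ → s = sdF →
      (γ.cyl a).nrm muCyl ((γ.cyl a).iW φ p0) j.ns ≤ C * (‖nsD (tr 0 j.y2)‖ +
        ‖(γ.cyl a).iW φ p0 1‖ * ‖nsD (tr 1 ((γ.cyl a).piJ muCyl j))‖)) ∧
  ∀ (X : Type) [NormedAddCommGroup X] [NormedSpace ℂ X] (U : Set X) (T : X → ℝ) (a : X → ℂ)
    (γ : X → Path) s (φ : X → BC), IsOpen U → DifferentiableOn ℂ a U →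
    DifferentiableOn ℂ (fun x => (γ x).ze) U → DifferentiableOn ℂ (fun x => (γ x).g) U →
    DifferentiableOn ℂ φ U →
    (∀ x ∈ U, K ≤ T x ∧ ‖a x‖ ≤ 1 / K ∧ AdmP c K (T x) (a x) (γ x) ∧
      ((γ x).cyl (a x)).TypW s (φ x)) →
    EXfor U (fun x => (γ x).cyl (a x)) muCyl s φ (fun x => (γ x).Ecyl (a x)) 0 δ C ∧
      ∀ j : X → EJ, DifferentiableOn ℂ j U →
        DifferentiableOn ℂ (fun x => ((γ x).cyl (a x)).piJ muCyl (j x)) U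

/-- the body of `NaStmt` -/
def NaB (C K₀ : ℝ) : Prop := ∀ (T P : ℝ) (a a' : ℂ) (γ : Path) (j : EJ) (w : BC),
  K₀ ≤ T → γ.RealP T → (∀ t, (γ.ze t).re ≤ P) → ‖a‖ ≤ 1 / (4 * P) → ‖a'‖ ≤ 1 / (4 * P) →
  (γ.cyl a).IsJet j → (γ.cyl a).nrm muCyl 1 j ≤ 1 / 100 →
  (γ.cyl a').IsJet (γ.resc a a' j) ∧
  (γ.cyl a').nrm muCyl w (γ.resc a a' j) ≤ C * (γ.cyl a).nrm muCyl w j ∧
  ‖W.C w * (γ.Ecyl a' (γ.resc a a' j) - γ.Ecyl a j)‖ ≤ C * ‖a - a'‖ *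
    ((γ.cyl a).nrm muCyl (w * γ.ze) j + (‖a‖ + ‖a'‖) * ‖w * γ.ze‖) ∧
  ∀ t, ‖tr t ((γ.cyl a').piJ muCyl (γ.resc a a' j)) - tr t ((γ.cyl a).piJ muCyl j)‖ ≤
    C * ‖a - a'‖ * ‖γ.ze t‖ * (‖tr t ((γ.cyl a).piJ muCyl j)‖ + ‖tr t j.y2‖)

/-- the body of `ConvStmt'` -/
def ConvB (c C K₀ : ℝ) : Prop := ∀ (K T θ : ℝ) (a a' : ℂ) (γ : Path),
  K₀ ≤ K → K ≤ T → ‖a‖ ≤ 1 / K → ‖a'‖ ≤ 1 / K → AdmP c K T a γ → θ ≤ c / 4 →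
  (∀ t, tht a a' (γ.ze t) ≤ θ) → rh a' T ≠ 0 →
  AdmP (c / 2) (K / 2) T a' γ ∧ (∀ j, (γ.cyl a).IsJet j →
    (γ.cyl a').IsJet (γ.conv a a' j) ∧
    W.C (γ.rho a') * γ.Ecyl a' (γ.conv a a' j) = W.C (γ.rho a) * γ.Ecyl a j ∧
    (γ.cyl a').nrm muCyl 1 (γ.conv a a' j) ≤ C * ((γ.cyl a).nrm muCyl 1 j + θ) ∧
    (∀ t, tr t (γ.conv a a' j).y2 = cvY a a' (γ.ze t) (tr t j.y2) ∧
      tr t ((γ.cyl a').piJ muCyl (γ.conv a a' j)) =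
        cvP a a' (γ.ze t) (tr t j.y2) (tr t ((γ.cyl a).piJ muCyl j)) ∧
      γ.AA a' (γ.conv a a' j) t = γ.AA a j t ∧ R0v a' γ (γ.conv a a' j) t = R0v a γ j t ∧
      R1v a' γ (γ.conv a a' j) t = R1v a γ j t) ∧
    ((γ.cyl a).nrm muCyl 1 j ≤ 1 / C → θ ≤ 1 / C →
      ∀ t₀ t₁, γ.FCI a' (γ.conv a a' j) t₀ t₁ = γ.FCI a j t₀ t₁) ∧
    (∀ j' w, (γ.cyl a).IsJet j' → (γ.cyl a').nrm muCyl w (γ.conv a a' j - γ.conv a a' j') ≤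
      C * (γ.cyl a).nrm muCyl w (j - j')) ∧
    ∀ a'', (∀ t, tht a' a'' (γ.ze t) ≤ 1 / 4) → γ.conv a' a'' (γ.conv a a' j) = γ.conv a a'' j) ∧
  ∀ P : ℝ, (∀ t, ‖γ.ze t‖ ≤ P) →
    DifferentiableOn ℂ (fun p : ℂ × EJ => γ.conv p.1 0 p.2) {p | ‖p.1‖ < 1 / (4 * P)}

/-- the body of `PtStmt'` -/
def PtB (c C K₀ : ℝ) : Prop :=
  (∀ (K : ℝ) (a a' ζ u : ℂ) (d π : WD), K₀ ≤ K → K ≤ ζ.re → ‖a‖ ≤ 1 / K → ‖a'‖ ≤ 1 / K →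
    ‖u‖ = 1 → c ≤ u.re → c * ‖Om a ζ‖ ≤ ((starRingEnd ℂ) u * Om a ζ).re → K ≤ ‖Om a ζ‖ →
    tht a a' ζ ≤ c / 4 → rh a' ζ ≠ 0 →
    ‖cvY a a' ζ d - d‖ ≤ C * tht a a' ζ * (1 + ‖d‖) ∧
    ‖cvY a a' ζ d - d - ((a - a') * (ζ - 2) / (2 * rh a' ζ)) • (1 : WD)‖ ≤
      C * tht a a' ζ * (tht a a' ζ + ‖d‖) ∧
    ‖cvP a a' ζ d π - π‖ ≤ C * tht a a' ζ * (‖π‖ + ‖d‖ + 1 / K + tht a a' ζ) ∧
    ‖nsD (cvP a a' ζ d π)‖ ≤ C * (‖nsD π‖ + ‖nsD d‖) ∧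
    (∀ d' π', ‖cvP a a' ζ d π - cvP a a' ζ d' π' - (π - π')‖ ≤
      C * tht a a' ζ * (‖π - π'‖ + ‖d - d'‖)) ∧
    cvY a' a ζ (cvY a a' ζ d) = d ∧ cvP a' a ζ (cvY a a' ζ d) (cvP a a' ζ d π) = π) ∧
  ∀ T : ℝ, K₀ ≤ T →
    DifferentiableOn ℂ (fun p : ℂ × WD × WD => cvP p.1 0 T p.2.1 p.2.2) {p | ‖p.1‖ < 1 / (4 * T)} ∧
    DifferentiableOn ℂ (fun p : ℂ × WD => cvY 0 p.1 T p.2) {p | ‖p.1‖ < 1 / (4 * T)} ∧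
    DifferentiableOn ℂ (fun p : ℂ × WD => cvY p.1 0 T p.2) {p | ‖p.1‖ < 1 / (4 * T)} ∧
    ∀ (a a' : ℂ) (d π : WD), ‖a‖ < 1 / (8 * T) → ‖a'‖ < 1 / (8 * T) →
      ‖cvP a 0 T d π - cvP a' 0 T d π‖ ≤
        C * ‖a - a'‖ * (1 + T * (‖π‖ + ‖d‖ + T * (‖a‖ + ‖a'‖))) ∧
      ‖cvY a 0 T d - cvY a' 0 T d - ((a - a') * (T - 2) / 4) • (1 : WD)‖ ≤
        C * ‖a - a'‖ * T * (‖d‖ + T * (‖a‖ + ‖a'‖))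

/-- the body of `CutStmt` -/
def CutB (clp : ℝ → Path → Path) (cut : ℝ → Path → ℂ → EJ → EJ) (c C K₀ : ℝ) : Prop :=
  ∀ (K T P : ℝ) (γ : Path), K₀ ≤ K → K ≤ T → 4 * T ≤ P → γ.Ok →
    γ.ze 0 = T → (∀ t, c * ‖γ.g t‖ ≤ (γ.g t).re) → γ.Pre P →
    (clp P γ).RealP T ∧ 3 * P / 4 ≤ ((clp P γ).ze 1).re ∧ ((clp P γ).ze 1).re ≤ P ∧
    (∀ t, (γ.ze t).re ≤ 5 * P / 8 → (clp P γ).ze t = γ.ze t) ∧
    (∀ γ', γ'.Ok → (∀ t, c * ‖γ'.g t‖ ≤ (γ'.g t).re) → γ.CPre γ' P →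
      clp P γ' = clp P γ ∧ cut P γ' = cut P γ) ∧
    DifferentiableOn ℂ (fun p : ℂ × EJ => cut P γ p.1 p.2) {p | ‖p.1‖ < 1 / (4 * P)} ∧
    ∀ (a : ℂ) (j : EJ), ‖a‖ ≤ 1 / (4 * P) → AdmP c K T a γ → ((clp P γ).cyl a).IsJet j →
      (γ.cyl a).IsJet (cut P γ a j) ∧ tr 0 (cut P γ a j).y2 = tr 0 j.y2 ∧
      tr 0 ((γ.cyl a).piJ muCyl (cut P γ a j)) = tr 0 (((clp P γ).cyl a).piJ muCyl j) ∧
      tr 1 (cut P γ a j).y2 = 0 ∧ tr 1 ((γ.cyl a).piJ muCyl (cut P γ a j)) = 0 ∧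
      (∀ (w w' : BC), (∀ t, (γ.ze t).re ≤ 5 * P / 8 → ‖w t‖ ≤ ‖w' t‖) →
        (γ.cyl a).nrm muCyl w (cut P γ a j) ≤ C * ((clp P γ).cyl a).nrm muCyl w' j) ∧
      ((clp P γ).Ecyl a j = 0 → ((clp P γ).cyl a).nrm muCyl 1 j ≤ 1 / C →
        ∀ (w w' : BC) (A B : ℝ), 0 ≤ A → 0 ≤ B →
        (∀ t, P / 2 ≤ (γ.ze t).re → (γ.ze t).re ≤ 5 * P / 8 → ‖w t‖ ≤ A * ‖w' t‖) →
        (∀ t, P / 2 ≤ (γ.ze t).re → ‖w t‖ * ‖a ^ 2 * γ.ze t / rh a (γ.ze t)‖ ≤ B) →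
        ‖W.C w * γ.Ecyl a (cut P γ a j)‖ ≤
          C * (A * ((clp P γ).cyl a).nrm muCyl w' j + B))

/-- the body of the first part of `WtStmt` -/
def WtB (c K₀ : ℝ) : Prop := ∀ (K T : ℝ) (a : ℂ) (γ : Path), K₀ ≤ K → K ≤ T → ‖a‖ ≤ 1 / K →
    AdmP c K T a γ →
    (∀ (p : ℝ) (t : ℝ), ‖(γ.cyl a).iW (γ.pw a p) p0 t‖ = (uu a T / uu a (γ.ze t)) ^ p ∧
      ‖(γ.cyl a).Wt (γ.pw a p) p0 t‖ = (uu a (γ.ze t) / uu a T) ^ p) ∧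
    Monotone (fun t => uu a (γ.ze t)) ∧ Monotone (fun t => (γ.ze t).re) ∧
    (∀ t, 0 < uu a (γ.ze t) ∧ 1 / ‖γ.ze t‖ ≤ 1 / uu a (γ.ze t) + ‖a‖ ∧
      ‖a‖ ^ 2 * uu a (γ.ze t) ≤ 20 * (‖a‖ + 1 / ‖γ.ze t‖ + 1 / ‖Om a (γ.ze t)‖)) ∧
    (∀ (κ : ℝ) (t : ℝ), ‖(γ.cyl a).iW ((κ : ℂ) • 1) p0 t‖ = Real.exp (-(κ * ((γ.ze t).re - T))) ∧
      ‖(γ.cyl a).Wt ((κ : ℂ) • 1) p0 t‖ = Real.exp (κ * ((γ.ze t).re - T))) ∧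
    (∀ t, Real.exp (-(1 / 8 * ((γ.ze 1).re - (γ.ze t).re))) ≤ uu a (γ.ze t) / uu a (γ.ze 1)) ∧
    (∀ p ∈ Icc (-(9 / 10) : ℝ) (9 / 20), (γ.cyl a).TypW sdCyl (γ.pw a p)) ∧
    (∀ p ∈ Icc (11 / 20 : ℝ) (9 / 10), (γ.cyl a).TypW sdF (γ.pw a p)) ∧
    (γ.cyl a).TypW sdAll (((1 / 8 : ℝ) : ℂ) • 1) ∧
    ∀ (j : EJ) (N : ℝ), (γ.cyl a).IsJet j →
      ‖W.C ((γ.cyl a).iW (((1 / 8 : ℝ) : ℂ) • 1) p0) * j.op‖ ≤ N →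
      ‖j.y2.c 0 1 - j.y2.c 0 0‖ ≤ 20 / c * N * Real.exp (1 / 8 * ((γ.ze 1).re - T)) /
        ‖Om a (γ.ze 1)‖

/-- the power weights on conical ends -/
def pk (Λ : ℝ) (γ : Path) (p : ℝ) : BC := ((2 * Λ : ℝ) : ℂ) • γ.cone.io + γ.pz p

/-- the body of the second part of `WtStmt` -/
def WtK (Λ T : ℝ) : Prop := ∀ γ : Path, γ.RealP T →
    (∀ p ∈ Icc (0 : ℝ) 3, γ.cone.WC (pk Λ γ p) Λ 0 (1 / 5) ∧ ∀ t,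
      ‖γ.cone.iW (pk Λ γ p) p0 t‖ ≤ (T / (γ.ze t).re) ^ p ∧
      ‖γ.cone.Wt (pk Λ γ p) p0 t‖ ≤ 2 * ((γ.ze t).re / T) ^ p) ∧
    γ.cone.WC (((1 / 8 : ℝ) : ℂ) • 1) Λ 0 (1 / 5) ∧
    ∀ (κ : ℝ) (t : ℝ), ‖γ.cone.iW ((κ : ℂ) • 1) p0 t‖ = Real.exp (-(κ * ((γ.ze t).re - T))) ∧
      ‖γ.cone.Wt ((κ : ℂ) • 1) p0 t‖ = Real.exp (κ * ((γ.ze t).re - T))

/-- the body of `As0Stmt` -/
def As0B (c C K₀ : ℝ) : Prop := ∀ (K T m₁ m₂ : ℝ) (a : ℂ) (γ : Path) (j : EJ),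
  K₀ ≤ K → K ≤ T → ‖a‖ ≤ 1 / K → AdmP c K T a γ → γ.IsCyl a j → 0 ≤ m₁ → 0 ≤ m₂ →
  m₁ + m₂ ≤ 1 / C →
  (∀ t ∈ Icc (0 : ℝ) 1, ptN (γ.cyl a) muCyl j t ≤ m₁ * (uu a T / uu a (γ.ze t)) ^ (4 / 5 : ℝ) +
    m₂ * (uu a (γ.ze t) / uu a (γ.ze 1)) ^ (11 / 20 : ℝ)) →
  let u₀ := uu a T
  let u₁ := uu a (γ.ze 1)
  ‖γ.AA a j 1 - γ.AA a j 0 + a ^ 2 * (sE a (γ.ze 1) - sE a T)‖ ≤
    C * (m₁ ^ 2 / u₀ + m₂ ^ 2 / u₁ + m₁ * (‖a‖ + 1 / u₀) ^ 2 +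
      m₂ * ((‖a‖ + 1 / u₁) ^ 2 + (u₀ / u₁) ^ (11 / 20 : ℝ) * (1 / u₀) * (‖a‖ + 1 / u₀)) +
      ‖a‖ ^ 2 * (1 / u₀ + ‖a‖ * (1 + Real.log (u₁ / u₀)) + ‖a‖ ^ 2 * u₁))

/-- the body of the second part of `RpStmt` -/
def RpB (c K₀ : ℝ) : Prop := ∀ (K T : ℝ) (a : ℂ) (γ γ' : Path) (φ : ℝ → ℝ) (j : EJ), K₀ ≤ K →
  K ≤ T → ‖a‖ ≤ 1 / K → AdmP c K T a γ → γ'.Ok → Sub φ γ γ' → (γ.cyl a).IsJet j → ‖j‖ ≤ 1 / 100 →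
    ∀ t₀ ∈ Icc (0 : ℝ) 1, ∀ t₁ ∈ Icc (0 : ℝ) 1,
      γ'.FCI a (j.cmp φ) t₀ t₁ = γ.FCI a j (φ t₀) (φ t₁)

/-- the flux does not depend on the slope -/
def FlB (T K₀ : ℝ) : Prop := ∀ (a da : ℂ) (d π dd : WD), ‖a‖ < 1 / (100 * T) → ‖d‖ ≤ 1 / K₀ →
    ‖π‖ ≤ 1 / K₀ → flC a T d π da dd = flC 0 T (cvY a 0 T d) (cvP a 0 T d π) 0
      (fderiv ℂ (fun p : ℂ × WD => cvY p.1 0 T p.2) (a, d) (da, dd))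

/-- The constants and all the facts about the ends and the core at these constants. -/
structure Env (S : Sys J0 Cy Co) where
  C : ℝ
  ε : ℝ
  δ : ℝ
  δ₀ : ℝ
  δ₁ : ℝ
  K : ℝ
  Λ : ℝ
  CS : ℝ
  BK : ℝ
  Z : ℝ
  r₀ : ℝ
  Cb : ℝ
  μ : ℝ
  r : ℝ
  c₀ : ℝ
  clp : ℝ → Path → Path
  cut : ℝ → Path → ℂ → EJ → EJ
  hC : 100000 ≤ C
  ε0 : 0 < ε
  hε : ε * C ^ 8 ≤ 1
  δ0 : 0 < δ
  hδ : δ ≤ ε
  δ₀0 : 0 < δ₀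
  hδ₀ : δ₀ * C ^ 8 ≤ δ
  δ₁0 : 0 < δ₁
  hδ₁ : δ₁ * C ^ 8 ≤ δ₀
  hK : C ^ 8 ≤ K * δ₁
  hT : C * K ≤ S.T
  CS0 : 0 ≤ CS
  hS : CS * S.T ^ (-(9 / 10) : ℝ) * C ^ 8 ≤ δ₁
  hZ : Z ≤ S.T
  μ0 : 0 < μ
  hμ : μ * C ^ 8 ≤ δ₁
  hμ' : μ * C ^ 8 ≤ r₀
  Cb1 : 1 ≤ Cb
  r0 : 0 < r
  hr : Cb * r * C ^ 8 ≤ μ
  c₀0 : 0 < c₀
  hc₀ : c₀ * C ^ 8 ≤ μ
  far : FarB (1 / 100) C ε δ K
  fcone : ∀ e (γ : Path) (φ : BC), γ.RealP S.T → γ.cone.WC φ Λ 0 (1 / 5) →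
    APfor γ.cone (muCone (S.cc e)) sdAll φ (γ.Econe (S.cc e) (S.ka e) (S.kd e)) (S.kS e γ) δ C ε C ∧
    ∀ (X : Type) [NormedAddCommGroup X] [NormedSpace ℂ X] (U : Set X), IsOpen U →
      EXfor U (fun _ => γ.cone) (muCone (S.cc e)) sdAll (fun _ => φ)
        (fun _ => γ.Econe (S.cc e) (S.ka e) (S.kd e)) (fun _ => S.kS e γ) δ C
  na : NaB C K
  conv : ConvB (1 / 100) C K
  pt : PtB (1 / 100) C K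
  pt2 : Pt2Stmt
  htr : TrStmt
  sub : SubStmt
  hcut : CutB clp cut (1 / 100) C K
  wt : WtB (1 / 100) K
  wtK : WtK Λ S.T
  as0 : As0B (1 / 100) C K
  rp : RpStmt
  rp2 : RpB (1 / 200) (K / 2)
  cj : CjStmt
  fl : FlStmt
  fl2 : FlB S.T C
  lagC : LagC (1 / 100) C K
  lagK : ∀ e, LagK (S.cc e) (S.ka e) (S.kd e) (BK + 1) C S.T
  zlim : ZlimStmt
  cylE : ∀ i, ∃ v, CylEnd v (S.jS i) (S.dS i) (S.πS i) Z CS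
  coneE : ∀ e, ∃ h, ConeEnd h (S.cc e) (S.ka e) (S.kd e) (S.kS e) (S.dK e) (S.πK e) Z BK
  kref : ∀ e (γ : Path), γ.RealP S.T → ‖(S.kS e γ).y2‖ ≤ δ ∧ ‖(S.kS e γ).op‖ ≤ BK ∧
    γ.cone.nrm (muCone (S.cc e)) 1 (S.kS e γ) ≤ BK
  core : CoreL S C ε Cb r₀

namespace Sys
variable (S : Sys J0 Cy Co)

/-- the factor between the slope and the mode `0` at `T` -/
def τ : ℝ := (S.T - 2) / 4

/-- A matched solution: far jets which continue the core solution with parameters `p`. -/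
structure MS (δ r₀ : ℝ) (p : CP J0 Cy Co) (a : Cy → ℂ) (γ : Cy → Path) (j : Cy → EJ)
    (γc : Co → Path) (k : Co → EJ) : Prop where
  ball : ‖p‖ < r₀
  cyl : ∀ i, (γ i).IsCyl (a i) (j i)
  ncyl : ∀ i, ((γ i).cyl (a i)).nrm muCyl 1 (j i) ≤ δ
  my : ∀ i, S.dS i S.T + (S.out p).1 i = cvY (a i) 0 S.T (tr 0 (j i).y2)
  mp : ∀ i, S.πS i S.T + p.2.2.1 i = cvP (a i) 0 S.T (tr 0 (j i).y2) ((γ i).piC (a i) (j i) 0)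
  cone : ∀ e, (γc e).IsCone (S.cc e) (S.ka e) (S.kd e) (k e)
  ncone : ∀ e, (γc e).cone.nrm (muCone (S.cc e)) 1 (k e - S.kS e (γc e)) ≤ δ
  ky : ∀ e, S.dK e S.T + (S.out p).2 e = tr 0 (k e).y2
  kp : ∀ e, S.πK e S.T + p.2.2.2 e = (γc e).piK (S.cc e) (k e) 0

/-- the Gaussian area of a matched solution -/
def val (p : CP J0 Cy Co) (a : Cy → ℂ) (γ : Cy → Path) (j : Cy → EJ) (γc : Co → Path)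
    (k : Co → EJ) : ℂ :=
  S.Fc p + ∑ i, (γ i).FCI (a i) (j i) 0 1 + ∑ e, (γc e).FKI (S.cc e) (S.ka e) (k e) 0 1

/-- real paths from `T`; all ends lie beyond `l`, the cylindrical ones before `h` -/
structure RS (l h : ℝ) (γ : Cy → Path) (γc : Co → Path) : Prop where
  cyl : ∀ i, (γ i).RealP S.T ∧ l ≤ ((γ i).ze 1).re ∧ ((γ i).ze 1).re ≤ h
  cone : ∀ e, (γc e).RealP S.T ∧ l ≤ ((γc e).ze 1).re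

end Sys

/-- the data of a truncated problem -/
structure TD (Cy Co : Type) where
  γ : Cy → Path
  ω : Cy → WD
  Rc : ℝ
  ωc : Co → WD

/-- the unknowns of a truncated problem -/
structure TU (Cy Co : Type) where
  a : Cy → ℂ
  π : Dat Cy Co
  j : Cy → EJ
  k : Co → EJ

/-- the coordinates `(β, b) ↦ x` -/
abbrev XT (J0 Cy : Type) : Type := (Cy → ℂ) × (J0 → ℂ) → Cy → WD

namespace Env
variable {S : Sys J0 Cy Co} (E : Env S)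

/-- Solutions of the first stage: the data of the shrinker are prescribed at the far ends. -/
structure S1 (a : Cy → ℂ) (b : J0 → ℂ) (γ : Cy → Path) (γc : Co → Path) (x : Cy → WD)
    (π : Dat Cy Co) (j : Cy → EJ) (k : Co → EJ) : Prop where
  ms : S.MS E.δ E.r₀ (b, x, π) a γ j γc k
  lo : ∀ i, low (x i) = x i
  xb : ‖x‖ ≤ E.μ
  pb : ‖π‖ ≤ E.μ
  ty : ∀ i, low (tr 1 (j i).y2) = low (tr 1 (S.jS i (γ i)).y2)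
  tp : ∀ i, (γ i).piC (a i) (j i) 1 = (γ i).piC (a i) ((γ i).resc 0 (a i) (S.jS i (γ i))) 1
  kp : ∀ e, (γc e).piK (S.cc e) (k e) 1 = (γc e).piK (S.cc e) (S.kS e (γc e)) 1
  dec : ∀ i, ((γ i).cyl (a i)).nrm muCyl
    (((γ i).cyl (a i)).iW ((γ i).pw (a i) (-(9 / 10))) p0) (j i) ≤ E.δ₁
  kdec : ∀ e, (γc e).cone.nrm (muCone (S.cc e)) 1 (k e - S.kS e (γc e)) ≤ E.δ₁

/-- Coordinates on the limit of the first stage. -/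
structure Coord (X : XT J0 Cy) (η rX c₁ CX P₀ : ℝ) : Prop where
  rX0 : 0 < rX
  rX1 : rX ≤ E.r
  c₁0 : 0 < c₁
  c₁1 : c₁ ≤ E.c₀
  CX0 : 0 ≤ CX
  hol : DifferentiableOn ℂ X (ball 0 rX ×ˢ ball 0 E.r)
  x1 : ∀ (P : ℝ) γ γc a b x π j k, P₀ ≤ P → S.RS (P / 2) P γ γc → ‖a‖ < c₁ / P → ‖b‖ < E.r →
    E.S1 a b γ γc x π j k → ‖x - X (a, b)‖ ≤ CX * P ^ (-(27 / 20) : ℝ)
  x2 : ∀ β β' b, ‖β‖ < rX → ‖β'‖ < rX → ‖b‖ < E.r → ∀ i,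
    ‖X (β, b) i - X (β', b) i - ((S.τ : ℂ) * (β i - β' i)) • (1 : WD)‖ ≤ η * S.τ * ‖β - β'‖
  zero : X 0 = 0
  real : ∀ β b, ‖β‖ < rX → ‖b‖ < E.r → X (star β, star b) = cjF (X (β, b))

/-- Solutions of a truncated problem in the coordinates `X`. -/
structure TS (X : XT J0 Cy) (d : TD Cy Co) (β : Cy → ℂ) (b : J0 → ℂ) (u : TU Cy Co) : Prop where
  ms : S.MS E.δ E.r₀ (b, X (β, b), u.π) u.a d.γ u.j (fun _ => sg S.T d.Rc) u.k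
  adm : ∀ i, AdmP (1 / 200) (E.K / 2) S.T (u.a i) (d.γ i)
  sa : ∀ i, ‖u.a i‖ * S.T ≤ E.ε
  y0 : ∀ i, (u.j i).y2.c 0 1 = 0
  om : ∀ i, (d.γ i).piC (u.a i) (u.j i) 1 = d.ω i
  oc : ∀ e, (sg S.T d.Rc).piK (S.cc e) (u.k e) 1 =
    (sg S.T d.Rc).piK (S.cc e) (S.kS e (sg S.T d.Rc)) 1 + d.ωc e

/-- the Gaussian area of a solution -/
def tv (_ : Env S) (X : XT J0 Cy) (d : TD Cy Co) (β : Cy → ℂ) (b : J0 → ℂ) (u : TU Cy Co) : ℂ :=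
  S.val (b, X (β, b), u.π) u.a d.γ u.j (fun _ => sg S.T d.Rc) u.k

/-- the data have the scale `ρ` and are admissible for the slopes `a` -/
structure Gd (M ρ : ℝ) (d : TD Cy Co) (a : Cy → ℂ) : Prop where
  al : ∀ i, ‖a i‖ ≤ M * ρ
  adm : ∀ i, AdmP (1 / 100) E.K S.T (a i) (d.γ i)
  up : ∀ i t, ‖(d.γ i).ze t‖ ≤ M / ρ
  pre : ∀ i, (d.γ i).Pre (1 / (M * ρ))
  rc : 1 / (M * ρ) ≤ d.Rc
  om : ∀ i, ‖d.ω i‖ ≤ E.δ₀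
  oc : ∀ e, ‖d.ωc e‖ ≤ E.δ₀

end Env

/-- holomorphic families of data with a common real initial part -/
structure HolD {X : Type} [NormedAddCommGroup X] [NormedSpace ℂ X] (U : Set X) (P : ℝ)
    (d : X → TD Cy Co) : Prop where
  op : IsOpen U
  rc : ∀ p ∈ U, ∀ q ∈ U, (d p).Rc = (d q).Rc
  ze : ∀ i, DifferentiableOn ℂ (fun p => ((d p).γ i).ze) U
  g : ∀ i, DifferentiableOn ℂ (fun p => ((d p).γ i).g) U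
  ω : DifferentiableOn ℂ (fun p => (d p).ω) U
  ωc : DifferentiableOn ℂ (fun p => (d p).ωc) U
  com : ∀ i, ∀ p ∈ U, ∀ q ∈ U, ((d p).γ i).CPre ((d q).γ i) P

/-- holomorphic families of unknowns -/
structure HolU {X : Type} [NormedAddCommGroup X] [NormedSpace ℂ X] (U : Set X)
    (u : X → TU Cy Co) : Prop where
  a : DifferentiableOn ℂ (fun p => (u p).a) U
  π : DifferentiableOn ℂ (fun p => (u p).π) U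
  j : DifferentiableOn ℂ (fun p => (u p).j) U
  k : DifferentiableOn ℂ (fun p => (u p).k) U

end Vale.Agent.P218N.Glue
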