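import Vale.Agent.P218N.End.Hol

/-! Taylor coefficients at the origin of bounded holomorphic maps on a ball. -/

open Filter Topology Metric Set

noncomputable section

namespace Vale.Agent.P218N.Glue.Zl

variable {V Y : Type*} [NormedAddCommGroup V] [NormedSpace ℂ V] [NormedAddCommGroup Y]
  [NormedSpace ℂ Y]

/-- the homogeneous Taylor polynomial of degree `l` at the origin -/
def co (φ : V → Y) (l : ℕ) (v : V) : Y :=
  (l.factorial : ℂ)⁻¹ • iteratedDeriv l (fun t : ℂ => φ (t • v)) 0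

theorem line_diff {φ : V → Y} {ρ R : ℝ} (hd : DifferentiableOn ℂ φ (ball 0 ρ)) {v : V}
    (hR : R * ‖v‖ < ρ) : DifferentiableOn ℂ (fun t : ℂ => φ (t • v)) (closedBall 0 R) := by
  refine hd.comp (differentiable_id.smul_const v).differentiableOn fun t ht => ?_
  rw [mem_closedBall_zero_iff] at ht
  rw [mem_ball_zero_iff, norm_smul]
  exact (mul_le_mul_of_nonneg_right ht (norm_nonneg _)).trans_lt hR

omit [NormedSpace ℂ V] in
theorem exists_rad {ρ s : ℝ} {v : V} (h : s * ‖v‖ < ρ) : ∃ R, s < R ∧ R * ‖v‖ < ρ := by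
  have h1 : ∀ᶠ R in 𝓝 s, R * ‖v‖ < ρ :=
    ((continuous_id.mul continuous_const).tendsto s).eventually (gt_mem_nhds h)
  obtain ⟨R, h2, h3⟩ := ((h1.filter_mono nhdsWithin_le_nhds).and
    (self_mem_nhdsWithin (s := Ioi s))).exists
  exact ⟨R, h3, h2⟩

theorem line_contDiffAt [CompleteSpace Y] {φ : V → Y} {ρ : ℝ} (hρ : 0 < ρ)
    (hd : DifferentiableOn ℂ φ (ball 0 ρ)) (v : V) (l : ℕ) :
    ContDiffAt ℂ l (fun t : ℂ => φ (t • v)) 0 := by
  obtain ⟨R, hR, h⟩ := exists_rad (s := 0) (v := v) (by simpa using hρ)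
  exact (((line_diff hd h).mono ball_subset_closedBall).analyticAt
    (ball_mem_nhds 0 hR)).contDiffAt

theorem co_zero (φ : V → Y) (v : V) : co φ 0 v = φ 0 := by simp [co]

theorem co_one (φ : V → Y) (v : V) : co φ 1 v = deriv (fun t : ℂ => φ (t • v)) 0 := by simp [co]

theorem co_sub [CompleteSpace Y] {φ ψ : V → Y} {ρ : ℝ} (hρ : 0 < ρ)
    (hd : DifferentiableOn ℂ φ (ball 0 ρ)) (hd' : DifferentiableOn ℂ ψ (ball 0 ρ)) (l : ℕ) (v : V) :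
    co (fun y => φ y - ψ y) l v = co φ l v - co ψ l v := by
  unfold co
  rw [← smul_sub, ← iteratedDeriv_sub (line_contDiffAt hρ hd v l) (line_contDiffAt hρ hd' v l)]
  rfl

theorem co_sphere [CompleteSpace Y] {φ : V → Y} {ρ R M : ℝ} (hd : DifferentiableOn ℂ φ (ball 0 ρ))
    {v : V} (hR0 : 0 < R) (hR : R * ‖v‖ < ρ) (hM : ∀ t : ℂ, ‖t‖ = R → ‖φ (t • v)‖ ≤ M) (l : ℕ) :
    ‖co φ l v‖ ≤ M / R ^ l := by
  have h1 : DiffContOnCl ℂ (fun t : ℂ => φ (t • v)) (ball 0 R) :=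
    DifferentiableOn.diffContOnCl (by rw [closure_ball 0 hR0.ne']; exact line_diff hd hR)
  have h2 := Complex.norm_iteratedDeriv_le_of_forall_mem_sphere_norm_le l hR0 h1
    (fun t ht => hM t (by simpa using ht))
  have h3 : (0 : ℝ) < l.factorial := by exact_mod_cast l.factorial_pos
  rw [co, norm_smul, norm_inv, Complex.norm_natCast, inv_mul_le_iff₀ h3, ← mul_div_assoc]
  exact h2

theorem co_le [CompleteSpace Y] {φ : V → Y} {ρ M : ℝ} (hρ : 0 < ρ)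
    (hd : DifferentiableOn ℂ φ (ball 0 ρ)) (hM : ∀ y ∈ ball (0 : V) ρ, ‖φ y‖ ≤ M) (l : ℕ) (v : V) :
    ‖co φ l v‖ ≤ M * (‖v‖ / ρ) ^ l := by
  have h1 : Tendsto (fun s : ℝ => M * s ^ l) (𝓝[>] (‖v‖ / ρ)) (𝓝 (M * (‖v‖ / ρ) ^ l)) :=
    ((continuous_const.mul (continuous_pow l)).tendsto _).mono_left nhdsWithin_le_nhds
  refine ge_of_tendsto h1 ?_
  filter_upwards [self_mem_nhdsWithin] with s hs
  rw [mem_Ioi] at hs
  have hs0 : 0 < s := lt_of_le_of_lt (by positivity) hs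
  have h2 : s⁻¹ * ‖v‖ < ρ := by
    rw [inv_mul_lt_iff₀ hs0]
    rwa [div_lt_iff₀ hρ] at hs
  have h3 := co_sphere (M := M) hd (inv_pos.2 hs0) h2 (fun t ht => hM _ (by
    rw [mem_ball_zero_iff, norm_smul, ht]; exact h2)) l
  rwa [inv_pow, div_inv_eq_mul] at h3

theorem hasSum_co [CompleteSpace Y] {φ : V → Y} {ρ : ℝ} (hd : DifferentiableOn ℂ φ (ball 0 ρ))
    {t : ℂ} {v : V} (h : ‖t‖ * ‖v‖ < ρ) : HasSum (fun j => t ^ j • co φ j v) (φ (t • v)) := by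
  obtain ⟨R, hR, h'⟩ := exists_rad h
  have h1 := Complex.hasSum_taylorSeries_on_ball ((line_diff hd h').mono ball_subset_closedBall)
    (z := t) (by simpa using hR)
  refine h1.congr_fun ?_
  intro j
  simp only [co, sub_zero]
  rw [smul_comm]

theorem rem_le [CompleteSpace Y] {φ : V → Y} {ρ M : ℝ} (hρ : 0 < ρ)
    (hd : DifferentiableOn ℂ φ (ball 0 ρ)) (hM : ∀ y ∈ ball (0 : V) ρ, ‖φ y‖ ≤ M) (l : ℕ) {t : ℂ}
    {v : V} (h : ‖t‖ * ‖v‖ ≤ ρ / 2) :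
    ‖φ (t • v) - ∑ j ∈ Finset.range l, t ^ j • co φ j v‖ ≤ 2 * M * (‖t‖ * ‖v‖ / ρ) ^ l := by
  have hM0 : 0 ≤ M := (norm_nonneg _).trans (hM 0 (mem_ball_self hρ))
  have h1 := (hasSum_nat_add_iff' l).2 (hasSum_co hd (t := t) (v := v) (by linarith))
  have h2 := hasSum_geometric_two.mul_left (M * (‖t‖ * ‖v‖ / ρ) ^ l)
  have h3 : ‖t‖ * ‖v‖ / ρ ≤ 1 / 2 := by rw [div_le_iff₀ hρ]; linarith
  refine (h1.norm_le_of_bounded h2 fun j => ?_).trans_eq (by ring)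
  rw [norm_smul, norm_pow]
  calc ‖t‖ ^ (j + l) * ‖co φ (j + l) v‖ ≤ ‖t‖ ^ (j + l) * (M * (‖v‖ / ρ) ^ (j + l)) := by
        gcongr; exact co_le hρ hd hM _ _
    _ = M * (‖t‖ * ‖v‖ / ρ) ^ l * (‖t‖ * ‖v‖ / ρ) ^ j := by
        rw [mul_div_assoc, mul_assoc M, ← pow_add, mul_pow, add_comm l j]; ring
    _ ≤ _ := by gcongr

theorem lin_zero (K : ℝ) : Tendsto (fun t : ℝ => K * t) (𝓝[>] 0) (𝓝 0) := by
  have h : Tendsto (fun t : ℝ => K * t) (𝓝 0) (𝓝 (K * 0)) := tendsto_id.const_mul K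
  rw [mul_zero] at h
  exact h.mono_left nhdsWithin_le_nhds

theorem uniq {a a' : ℕ → Y} {ψ : ℝ → Y}
    (h : ∀ l, ∃ K : ℝ, ∀ᶠ t in 𝓝[>] (0 : ℝ),
      ‖ψ t - ∑ j ∈ Finset.range l, (t : ℂ) ^ j • a j‖ ≤ K * t ^ l)
    (h' : ∀ l, ∃ K : ℝ, ∀ᶠ t in 𝓝[>] (0 : ℝ),
      ‖ψ t - ∑ j ∈ Finset.range l, (t : ℂ) ^ j • a' j‖ ≤ K * t ^ l) (l : ℕ) : a l = a' l := by
  induction l using Nat.strong_induction_on with
  | _ l ih =>
    obtain ⟨K, hK⟩ := h (l + 1)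
    obtain ⟨K', hK'⟩ := h' (l + 1)
    have h1 := lin_zero (K + K')
    rw [← sub_eq_zero, ← norm_le_zero_iff]
    refine ge_of_tendsto h1 ?_
    filter_upwards [hK, hK', self_mem_nhdsWithin] with t a1 a2 ht
    rw [mem_Ioi] at ht
    have e : ∑ j ∈ Finset.range l, (t : ℂ) ^ j • a j = ∑ j ∈ Finset.range l, (t : ℂ) ^ j • a' j :=
      Finset.sum_congr rfl fun j hj => by rw [ih j (Finset.mem_range.1 hj)]
    rw [Finset.sum_range_succ] at a1 a2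
    rw [e] at a1
    have h2 : ‖(t : ℂ) ^ l • (a l - a' l)‖ ≤ K * t ^ (l + 1) + K' * t ^ (l + 1) := by
      refine le_trans (le_of_eq ?_) ((norm_sub_le _ _).trans (add_le_add a2 a1)) |>.trans_eq
        (add_comm _ _)
      congr 1
      rw [smul_sub]
      abel
    rw [norm_smul, norm_pow, Complex.norm_real, Real.norm_of_nonneg ht.le] at h2
    have h3 : 0 < t ^ l := pow_pos ht l
    refine le_of_mul_le_mul_left (h2.trans_eq ?_) h3
    ring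

theorem ev_small (s : ℝ) {ρ : ℝ} (hρ : 0 < ρ) : ∀ᶠ t in 𝓝[>] (0 : ℝ), 0 < t ∧ t * s ≤ ρ / 2 := by
  have h1 : ∀ᶠ t in 𝓝 (0 : ℝ), t * s < ρ / 2 :=
    ((continuous_id.mul continuous_const).tendsto 0).eventually (gt_mem_nhds (by simpa using hρ))
  filter_upwards [self_mem_nhdsWithin, h1.filter_mono nhdsWithin_le_nhds] with t a1 a2
  exact ⟨a1, a2.le⟩

theorem rem_ev [CompleteSpace Y] {φ : V → Y} {ρ M : ℝ} (hρ : 0 < ρ)
    (hd : DifferentiableOn ℂ φ (ball 0 ρ)) (hM : ∀ y ∈ ball (0 : V) ρ, ‖φ y‖ ≤ M) (l : ℕ) (s : ℂ)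
    (v : V) : ∀ᶠ t : ℝ in 𝓝[>] (0 : ℝ),
      ‖φ (((t : ℂ) * s) • v) - ∑ j ∈ Finset.range l, ((t : ℂ) * s) ^ j • co φ j v‖ ≤
        2 * M * (‖s‖ * ‖v‖ / ρ) ^ l * t ^ l := by
  filter_upwards [ev_small (‖s‖ * ‖v‖) hρ] with t ⟨ht, h⟩
  have e : ‖(t : ℂ) * s‖ = t * ‖s‖ := by
    rw [norm_mul, Complex.norm_real, Real.norm_of_nonneg ht.le]
  refine (rem_le hρ hd hM l (t := (t : ℂ) * s) (v := v) (by rw [e]; linarith)).trans_eq ?_
  rw [e, mul_assoc (2 * M), ← mul_pow]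
  congr 2
  ring

theorem co_smul [CompleteSpace Y] {φ : V → Y} {ρ M : ℝ} (hρ : 0 < ρ)
    (hd : DifferentiableOn ℂ φ (ball 0 ρ)) (hM : ∀ y ∈ ball (0 : V) ρ, ‖φ y‖ ≤ M) (l : ℕ) (s : ℂ)
    (v : V) : co φ l (s • v) = s ^ l • co φ l v := by
  refine uniq (a := fun l => co φ l (s • v)) (a' := fun l => s ^ l • co φ l v)
    (ψ := fun t => φ ((t : ℂ) • s • v)) (fun l => ⟨2 * M * (‖(1 : ℂ)‖ * ‖s • v‖ / ρ) ^ l, ?_⟩)
    (fun l => ⟨2 * M * (‖s‖ * ‖v‖ / ρ) ^ l, ?_⟩) l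
  · simpa only [mul_one] using rem_ev hρ hd hM l 1 (s • v)
  · simpa only [mul_pow, mul_smul] using rem_ev hρ hd hM l s v

theorem co_symm [CompleteSpace Y] {φ φ' : V → Y} {ρ M M' : ℝ} (hρ : 0 < ρ)
    (hd : DifferentiableOn ℂ φ (ball 0 ρ)) (hM : ∀ y ∈ ball (0 : V) ρ, ‖φ y‖ ≤ M)
    (hd' : DifferentiableOn ℂ φ' (ball 0 ρ)) (hM' : ∀ y ∈ ball (0 : V) ρ, ‖φ' y‖ ≤ M')
    (σV : V →L⋆[ℂ] V) (σY : Y →L⋆[ℂ] Y) (h : ∀ y ∈ ball (0 : V) ρ, φ' (σV y) = σY (φ y)) (l : ℕ)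
    (v : V) : co φ' l (σV v) = σY (co φ l v) := by
  refine uniq (a := fun l => co φ' l (σV v)) (a' := fun l => σY (co φ l v))
    (ψ := fun t => φ' ((t : ℂ) • σV v)) (fun l => ⟨2 * M' * (‖(1 : ℂ)‖ * ‖σV v‖ / ρ) ^ l, ?_⟩)
    (fun l => ⟨‖σY‖ * (2 * M * (‖(1 : ℂ)‖ * ‖v‖ / ρ) ^ l), ?_⟩) l
  · simpa only [mul_one] using rem_ev hρ hd' hM' l 1 (σV v)
  · filter_upwards [rem_ev hρ hd hM l 1 v, ev_small ‖v‖ hρ] with t a1 ⟨ht, a2⟩
    have e1 : (t : ℂ) • σV v = σV ((t : ℂ) • v) := by rw [map_smulₛₗ, Complex.conj_ofReal]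
    have e2 : ∑ j ∈ Finset.range l, (t : ℂ) ^ j • σY (co φ j v) =
        σY (∑ j ∈ Finset.range l, (t : ℂ) ^ j • co φ j v) := by simp
    rw [e1, h _ (by
      rw [mem_ball_zero_iff, norm_smul, Complex.norm_real, Real.norm_of_nonneg ht.le]
      linarith), e2, ← map_sub, mul_assoc]
    rw [mul_one] at a1
    exact (σY.le_opNorm _).trans (mul_le_mul_of_nonneg_left a1 (norm_nonneg _))

variable {B : Type*} [NormedAddCommGroup B] [NormedSpace ℂ B]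

theorem slice_diff {F : V × B → Y} {ρ r : ℝ} (hd : DifferentiableOn ℂ F (ball 0 ρ ×ˢ ball 0 r))
    {b : B} (hb : b ∈ ball (0 : B) r) : DifferentiableOn ℂ (fun v => F (v, b)) (ball 0 ρ) :=
  hd.comp (differentiableOn_id.prodMk (differentiableOn_const b)) fun _ hv => ⟨hv, hb⟩

theorem diffOn_univ {G : V × B → Y} {r : ℝ}
    (h : ∀ S : ℝ, 0 < S → DifferentiableOn ℂ G (ball 0 S ×ˢ ball 0 r)) :
    DifferentiableOn ℂ G (univ ×ˢ ball 0 r) := by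
  rintro ⟨v, b⟩ ⟨-, hb⟩
  have h1 : (v, b) ∈ ball (0 : V) (‖v‖ + 1) ×ˢ ball (0 : B) r := ⟨by simp, hb⟩
  exact ((h (‖v‖ + 1) (by positivity) _ h1).differentiableAt
    ((isOpen_ball.prod isOpen_ball).mem_nhds h1)).differentiableWithinAt

theorem co_diff [CompleteSpace Y] {F : V × B → Y} {ρ r M : ℝ} (hρ : 0 < ρ)
    (hd : DifferentiableOn ℂ F (ball 0 ρ ×ˢ ball 0 r))
    (hM : ∀ z ∈ ball (0 : V) ρ ×ˢ ball (0 : B) r, ‖F z‖ ≤ M) (l : ℕ) :
    DifferentiableOn ℂ (fun z : V × B => co (fun v => F (v, z.2)) l z.1) (univ ×ˢ ball 0 r) := by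
  induction l using Nat.strong_induction_on with
  | _ l ih =>
    refine diffOn_univ fun S hS => ?_
    have hrem := fun (b : B) (hb : b ∈ ball (0 : B) r) =>
      rem_le hρ (slice_diff hd hb) (fun y hy => hM (y, b) ⟨hy, hb⟩)
    refine End.differentiableOn_of_tendsto (l := 𝓝[>] (0 : ℝ))
      (F := fun (t : ℝ) (z : V × B) => ((t : ℂ) ^ l)⁻¹ • (F ((t : ℂ) • z.1, z.2) -
        ∑ j ∈ Finset.range l, (t : ℂ) ^ j • co (fun v => F (v, z.2)) j z.1))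
      (isOpen_ball.prod isOpen_ball) (M := 2 * M * (S / ρ) ^ l) ?_ ?_ ?_
    · filter_upwards [ev_small S hρ] with t ⟨ht, a1⟩
      rintro ⟨v, b⟩ ⟨hv, hb⟩
      have hM0 : 0 ≤ M := (norm_nonneg _).trans (hM (0, b) ⟨mem_ball_self hρ, hb⟩)
      have e : ‖(t : ℂ)‖ = t := by rw [Complex.norm_real, Real.norm_of_nonneg ht.le]
      have hv' : ‖v‖ ≤ S := (mem_ball_zero_iff.1 hv).le
      have h1 := hrem b hb l (t := t) (v := v) (by rw [e]; nlinarith)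
      rw [norm_smul, norm_inv, norm_pow, e, inv_mul_le_iff₀ (pow_pos ht l)]
      refine h1.trans ?_
      rw [e, mul_div_assoc, mul_pow, mul_left_comm]
      gcongr
    · filter_upwards [ev_small S hρ] with t ⟨ht, a1⟩
      refine DifferentiableOn.const_smul (DifferentiableOn.sub ?_ ?_) _
      · refine hd.comp ((differentiable_fst.const_smul (t : ℂ)).prodMk
          differentiable_snd).differentiableOn ?_
        rintro ⟨v, b⟩ ⟨hv, hb⟩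
        refine ⟨?_, hb⟩
        have hv' : ‖v‖ ≤ S := (mem_ball_zero_iff.1 hv).le
        rw [mem_ball_zero_iff]
        show ‖(t : ℂ) • v‖ < ρ
        rw [norm_smul, Complex.norm_real, Real.norm_of_nonneg ht.le]
        nlinarith
      · refine DifferentiableOn.fun_sum fun j hj => DifferentiableOn.const_smul ?_ _
        exact (ih j (Finset.mem_range.1 hj)).mono (prod_mono (subset_univ _) subset_rfl)
    · rintro ⟨v, b⟩ ⟨-, hb⟩
      have h1 := lin_zero (2 * M * (‖v‖ / ρ) ^ (l + 1))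
      rw [tendsto_iff_norm_sub_tendsto_zero]
      refine squeeze_zero' (Eventually.of_forall fun _ => norm_nonneg _) ?_ h1
      filter_upwards [ev_small ‖v‖ hρ] with t ⟨ht, a1⟩
      have e : ‖(t : ℂ)‖ = t := by rw [Complex.norm_real, Real.norm_of_nonneg ht.le]
      have h2 := hrem b hb (l + 1) (t := t) (v := v) (by rw [e]; exact a1)
      have h3 : ((t : ℂ) ^ l) ≠ 0 := pow_ne_zero _ (by exact_mod_cast ht.ne')
      rw [Finset.sum_range_succ, ← sub_sub] at h2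
      rw [← inv_smul_smul₀ h3 (co (fun v => F (v, b)) l v), ← smul_sub, norm_smul, norm_inv,
        norm_pow, e, inv_mul_le_iff₀ (pow_pos ht l)]
      refine h2.trans_eq ?_
      rw [e, mul_div_assoc, mul_pow]
      ring

end Vale.Agent.P218N.Glue.Zl
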