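import Vale.Agent.P218N.Glue.ZSpec
import Vale.Agent.P218N.Glue.ZCo

/-! Limits of Taylor coefficients along dyadic scales: the proof. -/

open Filter Topology Metric Set

noncomputable section

namespace Vale.Agent.P218N.Glue

namespace Zl

theorem unif {P : ℕ → ℝ → Prop} (hm : ∀ l K K', K ≤ K' → P l K → P l K') (n : ℕ)
    (h : ∀ l, l ≤ n → ∃ K, P l K) : ∃ K, 0 ≤ K ∧ ∀ l, l ≤ n → P l K := by
  induction n with
  | zero =>
    obtain ⟨K, hK⟩ := h 0 le_rfl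
    exact ⟨max K 0, le_max_right _ _, fun l hl => by
      obtain rfl := Nat.le_zero.1 hl
      exact hm _ _ _ (le_max_left _ _) hK⟩
  | succ n ih =>
    obtain ⟨K, hK0, hK⟩ := ih fun l hl => h l (hl.trans n.le_succ)
    obtain ⟨K', hK'⟩ := h (n + 1) le_rfl
    refine ⟨max K K', hK0.trans (le_max_left _ _), fun l hl => ?_⟩
    rcases Nat.of_le_succ hl with h1 | rfl
    · exact hm _ _ _ (le_max_left _ _) (hK l h1)
    · exact hm _ _ _ (le_max_right _ _) hK'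

variable {V B Y : Type} [NormedAddCommGroup V] [NormedSpace ℂ V] [NormedAddCommGroup B]
  [NormedSpace ℂ B] [NormedAddCommGroup Y] [NormedSpace ℂ Y]

theorem lip_of_hom {P : V → Y} {K : ℝ} {l : ℕ} (hd : Differentiable ℂ P)
    (h0 : ∀ (t : ℂ) v, P (t • v) = t ^ l • P v) (hK0 : 0 ≤ K) (hK : ∀ v, ‖P v‖ ≤ K * ‖v‖ ^ l)
    (v v' : V) : ‖P v - P v'‖ ≤ K * 3 ^ l * (‖v‖ + ‖v'‖) ^ (l - 1) * ‖v - v'‖ := by
  rcases Nat.eq_zero_or_pos l with rfl | hl
  · have h1 : ∀ v, P v = P 0 := fun v => by simpa using (h0 0 v).symm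
    rw [h1 v, h1 v', sub_self, norm_zero]
    positivity
  rcases eq_or_ne v v' with rfl | hv
  · simp
  have h1 : 0 < ‖v - v'‖ := norm_pos_iff.2 (sub_ne_zero.2 hv)
  have h2 : ‖v - v'‖ ≤ ‖v‖ + ‖v'‖ := norm_sub_le _ _
  set s := ‖v‖ + ‖v'‖ with hs
  have hs0 : 0 < s := h1.trans_le h2
  have h3 : ∀ y ∈ ball v' (2 * s), ‖P y‖ ≤ K * (3 * s) ^ l := fun y hy => by
    refine (hK y).trans ?_
    rw [mem_ball, dist_eq_norm] at hy
    have h4 := norm_le_insert' y v'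
    have h5 : ‖y‖ ≤ 3 * s := by linarith [norm_nonneg v]
    gcongr
  have h4 : MapsTo P (ball v' (2 * s)) (closedBall (P v') (2 * (K * (3 * s) ^ l))) := fun y hy => by
    rw [mem_closedBall, dist_eq_norm]
    linarith [norm_sub_le (P y) (P v'), h3 y hy, h3 v' (mem_ball_self (by positivity))]
  have h5 := Complex.dist_le_div_mul_dist_of_mapsTo_ball (z := v) hd.differentiableOn h4
    (by rw [mem_ball, dist_eq_norm]; linarith)
  rw [dist_eq_norm, dist_eq_norm] at h5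
  refine h5.trans_eq ?_
  obtain ⟨m, rfl⟩ := Nat.exists_eq_add_of_lt hl
  simp only [zero_add, Nat.add_sub_cancel]
  congr 1
  field_simp
  ring_nf

theorem add_of_hom {P : V → Y} (hd : Differentiable ℂ P)
    (h0 : ∀ (t : ℂ) v, P (t • v) = t ^ 1 • P v) (v v' : V) : P (v + v') = P v + P v' := by
  have h : ∀ v, P v = fderiv ℂ P 0 v := fun v => by
    have h1 : HasDerivAt (fun t : ℂ => t • v) v 0 := by
      simpa using (hasDerivAt_id (0 : ℂ)).smul_const v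
    have h2 : HasDerivAt (fun t : ℂ => P (t • v)) (fderiv ℂ P 0 v) 0 :=
      (hd 0).hasFDerivAt.comp_hasDerivAt_of_eq 0 h1 (by simp)
    have h3 : HasDerivAt (fun t : ℂ => P (t • v)) (P v) 0 := by
      simpa [h0] using (hasDerivAt_id (0 : ℂ)).smul_const (P v)
    exact h3.unique h2
  rw [h (v + v'), h v, h v', map_add]

theorem half (c : ℝ) (k : ℕ) : c / 2 ^ (k + 1) = c / 2 ^ k / 2 := by rw [pow_succ, div_div]

/-- the hypotheses, with `a = 2 ^ (-p)` -/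
structure Hyp (n k₀ : ℕ) (a c r C : ℝ) (f : ℕ → V × B → Y) : Prop where
  a0 : 0 < a
  a1 : a * 2 ^ n < 1
  a2 : 1 < a * 2 ^ (n + 1)
  c0 : 0 < c
  C0 : 0 ≤ C
  d : ∀ k, k₀ ≤ k → DifferentiableOn ℂ (f k) (dmn V B c r k)
  b0 : ∀ z ∈ dmn V B c r k₀, ‖f k₀ z‖ ≤ C
  inc : ∀ k, k₀ ≤ k → ∀ z ∈ dmn V B c r (k + 1), ‖f (k + 1) z - f k z‖ ≤ C * a ^ k

/-- the Taylor coefficients at the scale `k` -/
def cs (f : ℕ → V × B → Y) (k l : ℕ) (z : V × B) : Y := co (fun v => f k (v, z.2)) l z.1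

/-- their limits -/
def cg (f : ℕ → V × B → Y) (l : ℕ) (z : V × B) : Y := limUnder atTop fun k => cs f k l z

namespace Hyp

variable {n k₀ : ℕ} {a c r C : ℝ} {f : ℕ → V × B → Y} (H : Hyp n k₀ a c r C f)
include H

theorem rpos (k : ℕ) : 0 < c / 2 ^ k := by have := H.c0; positivity

theorem ball_sub (k : ℕ) : ball (0 : V) (c / 2 ^ (k + 1)) ⊆ ball 0 (c / 2 ^ k) :=
  ball_subset_ball (by rw [half]; linarith [H.rpos k])

theorem bdd {k : ℕ} (hk : k₀ ≤ k) : ∃ M, ∀ z ∈ dmn V B c r k, ‖f k z‖ ≤ M := by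
  induction k, hk using Nat.le_induction with
  | base => exact ⟨C, H.b0⟩
  | succ k hk ih =>
    obtain ⟨M, hM⟩ := ih
    refine ⟨M + C * a ^ k, fun z hz => ?_⟩
    have h1 := hM z ⟨H.ball_sub k hz.1, hz.2⟩
    linarith [H.inc k hk z hz, norm_le_insert' (f (k + 1) z) (f k z)]

theorem sd {k : ℕ} (hk : k₀ ≤ k) {b : B} (hb : b ∈ ball (0 : B) r) :
    DifferentiableOn ℂ (fun v => f k (v, b)) (ball 0 (c / 2 ^ k)) := slice_diff (H.d k hk) hb

theorem th0 (l : ℕ) : 0 ≤ a * 2 ^ l := by have := H.a0; positivity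

theorem thn {l : ℕ} (hl : l ≤ n) : a * 2 ^ l ≤ a * 2 ^ n :=
  mul_le_mul_of_nonneg_left (pow_le_pow_right₀ one_le_two hl) H.a0.le

variable [CompleteSpace Y]

theorem cs_sub {k : ℕ} (hk : k₀ ≤ k) {b : B} (hb : b ∈ ball (0 : B) r) (l : ℕ) (v : V) :
    co (fun y => f (k + 1) (y, b) - f k (y, b)) l v = cs f (k + 1) l (v, b) - cs f k l (v, b) :=
  co_sub (H.rpos (k + 1)) (H.sd (hk.trans k.le_succ) hb) ((H.sd hk hb).mono (H.ball_sub k)) l v

theorem cs_inc {k : ℕ} (hk : k₀ ≤ k) {b : B} (hb : b ∈ ball (0 : B) r) (l : ℕ) (v : V) :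
    ‖cs f (k + 1) l (v, b) - cs f k l (v, b)‖ ≤ C * (2 * ‖v‖ / c) ^ l * (a * 2 ^ l) ^ k := by
  rw [← H.cs_sub hk hb]
  refine (co_le (H.rpos (k + 1)) ((H.sd (hk.trans k.le_succ) hb).sub
    ((H.sd hk hb).mono (H.ball_sub k))) (fun y hy => H.inc k hk (y, b) ⟨hy, hb⟩) l v).trans_eq ?_
  have e : ‖v‖ / (c / 2 ^ (k + 1)) = 2 * ‖v‖ / c * 2 ^ k := by
    have := H.c0
    field_simp
    ring
  rw [e, mul_pow, mul_pow, ← pow_mul, ← pow_mul, mul_comm k l]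
  ring

theorem geo {k : ℕ} (hk : k₀ ≤ k) {b : B} (hb : b ∈ ball (0 : B) r) (l : ℕ) (v : V) (m : ℕ) :
    dist (cs f (m + k) l (v, b)) (cs f (m + 1 + k) l (v, b)) ≤
      C * (2 * ‖v‖ / c) ^ l * (a * 2 ^ l) ^ k * (a * 2 ^ l) ^ m := by
  rw [dist_comm, dist_eq_norm, add_right_comm]
  refine (H.cs_inc (hk.trans (Nat.le_add_left k m)) hb l v).trans_eq ?_
  ring

theorem tends {l : ℕ} (hl : l ≤ n) {b : B} (hb : b ∈ ball (0 : B) r) (v : V) :
    Tendsto (fun k => cs f k l (v, b)) atTop (𝓝 (cg f l (v, b))) := by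
  obtain ⟨y, hy⟩ := cauchySeq_tendsto_of_complete (cauchySeq_of_le_geometric _ _
    ((H.thn hl).trans_lt H.a1) (H.geo le_rfl hb l v))
  exact tendsto_nhds_limUnder ⟨y, (tendsto_add_atTop_iff_nat k₀).1 hy⟩

theorem tail {k l : ℕ} (hk : k₀ ≤ k) (hl : l ≤ n) {b : B} (hb : b ∈ ball (0 : B) r) (v : V) :
    ‖cs f k l (v, b) - cg f l (v, b)‖ ≤
      C * (2 * ‖v‖ / c) ^ l * (a * 2 ^ l) ^ k / (1 - a * 2 ^ n) := by
  have h1 := dist_le_of_le_geometric_of_tendsto₀ _ _ ((H.thn hl).trans_lt H.a1) (H.geo hk hb l v)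
    ((tendsto_add_atTop_iff_nat k).2 (H.tends hl hb v))
  rw [zero_add, dist_eq_norm] at h1
  refine h1.trans ?_
  have := H.c0
  have := H.C0
  have := H.th0 l
  have := H.thn hl
  have := H.a1
  gcongr

theorem bound {l : ℕ} (hl : l ≤ n) : ∃ K, 0 ≤ K ∧ ∀ b ∈ ball (0 : B) r, ∀ v,
    ‖cg f l (v, b)‖ ≤ K * ‖v‖ ^ l ∧ ∀ k, k₀ ≤ k → ‖cs f k l (v, b)‖ ≤ K * ‖v‖ ^ l := by
  have hc := H.c0
  have hC := H.C0
  have h1 : 0 < 1 - a * 2 ^ n := sub_pos.2 H.a1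
  have ht : ∀ b ∈ ball (0 : B) r, ∀ v, ∀ k, k₀ ≤ k → ‖cs f k l (v, b) - cg f l (v, b)‖ ≤
      C * (2 / c) ^ l / (1 - a * 2 ^ n) * ‖v‖ ^ l := fun b hb v k hk => by
    refine (H.tail hk hl hb v).trans ?_
    have h2 : (a * 2 ^ l) ^ k ≤ 1 := pow_le_one₀ (H.th0 l) ((H.thn hl).trans H.a1.le)
    calc _ ≤ C * (2 * ‖v‖ / c) ^ l * 1 / (1 - a * 2 ^ n) := by gcongr
      _ = _ := by rw [mul_div_right_comm 2, mul_pow]; ring
  refine ⟨C * (1 / (c / 2 ^ k₀)) ^ l + 2 * (C * (2 / c) ^ l / (1 - a * 2 ^ n)), by positivity,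
    fun b hb v => ?_⟩
  have h2 : ‖cs f k₀ l (v, b)‖ ≤ C * (1 / (c / 2 ^ k₀)) ^ l * ‖v‖ ^ l := by
    refine (co_le (H.rpos k₀) (H.sd le_rfl hb) (fun y hy => H.b0 (y, b) ⟨hy, hb⟩) l v).trans_eq ?_
    rw [mul_assoc, ← mul_pow, one_div_mul_eq_div]
  have h3 := ht b hb v k₀ le_rfl
  have h4 := norm_le_insert (cs f k₀ l (v, b)) (cg f l (v, b))
  have h5 : 0 ≤ C * (2 / c) ^ l / (1 - a * 2 ^ n) * ‖v‖ ^ l := by positivity
  refine ⟨by linarith, fun k hk => ?_⟩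
  linarith [ht b hb v k hk, norm_le_insert' (cs f k l (v, b)) (cg f l (v, b))]

theorem g_diff {l : ℕ} (hl : l ≤ n) : DifferentiableOn ℂ (cg f l) (univ ×ˢ ball 0 r) := by
  obtain ⟨K, hK0, hK⟩ := H.bound hl
  refine diffOn_univ fun S hS => End.differentiableOn_of_tendsto (l := atTop)
    (F := fun k => cs f k l) (isOpen_ball.prod isOpen_ball) (M := K * S ^ l) ?_ ?_ ?_
  · filter_upwards [eventually_ge_atTop k₀] with k hk
    rintro ⟨v, b⟩ ⟨hv, hb⟩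
    have hv' : ‖v‖ ≤ S := (mem_ball_zero_iff.1 hv).le
    refine ((hK b hb v).2 k hk).trans ?_
    gcongr
  · filter_upwards [eventually_ge_atTop k₀] with k hk
    obtain ⟨M, hM⟩ := H.bdd hk
    exact (co_diff (H.rpos k) (H.d k hk) hM l).mono (prod_mono (subset_univ _) subset_rfl)
  · rintro ⟨v, b⟩ ⟨-, hb⟩
    exact H.tends hl hb v

theorem g_slice {l : ℕ} (hl : l ≤ n) {b : B} (hb : b ∈ ball (0 : B) r) :
    Differentiable ℂ fun v => cg f l (v, b) :=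
  differentiableOn_univ.1 ((H.g_diff hl).comp
    (differentiableOn_id.prodMk (differentiableOn_const b)) fun _ hv => ⟨hv, hb⟩)

theorem g_smul {l : ℕ} (hl : l ≤ n) {b : B} (hb : b ∈ ball (0 : B) r) (t : ℂ) (v : V) :
    cg f l (t • v, b) = t ^ l • cg f l (v, b) := by
  refine tendsto_nhds_unique (H.tends hl hb _) (((H.tends hl hb v).const_smul (t ^ l)).congr' ?_)
  filter_upwards [eventually_ge_atTop k₀] with k hk
  obtain ⟨M, hM⟩ := H.bdd hk
  exact (co_smul (H.rpos k) (H.sd hk hb) (fun y hy => hM (y, b) ⟨hy, hb⟩) l t v).symm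

theorem rem : ∃ A, 0 ≤ A ∧ ∀ k, k₀ ≤ k → ∀ b ∈ ball (0 : B) r, ∀ v : V, ‖v‖ ≤ c / 2 ^ (k + 1) →
    ‖f k (v, b) - ∑ l ∈ Finset.range (n + 1), cs f k l (v, b)‖ ≤
      A * (a * 2 ^ (n + 1)) ^ k * (‖v‖ / c) ^ (n + 1) := by
  have hc := H.c0
  have hC := H.C0
  have hx := H.a2
  set x := a * 2 ^ (n + 1) with hxd
  have hx1 : 0 < x - 1 := sub_pos.2 hx
  have e : ∀ (k : ℕ) (v : V), (‖(1 : ℂ)‖ * ‖v‖ / (c / 2 ^ k)) ^ (n + 1) =
      (2 ^ (n + 1)) ^ k * (‖v‖ / c) ^ (n + 1) := fun k v => by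
    rw [← pow_mul, mul_comm (n + 1) k, pow_mul, ← mul_pow, norm_one]
    congr 1
    field_simp
  set A1 := 2 * C * 2 ^ (n + 1) / (x - 1) with hA1
  set A2 := 2 * C * (2 ^ (n + 1)) ^ k₀ with hA2
  have p1 : 0 ≤ A1 := by positivity
  have p2 : 0 ≤ A2 := by positivity
  refine ⟨A1 + A2, by positivity, fun k hk b hb => ?_⟩
  induction k, hk using Nat.le_induction with
  | base =>
    intro v hv
    have h1 := rem_le (H.rpos k₀) (H.sd le_rfl hb) (fun y hy => H.b0 (y, b) ⟨hy, hb⟩) (n + 1)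
      (t := 1) (v := v) (by rw [norm_one, one_mul, ← half]; exact hv)
    rw [e] at h1
    simp only [one_smul, one_pow] at h1
    refine h1.trans ?_
    rw [← mul_assoc, ← hA2]
    have h2 : 1 ≤ x ^ k₀ := one_le_pow₀ hx.le
    gcongr
    nlinarith
  | succ k hk ih =>
    intro v hv
    have h0 := ih v (hv.trans (by rw [half c (k + 1)]; linarith [H.rpos (k + 1)]))
    have h1 := rem_le (H.rpos (k + 1)) ((H.sd (hk.trans k.le_succ) hb).sub
      ((H.sd hk hb).mono (H.ball_sub k))) (fun y hy => H.inc k hk (y, b) ⟨hy, hb⟩) (n + 1)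
      (t := 1) (v := v) (by rw [norm_one, one_mul, ← half]; exact hv)
    rw [e] at h1
    simp only [one_smul, one_pow] at h1
    have h2 : ‖f (k + 1) (v, b) - f k (v, b) - ∑ l ∈ Finset.range (n + 1),
        (cs f (k + 1) l (v, b) - cs f k l (v, b))‖ ≤
        2 * (C * a ^ k) * ((2 ^ (n + 1)) ^ (k + 1) * (‖v‖ / c) ^ (n + 1)) := by
      refine le_trans (le_of_eq ?_) h1
      congr 2
      exact Finset.sum_congr rfl fun l _ => (H.cs_sub hk hb l v).symm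
    have h3 : 2 * (C * a ^ k) * ((2 ^ (n + 1)) ^ (k + 1) * (‖v‖ / c) ^ (n + 1)) =
        A1 * (x - 1) * x ^ k * (‖v‖ / c) ^ (n + 1) := by
      rw [hA1, div_mul_cancel₀ _ hx1.ne', hxd, mul_pow]
      ring
    rw [h3, Finset.sum_sub_distrib] at h2
    have h4 : 0 ≤ x ^ k * (‖v‖ / c) ^ (n + 1) := by positivity
    calc _ = ‖(f (k + 1) (v, b) - f k (v, b) - (∑ l ∈ Finset.range (n + 1), cs f (k + 1) l (v, b) -
          ∑ l ∈ Finset.range (n + 1), cs f k l (v, b))) +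
          (f k (v, b) - ∑ l ∈ Finset.range (n + 1), cs f k l (v, b))‖ := by congr 1; abel
      _ ≤ A1 * (x - 1) * x ^ k * (‖v‖ / c) ^ (n + 1) + (A1 + A2) * x ^ k * (‖v‖ / c) ^ (n + 1) :=
          (norm_add_le _ _).trans (add_le_add h2 h0)
      _ = (A1 * x + A2) * (x ^ k * (‖v‖ / c) ^ (n + 1)) := by ring
      _ ≤ (A1 * x + A2 * x) * (x ^ k * (‖v‖ / c) ^ (n + 1)) := by
          gcongr
          exact le_mul_of_one_le_right p2 hx.le
      _ = _ := by ring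

theorem approx : ∃ A, 0 ≤ A ∧ ∀ k, k₀ ≤ k → ∀ z ∈ dmn V B c r (k + 1),
    ‖f k z - ∑ l ∈ Finset.range (n + 1), cg f l z‖ ≤ A * a ^ k := by
  obtain ⟨A, hA0, hA⟩ := H.rem
  have hc := H.c0
  have hC := H.C0
  have ha := H.a0
  have h1 : 0 < 1 - a * 2 ^ n := sub_pos.2 H.a1
  refine ⟨A + (n + 1 : ℕ) * (C / (1 - a * 2 ^ n)), by positivity, fun k hk => ?_⟩
  rintro ⟨v, b⟩ ⟨hv, hb⟩
  have hv' : ‖v‖ ≤ c / 2 ^ (k + 1) := (mem_ball_zero_iff.1 hv).le
  have h2 : 2 ^ k * (2 * ‖v‖ / c) ≤ 1 := by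
    rw [le_div_iff₀ (by positivity)] at hv'
    rw [← mul_div_assoc, div_le_one hc]
    refine le_trans (le_of_eq ?_) hv'
    ring
  have h3 : 2 ^ k * (‖v‖ / c) ≤ 1 := by
    refine le_trans ?_ h2
    gcongr
    linarith [norm_nonneg v]
  have h4 : ‖f k (v, b) - ∑ l ∈ Finset.range (n + 1), cs f k l (v, b)‖ ≤ A * a ^ k := by
    refine (hA k hk b hb v hv').trans ?_
    calc _ = A * a ^ k * (2 ^ k * (‖v‖ / c)) ^ (n + 1) := by
          rw [mul_pow a, mul_pow, ← pow_mul, ← pow_mul, mul_comm k]; ring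
      _ ≤ A * a ^ k * 1 := by gcongr; exact pow_le_one₀ (by positivity) h3
      _ = _ := mul_one _
  have h5 : ∀ l ∈ Finset.range (n + 1), ‖cs f k l (v, b) - cg f l (v, b)‖ ≤
      C / (1 - a * 2 ^ n) * a ^ k := fun l hl => by
    refine (H.tail hk (Nat.lt_succ_iff.1 (Finset.mem_range.1 hl)) hb v).trans ?_
    calc _ = C / (1 - a * 2 ^ n) * a ^ k * (2 ^ k * (2 * ‖v‖ / c)) ^ l := by
          rw [mul_pow a, mul_pow ((2 : ℝ) ^ k), ← pow_mul, ← pow_mul, mul_comm k]; ring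
      _ ≤ C / (1 - a * 2 ^ n) * a ^ k * 1 := by gcongr; exact pow_le_one₀ (by positivity) h2
      _ = _ := mul_one _
  have h6 := (norm_sum_le _ _).trans (Finset.sum_le_card_nsmul _ _ _ h5)
  rw [Finset.card_range, nsmul_eq_mul, Finset.sum_sub_distrib] at h6
  calc _ = ‖(f k (v, b) - ∑ l ∈ Finset.range (n + 1), cs f k l (v, b)) +
        (∑ l ∈ Finset.range (n + 1), cs f k l (v, b) -
          ∑ l ∈ Finset.range (n + 1), cg f l (v, b))‖ := by congr 1; abel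
    _ ≤ _ := (norm_add_le _ _).trans (add_le_add h4 h6)
    _ = _ := by ring

theorem g_lin (hn : 1 ≤ n) {b : B} (hb : b ∈ ball (0 : B) r) (L : V →L[ℂ] Y) {η w C'' : ℝ}
    (hw0 : 0 ≤ w) (hw : w * 2 < 1) (h : ∀ k, k₀ ≤ k → ∀ v ∈ ball (0 : V) (c / 2 ^ (k + 1)),
      ‖f k (v, b) - f k (0, b) - L v‖ ≤ η * ‖v‖ + C'' * w ^ k) (v : V) :
    ‖cg f 1 (v, b) - L v‖ ≤ η * ‖v‖ := by
  have hc := H.c0
  have h1 : Tendsto (fun k : ℕ => η * ‖v‖ + C'' * (2 * (‖v‖ + 1) / c) * (w * 2) ^ k) atTop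
      (𝓝 (η * ‖v‖)) := by
    simpa using ((tendsto_pow_atTop_nhds_zero_of_lt_one (by positivity) hw).const_mul
      (C'' * (2 * (‖v‖ + 1) / c))).const_add (η * ‖v‖)
  refine le_of_tendsto_of_tendsto ((H.tends hn hb v).sub_const (L v)).norm h1 ?_
  filter_upwards [eventually_ge_atTop k₀] with k hk
  have d1 := (H.sd hk hb).mono (H.ball_sub k)
  have d2 : DifferentiableOn ℂ (fun y => f k (y, b) - f k (0, b)) (ball 0 (c / 2 ^ (k + 1))) :=
    d1.sub_const _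
  have hρ := H.rpos (k + 1)
  set R := c / 2 ^ (k + 1) / (‖v‖ + 1) with hR
  have hR0 : 0 < R := by positivity
  have hR1 : R * ‖v‖ < c / 2 ^ (k + 1) := by
    rw [hR, div_mul_eq_mul_div, div_lt_iff₀ (by positivity)]
    gcongr
    exact lt_add_one _
  have h2 := co_sphere (M := η * (R * ‖v‖) + C'' * w ^ k) (d2.sub L.differentiableOn) hR0 hR1
    (fun t ht => by
      have h3 := h k hk (t • v) (by rw [mem_ball_zero_iff, norm_smul, ht]; exact hR1)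
      rwa [norm_smul, ht] at h3) 1
  have e1 : co (fun y => f k (y, b) - f k (0, b) - L y) 1 v = cs f k 1 (v, b) - L v := by
    rw [co_sub hρ d2 L.differentiableOn, co_sub hρ d1 (differentiableOn_const _), co_one L,
      co_one fun _ => f k (0, b)]
    have h4 : HasDerivAt (fun t : ℂ => L (t • v)) (L v) 0 := by
      simpa using (hasDerivAt_id (0 : ℂ)).smul_const (L v)
    rw [h4.deriv, deriv_const, sub_zero]
    rfl
  rw [← e1]
  refine h2.trans_eq ?_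
  rw [pow_one, add_div, mul_pow]
  congr 1
  · field_simp
  · rw [hR]
    field_simp
    ring

theorem g_symm (σV : V →L⋆[ℂ] V) (σB : B → B) (σY : Y →L⋆[ℂ] Y) (hB : ∀ b, ‖σB b‖ = ‖b‖)
    (h : ∀ k, k₀ ≤ k → ∀ z ∈ dmn V B c r k, f k (σV z.1, σB z.2) = σY (f k z)) {l : ℕ}
    (hl : l ≤ n) (v : V) {b : B} (hb : b ∈ ball (0 : B) r) :
    cg f l (σV v, σB b) = σY (cg f l (v, b)) := by
  have hb' : σB b ∈ ball (0 : B) r := by rwa [mem_ball_zero_iff, hB, ← mem_ball_zero_iff]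
  refine tendsto_nhds_unique (H.tends hl hb' _)
    (((σY.continuous.tendsto _).comp (H.tends hl hb v)).congr' ?_)
  filter_upwards [eventually_ge_atTop k₀] with k hk
  obtain ⟨M, hM⟩ := H.bdd hk
  exact (co_symm (H.rpos k) (H.sd hk hb) (fun y hy => hM (y, b) ⟨hy, hb⟩) (H.sd hk hb')
    (fun y hy => hM (y, σB b) ⟨hy, hb'⟩) σV σY (fun y hy => h k hk (y, b) ⟨hy, hb⟩) l v).symm

end Hyp

theorem two_pow (p : ℝ) (m : ℕ) : (2 : ℝ) ^ (-p) * 2 ^ m = 2 ^ ((m : ℝ) - p) := by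
  rw [← Real.rpow_natCast, ← Real.rpow_add two_pos, neg_add_eq_sub]

end Zl

open Zl in
theorem zlim : ZlimStmt := by
  intro V B Y _ _ _ _ _ _ _ n k₀ p c r C f hp1 hp2 hc hd hb hi
  have e : ∀ (q : ℝ) (k : ℕ), ((2 : ℝ) ^ k) ^ (-q) = ((2 : ℝ) ^ (-q)) ^ k := fun q k =>
    (Real.rpow_pow_comm zero_le_two _ _).symm
  have ha : (0 : ℝ) < 2 ^ (-p) := by positivity
  have H : Hyp n k₀ (2 ^ (-p)) c r |C| f :=
    { a0 := ha
      a1 := by rw [two_pow]; exact Real.rpow_lt_one_of_one_lt_of_neg one_lt_two (by linarith)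
      a2 := by rw [two_pow]; exact Real.one_lt_rpow one_lt_two (by push_cast; linarith)
      c0 := hc
      C0 := abs_nonneg C
      d := hd
      b0 := fun z hz => (hb z hz).trans (le_abs_self C)
      inc := fun k hk z hz => by
        refine (hi k hk z hz).trans ?_
        rw [e]
        gcongr
        exact le_abs_self C }
  obtain ⟨A, hA0, hA⟩ := H.approx
  obtain ⟨K, hK0, hK⟩ := unif (P := fun l K => ∀ b ∈ ball (0 : B) r,
      (∀ v, ‖cg f l (v, b)‖ ≤ K * ‖v‖ ^ l) ∧ ∀ v v', ‖cg f l (v, b) - cg f l (v', b)‖ ≤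
        K * (‖v‖ + ‖v'‖) ^ (l - 1) * ‖v - v'‖)
    (fun l K K' hK h b hb => ⟨fun v => ((h b hb).1 v).trans (by gcongr),
      fun v v' => ((h b hb).2 v v').trans (by gcongr)⟩) n (fun l hl => by
      obtain ⟨K, hK0, hK⟩ := H.bound hl
      refine ⟨K * 3 ^ l, fun b hb => ⟨fun v => (hK b hb v).1.trans ?_,
        lip_of_hom (H.g_slice hl hb) (H.g_smul hl hb) hK0 fun v => (hK b hb v).1⟩⟩
      gcongr
      exact le_mul_of_one_le_right hK0 (one_le_pow₀ (by norm_num)))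
  refine ⟨cg f, K + A, by positivity, fun l hl => ⟨H.g_diff hl, fun b hb => ⟨H.g_smul hl hb,
    fun v => ((hK l hl b hb).1 v).trans ?_, fun v v' => ((hK l hl b hb).2 v v').trans ?_⟩⟩,
    fun k hk z hz => (hA k hk z hz).trans ?_, fun b hb v => ⟨?_, ?_⟩, fun hn b hb =>
    ⟨add_of_hom (H.g_slice hn hb) (H.g_smul hn hb), fun L η q C'' hq h => ?_⟩,
    fun σV σB σY _ hB h l hl v b hb => H.g_symm σV σB σY hB h hl v hb⟩
  · gcongr; linarith
  · gcongr; linarith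
  · rw [e]; gcongr; linarith
  · simpa using (H.g_smul n.zero_le hb 0 v).symm
  · simpa only [cs, co_zero] using H.tends n.zero_le hb 0
  · refine H.g_lin hn hb L (w := 2 ^ (-q)) (C'' := C'') (by positivity) ?_ fun k hk v hv => ?_
    · have h1 := two_pow q 1
      rw [pow_one] at h1
      rw [h1]
      exact Real.rpow_lt_one_of_one_lt_of_neg one_lt_two (by push_cast; linarith)
    · rw [← e]
      exact h k hk v hv

end Vale.Agent.P218N.Glue
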