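import Vale.Agent.P218N.Glue.EnvM
import Vale.Agent.P218N.Glue.Zlim
import Vale.Agent.P218N.End.ApiFar
import Vale.Agent.P218N.End.ApiNa
import Vale.Agent.P218N.End.ApiConv
import Vale.Agent.P218N.End.ApiPt2
import Vale.Agent.P218N.End.ApiFl
import Vale.Agent.P218N.End.ApiTr
import Vale.Agent.P218N.End.ApiSub
import Vale.Agent.P218N.End.ApiCut
import Vale.Agent.P218N.End.ApiWt
import Vale.Agent.P218N.End.ApiAs0
import Vale.Agent.P218N.End.ApiCj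
import Vale.Agent.P218N.End.ApiLag

/-! The choice of the constants: existence of `Env`. -/

open Filter Topology Metric Set Complex

noncomputable section

namespace Vale.Agent.P218N.Glue

open Vale.Agent.P218N.End Vale.Agent.P218N.J

variable {J0 Cy Co : Type} [Fintype J0] [Fintype Cy] [Fintype Co]

/-- the same ends with another core problem -/
abbrev Sys.at (S : Sys J0 Cy Co) (T : ℝ) (out : CP J0 Cy Co → Dat Cy Co) (Fc : CP J0 Cy Co → ℂ)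
    (rest : CP J0 Cy Co → CP J0 Cy Co → ℂ) : Sys J0 Cy Co :=
  { S with T := T, out := out, Fc := Fc, rest := rest }

namespace EnvP

theorem exists_ge_list (L : List ℝ) : ∃ M : ℝ, ∀ x ∈ L, x ≤ M :=
  ⟨L.foldr max 0, fun _ hx => List.le_max_of_le' 0 hx le_rfl⟩

theorem exists_pos_le {ι : Type} [Finite ι] {f : ι → ℝ} (h : ∀ i, 0 < f i) :
    ∃ δ > 0, ∀ i, δ ≤ f i := by
  obtain ⟨M, hM⟩ := Finite.exists_le fun i => (f i)⁻¹
  exact ⟨(max M 1)⁻¹, by positivity, fun i =>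
    inv_le_of_inv_le₀ (h i) ((hM i).trans (le_max_left _ _))⟩

end EnvP

open EnvP in
/-- For every constant `C₀` of the core problem there are `ε` and `T₀` such that every core problem
with the constants `C₀, ε` at `T ≥ T₀` extends to an environment. -/
theorem exists_env' (hRp : RpStmt) (S : Sys J0 Cy Co) (hcc : ∀ e, 0 < S.cc e)
    (hcyl : ∀ i, ∃ v Z C, CylEnd v (S.jS i) (S.dS i) (S.πS i) Z C)
    (hcone : ∀ e, ∃ h Z B, ConeEnd h (S.cc e) (S.ka e) (S.kd e) (S.kS e) (S.dK e) (S.πK e) Z B)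
    (C₀ : ℝ) : ∃ ε > 0, ∃ T₀ : ℝ, ∀ T out Fc rest Cb r₀, T₀ ≤ T → 0 < r₀ →
      CoreL (S.at T out Fc rest) C₀ ε Cb r₀ →
      ∃ E : Env (S.at T out Fc rest), E.ε = ε ∧ E.r₀ = r₀ ∧ E.Cb = max Cb 1 := by
  choose v Z₁ CS₁ hv using hcyl
  choose f Z₂ B₂ hf using hcone
  obtain ⟨Za, hZa⟩ := Finite.exists_le Z₁
  obtain ⟨Zb, hZb⟩ := Finite.exists_le Z₂
  obtain ⟨CSa, hCS⟩ := Finite.exists_le CS₁
  obtain ⟨BK, hBK⟩ := Finite.exists_le B₂
  have hv' : ∀ i, CylEnd (v i) (S.jS i) (S.dS i) (S.πS i) (max (max Za Zb) 0) (max CSa 0) :=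
    fun i => cylEnd_mono (hv i) ((hZa i).trans ((le_max_left _ _).trans (le_max_left _ _)))
      (le_max_right _ _) ((hCS i).trans (le_max_left _ _))
  have hf' : ∀ e, ConeEnd (f e) (S.cc e) (S.ka e) (S.kd e) (S.kS e) (S.dK e) (S.πK e)
      (max (max Za Zb) 0) BK := fun e =>
    coneEnd_mono (hf e) ((hZb e).trans ((le_max_right _ _).trans (le_max_left _ _))) (hBK e)
  have c0 : (0 : ℝ) < 1 / 100 := by norm_num
  obtain ⟨C1, a1, h1⟩ := farCyl _ c0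
  choose C2 a2 h2 using fun e => farCone (S.cc e) (S.ka e) (S.kd e) BK (hcc e)
  obtain ⟨C3, a3, K3, h3⟩ := naStmt
  obtain ⟨C4, a4, K4, h4⟩ := convStmt' _ c0
  obtain ⟨C5, a5, K5, h5⟩ := ptStmt' _ c0
  obtain ⟨clp, cut, h6⟩ := cutStmt
  obtain ⟨C6, a6, K6, h6⟩ := h6 _ c0
  obtain ⟨K7, h7⟩ := wtStmt.1 _ c0
  obtain ⟨C8, a8, K8, h8⟩ := as0Stmt _ c0
  obtain ⟨K9, h9⟩ := hRp.2 (1 / 200) (by norm_num)
  obtain ⟨C10, a10, K10, h10⟩ := lagStmt.1 _ c0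
  choose C11 a11 K11 h11 using fun e =>
    lagStmt.2 (S.cc e) (S.ka e) (S.kd e) (BK + 1) (hcc e) (hf e).kd_eq
  obtain ⟨C2', b2⟩ := Finite.exists_le C2
  obtain ⟨C11', b11⟩ := Finite.exists_le C11
  obtain ⟨C, hC⟩ := exists_ge_list [100000, C₀, C1, C2', C3, C4, C5, C6, C8, C10, C11']
  simp only [List.forall_mem_cons, List.not_mem_nil, false_imp_iff, implies_true, and_true] at hC
  obtain ⟨c, c₀, c1, c2, c3, c4, c5, c6, c8, c10, c11⟩ := hC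
  have hP : 0 < C ^ 8 := by positivity
  have ε0 : 0 < (C ^ 8)⁻¹ := by positivity
  obtain ⟨δa, δa0, K1, h1⟩ := h1 _ ε0
  choose δb δb0 Λb h2 using fun e => h2 e _ ε0
  obtain ⟨δc, δc0, hδc⟩ := exists_pos_le δb0
  obtain ⟨δ, δ0, d1, d2, d3⟩ : ∃ δ > 0, δ ≤ (C ^ 8)⁻¹ ∧ δ ≤ δa ∧ δ ≤ δc :=
    ⟨min (C ^ 8)⁻¹ (min δa δc), by positivity, min_le_left _ _,
      (min_le_right _ _).trans (min_le_left _ _), (min_le_right _ _).trans (min_le_right _ _)⟩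
  obtain ⟨Λa, hΛ⟩ := Finite.exists_le Λb
  choose K2 h2 using fun e =>
    h2 e δ δ0 (d3.trans (hδc e)) (max Λa 0) ((hΛ e).trans (le_max_left _ _))
  obtain ⟨K12, h12⟩ := wtStmt.2 (max Λa 0) (le_max_right _ _)
  choose Z3 h13 using fun e => (hf' e).ref (δb e) (δb0 e)
  choose Z4 h14 using fun e => (hf' e).ref δ δ0
  have δ1 : 0 < δ / C ^ 8 / C ^ 8 := by positivity
  obtain ⟨K, hK⟩ := exists_ge_list
    [C ^ 8 / (δ / C ^ 8 / C ^ 8), K1, K3, K4, K5, K6, K7, K8, 2 * K9, K10]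
  simp only [List.forall_mem_cons, List.not_mem_nil, false_imp_iff, implies_true, and_true] at hK
  obtain ⟨k, k1, k3, k4, k5, k6, k7, k8, k9, k10⟩ := hK
  obtain ⟨T1, t1⟩ := eventually_atTop.1 (((((tendsto_rpow_neg_atTop (y := 9 / 10)
    (by norm_num)).const_mul (max CSa 0)).mul_const (C ^ 8)).eventually_le_const
      (u := δ / C ^ 8 / C ^ 8) (by simpa using δ1)))
  obtain ⟨K2', e2⟩ := Finite.exists_le K2
  obtain ⟨K11', e11⟩ := Finite.exists_le K11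
  obtain ⟨Z3', e3⟩ := Finite.exists_le Z3
  obtain ⟨Z4', e4⟩ := Finite.exists_le Z4
  obtain ⟨T₀, hT₀⟩ := exists_ge_list
    [C * K, T1, max (max Za Zb) 0, K2', K11', K12, Z3', Z4', 1200]
  simp only [List.forall_mem_cons, List.not_mem_nil, false_imp_iff, implies_true, and_true] at hT₀
  obtain ⟨u1, u2, u3, u4, u5, u6, u7, u8, u9⟩ := hT₀
  refine ⟨_, ε0, T₀, fun T out Fc rest Cb r₀ hT r0 hcore => ?_⟩
  have m0 : 0 < min (δ / C ^ 8 / C ^ 8) r₀ / C ^ 8 := by positivity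
  have b0 : 0 < max Cb 1 := by positivity
  refine ⟨{
    C := C, ε := (C ^ 8)⁻¹, δ := δ, δ₀ := δ / C ^ 8, δ₁ := δ / C ^ 8 / C ^ 8, K := K
    Λ := max Λa 0, CS := max CSa 0, BK := BK, Z := max (max Za Zb) 0, r₀ := r₀, Cb := max Cb 1
    μ := min (δ / C ^ 8 / C ^ 8) r₀ / C ^ 8
    r := min (δ / C ^ 8 / C ^ 8) r₀ / C ^ 8 / C ^ 8 / max Cb 1
    c₀ := min (δ / C ^ 8 / C ^ 8) r₀ / C ^ 8 / C ^ 8
    clp := clp, cut := cut, hC := c, ε0 := ε0, hε := (inv_mul_cancel₀ hP.ne').le, δ0 := δ0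
    hδ := d1, δ₀0 := by positivity, hδ₀ := (div_mul_cancel₀ _ hP.ne').le, δ₁0 := δ1
    hδ₁ := (div_mul_cancel₀ _ hP.ne').le, hK := (div_le_iff₀ δ1).1 k, hT := u1.trans hT
    CS0 := le_max_right _ _, hS := t1 T (u2.trans hT), hZ := u3.trans hT, μ0 := m0
    hμ := (div_mul_cancel₀ _ hP.ne').le.trans (min_le_left _ _)
    hμ' := (div_mul_cancel₀ _ hP.ne').le.trans (min_le_right _ _)
    Cb1 := le_max_right _ _, r0 := by positivity
    hr := by rw [mul_div_cancel₀ _ b0.ne', div_mul_cancel₀ _ hP.ne']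
    c₀0 := by positivity, hc₀ := (div_mul_cancel₀ _ hP.ne').le
    far := far_mono (h1 δ δ0 d2 K k1) a1 c1
    fcone := fun e γ φ hγ hφ => ?_
    na := na_mono h3 a3 c3 k3, conv := conv_mono h4 a4 c4 k4, pt := pt_mono h5 a5 c5 k5
    pt2 := pt2Stmt, htr := trStmt, sub := subStmt, hcut := cut_mono h6 a6 c6 k6
    wt := fun K' T a γ hK' => h7 K' T a γ (k7.trans hK')
    wtK := fun γ hγ => h12 T γ (u6.trans hT) hγ
    as0 := as0_mono h8 a8 c8 k8, rp := hRp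
    rp2 := fun K' T a γ γ' φ j hK' => h9 K' T a γ γ' φ j (by linarith)
    cj := cjStmt, fl := flStmt
    fl2 := fun a da d π dd ha hd hπ => Cv.fl3 da dd (u9.trans hT) ha
      (down hd (by norm_num) (by linarith)) (down hπ (by norm_num) (by linarith))
    lagC := lagC_mono (h10 K k10) a10 c10
    lagK := fun e => lagK_mono (h11 e T ((e11 e).trans (u5.trans hT))) (a11 e) ((b11 e).trans c11)
    zlim := zlim, cylE := fun i => ⟨_, hv' i⟩, coneE := fun e => ⟨_, hf' e⟩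
    kref := fun e γ hγ =>
      let ⟨r, n⟩ := h14 e T γ ((e4 e).trans (u8.trans hT)) hγ
      ⟨r.y2, r.op, n⟩
    core := core_mono hcore c₀ (le_max_left _ _) }, rfl, rfl, rfl⟩
  obtain ⟨g1, g2⟩ := h2 e T γ (S.kS e γ) φ ((e2 e).trans (u4.trans hT)) hγ
    (h13 e T γ ((e3 e).trans (u7.trans hT)) hγ).1 hφ
  exact ⟨ap_mono g1 (a2 e) ((b2 e).trans c2) ((b2 e).trans c2),
    fun X _ _ U hU => ex_mono (g2 X U hU) ((b2 e).trans c2)⟩

/-- The same along a filter. -/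
theorem exists_env (hRp : RpStmt) {ι : Type} {l : Filter ι} (S : ι → Sys J0 Cy Co)
    (S₀ : Sys J0 Cy Co) (hS : ∀ n, S n = S₀.at (S n).T (S n).out (S n).Fc (S n).rest)
    (hT : Tendsto (fun n => (S n).T) l atTop) (hcc : ∀ e, 0 < S₀.cc e)
    (hcyl : ∀ i, ∃ v Z C, CylEnd v (S₀.jS i) (S₀.dS i) (S₀.πS i) Z C)
    (hcone : ∀ e, ∃ h Z B,
      ConeEnd h (S₀.cc e) (S₀.ka e) (S₀.kd e) (S₀.kS e) (S₀.dK e) (S₀.πK e) Z B)
    (hcore : ∃ C₀, ∀ ε > 0, ∀ᶠ n in l, ∃ Cb r₀, 0 < r₀ ∧ CoreL (S n) C₀ ε Cb r₀) :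
    ∀ᶠ n in l, Nonempty (Env (S n)) := by
  obtain ⟨C₀, hcore⟩ := hcore
  obtain ⟨ε, ε0, T₀, h⟩ := exists_env' hRp S₀ hcc hcyl hcone C₀
  filter_upwards [hcore ε ε0, hT.eventually_ge_atTop T₀] with n ⟨Cb, r₀, r0, hn⟩ h1
  rw [hS n] at hn ⊢
  obtain ⟨E, -⟩ := h _ _ _ _ Cb r₀ h1 r0 hn
  exact ⟨E⟩

end Vale.Agent.P218N.Glue
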