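import Vale.Agent.P218N.Glue.Stmt
import Vale.Agent.P218N.End.ApiAB

/-! The glued problem: holomorphy and first variation of the Gaussian area. -/

open Filter Topology Metric Set Complex

noncomputable section

namespace Vale.Agent.P218N.Glue

open Vale.Agent.P218N.End Vale.Agent.P218N.J

variable {J0 Cy Co : Type} [Fintype J0] [Fintype Cy] [Fintype Co] {S : Sys J0 Cy Co} (E : Env S)

namespace FvP

theorem c8 : 100000 * E.C ≤ E.C ^ 8 := by
  have := E.hC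
  calc _ ≤ E.C ^ 2 := by nlinarith
    _ ≤ _ := pow_le_pow_right₀ (by linarith) (by norm_num)

theorem eps : E.ε * (100000 * E.C) ≤ 1 := (mul_le_mul_of_nonneg_left (c8 E) E.ε0.le).trans E.hε

theorem eps' : E.ε ≤ 1 / 100000 := by nlinarith [eps E, E.hC, E.ε0]

theorem del : 2 * E.δ ≤ 1 / E.C := by
  rw [le_div_iff₀ (by linarith [E.hC])]
  nlinarith [eps E, E.hδ, E.hC, E.ε0]

theorem K_ge : 100000 ≤ E.K := by
  have h1 : 100000 ≤ E.C ^ 8 := by linarith [c8 E, E.hC]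
  have h2 : E.δ₁ ≤ 1 := by nlinarith [E.hδ₁, E.hδ₀, E.δ₁0, E.δ₀0, E.hδ, eps' E]
  by_contra h
  nlinarith [E.hK, E.δ₁0]

theorem KT' : 1000 * E.K ≤ S.T := by nlinarith [E.hT, E.hC, K_ge E]

theorem KT : E.K ≤ S.T := by linarith [KT' E, K_ge E]

include E in
theorem T_pos : 0 < S.T := by linarith [KT E, K_ge E]

theorem a_lt {a : ℂ} (h : ‖a‖ * S.T ≤ E.ε) : ‖a‖ < 1 / (100 * S.T) := by
  rw [lt_div_iff₀ (by linarith [T_pos E])]
  linarith [eps' E]

theorem a_le {a : ℂ} (h : ‖a‖ * S.T ≤ E.ε) : ‖a‖ ≤ 1 / E.K :=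
  (a_lt E h).le.trans (one_div_le_one_div_of_le (by linarith [K_ge E]) (by linarith [KT E, K_ge E]))

theorem le_nrm (Γ : Ctr) (μ : ℤ → ℝ) (j : EJ) : ‖j‖ ≤ Γ.nrm μ 1 j := by
  rw [Ctr.nrm, EJ.wt_one]
  exact le_max_left _ _

theorem pi_le_nrm (Γ : Ctr) (μ : ℤ → ℝ) (j : EJ) : ‖Γ.piJ μ j‖ ≤ Γ.nrm μ 1 j := by
  rw [Ctr.nrm, map_one, one_mul]
  exact le_max_right _ _

variable {p : CP J0 Cy Co} {a : Cy → ℂ} {γ : Cy → Path} {j : Cy → EJ} {γc : Co → Path}
  {k : Co → EJ}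

theorem ms_j (h : S.MS E.δ E.r₀ p a γ j γc k) (i : Cy) : ‖j i‖ ≤ 1 / E.C := by
  linarith [le_nrm ((γ i).cyl (a i)) muCyl (j i), h.ncyl i, del E, E.δ0]

theorem ms_k (h : S.MS E.δ E.r₀ p a γ j γc k) {e : Co} (hγ : (γc e).RealP S.T) :
    ‖(k e).y2‖ ≤ 1 / E.C ∧ ‖(k e).op‖ ≤ E.BK + 1 := by
  have h1 := (le_nrm _ _ _).trans (h.ncone e)
  have h2 := (EJ.norm_y2_le _).trans h1
  have h3 := (EJ.norm_op_le _).trans h1
  obtain ⟨h4, h5, -⟩ := E.kref e _ hγ
  rw [EJ.sub_y2] at h2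
  rw [EJ.sub_op] at h3
  constructor <;> linarith [norm_le_norm_add_norm_sub' (k e).y2 (S.kS e (γc e)).y2,
    norm_le_norm_add_norm_sub' (k e).op (S.kS e (γc e)).op, del E, E.hδ, eps' E]

section der
variable {X : Type} [NormedAddCommGroup X] [NormedSpace ℂ X] {U : Set X} {x : X} {p : X → CP J0 Cy Co}

theorem der_out (hn : U ∈ 𝓝 x) (hp : DifferentiableOn ℂ p U) (hb : ‖p x‖ < E.r₀) :
    HasFDerivAt (fun y => S.out (p y)) ((fderiv ℂ S.out (p x)).comp (fderiv ℂ p x)) x :=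
  (E.core.hol.differentiableAt (isOpen_ball.mem_nhds (mem_ball_zero_iff.2 hb))).hasFDerivAt.comp x
    (hp.differentiableAt hn).hasFDerivAt

theorem der_my (hn : U ∈ 𝓝 x) (hp : DifferentiableOn ℂ p U) (hb : ‖p x‖ < E.r₀) {a : X → ℂ}
    {j : X → EJ} (ha : DifferentiableOn ℂ a U) (hj : DifferentiableOn ℂ j U) (h1 : ‖a x‖ * S.T ≤ E.ε)
    {i : Cy} (h : ∀ y ∈ U, S.dS i S.T + (S.out (p y)).1 i = cvY (a y) 0 S.T (tr 0 (j y).y2)) (v : X) :
    fderiv ℂ (fun p : ℂ × WD => cvY p.1 0 S.T p.2) (a x, tr 0 (j x).y2)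
      (fderiv ℂ a x v, tr 0 (fderiv ℂ j x v).y2) =
      (fderiv ℂ S.out (p x) (fderiv ℂ p x v)).1 i := by
  have hT := T_pos E
  have h6 : ‖a x‖ < 1 / (4 * S.T) :=
    (a_lt E h1).trans_le (one_div_le_one_div_of_le (by linarith) (by linarith))
  have dY := (((E.pt.2 S.T (KT E)).2.2.1.differentiableAt (x := (a x, tr 0 (j x).y2))
    ((isOpen_lt (by fun_prop) continuous_const).mem_nhds h6)).hasFDerivAt.comp x
    ((ha.differentiableAt hn).hasFDerivAt.prodMk (((tr 0).comp EJ.y2L).hasFDerivAt.comp x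
      (hj.differentiableAt hn).hasFDerivAt))).congr_of_eventuallyEq
    (f₁ := fun y => S.dS i S.T + (S.out (p y)).1 i) (mem_of_superset hn h)
  simpa using congrArg (fun A : X →L[ℂ] WD => A v) (dY.unique
    ((hasFDerivAt_pi'.1 (der_out E hn hp hb).fst i).const_add (S.dS i S.T)))

theorem der_ky (hn : U ∈ 𝓝 x) (hp : DifferentiableOn ℂ p U) (hb : ‖p x‖ < E.r₀) {k : X → EJ}
    (hk : DifferentiableOn ℂ k U) {e : Co}
    (h : ∀ y ∈ U, S.dK e S.T + (S.out (p y)).2 e = tr 0 (k y).y2) (v : X) :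
    tr 0 (fderiv ℂ k x v).y2 = (fderiv ℂ S.out (p x) (fderiv ℂ p x v)).2 e := by
  have dY := (((tr 0).comp EJ.y2L).hasFDerivAt.comp x
    (hk.differentiableAt hn).hasFDerivAt).congr_of_eventuallyEq
    (f₁ := fun y => S.dK e S.T + (S.out (p y)).2 e) (mem_of_superset hn h)
  simpa using congrArg (fun A : X →L[ℂ] WD => A v) (dY.unique
    ((hasFDerivAt_pi'.1 (der_out E hn hp hb).snd e).const_add (S.dK e S.T)))

end der

end FvP

open FvP

theorem Env.fv : E.Fv := by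
  intro X _ _ U p a γ j γc k hU hp ha hz hg hj hk hγc h
  have ai := differentiableOn_pi.1 ha
  have ji := differentiableOn_pi.1 hj
  have ki := differentiableOn_pi.1 hk
  have hb : MapsTo p U (ball 0 E.r₀) := fun x hx => mem_ball_zero_iff.2 (h x hx).1.ball
  have d1 : DifferentiableOn ℂ (fun x => S.Fc (p x)) U := E.core.holF.comp hp hb
  have d2 := fun i => (E.lagC S.T (KT E)).1 X U (fun x => a x i) (fun x => γ x i) (fun x => j x i)
    hU (ai i) (hz i) (hg i) (ji i)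
    (fun x hx => ⟨a_le E ((h x hx).2 i).1, ((h x hx).2 i).2, ms_j E (h x hx).1 i⟩) 0 1
  have d3 := fun e => (E.lagK e (γc e) (hγc e)).1 X U (fun x => k x e) hU (ki e)
    fun x hx => ms_k E (h x hx).1 (hγc e)
  refine ⟨(d1.add (DifferentiableOn.fun_sum fun i _ => d2 i)).add
    (DifferentiableOn.fun_sum fun e _ => (d3 e).1 0 1), fun γ₀ hγ x hx v => ?_⟩
  have hn := hU.mem_nhds hx
  have hm := (h x hx).1
  have e1 : fderiv ℂ (fun x => S.Fc (p x)) x v = fderiv ℂ S.Fc (p x) (fderiv ℂ p x v) := by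
    rw [fderiv_fun_comp x (E.core.holF.differentiableAt (isOpen_ball.mem_nhds (hb hx)))
      (hp.differentiableAt hn), ContinuousLinearMap.comp_apply]
  have e2 : ∀ i, fderiv ℂ (fun x => (γ x i).FCI (a x i) (j x i) 0 1) x v =
      (γ₀ i).FluxCyl (a x i) (j x i) 1 (fderiv ℂ (fun x => a x i) x v)
        (fderiv ℂ (fun x => j x i) x v).y - flC 0 S.T (S.dS i S.T + (S.out (p x)).1 i)
        (S.πS i S.T + (p x).2.2.1 i) 0 ((fderiv ℂ S.out (p x) (fderiv ℂ p x v)).1 i) := fun i => by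
    obtain ⟨h1, h2⟩ := (h x hx).2 i
    have h3 := hm.cyl i
    have h4 := hm.ncyl i
    have h5 := hm.mp i
    rw [hγ x hx] at h2 h3 h4 h5
    rw [Filter.EventuallyEq.fderiv_eq (f := fun x => (γ₀ i).FCI (a x i) (j x i) 0 1)
      (by filter_upwards [hn] with y hy using by rw [hγ y hy]),
      (E.lagC S.T (KT E)).2.1 X U _ (γ₀ i) _ hU (ai i) (ji i) (fun y hy => hγ y hy ▸
        ⟨a_le E ((h y hy).2 i).1, ((h y hy).2 i).2, ms_j E (h y hy).1 i, (h y hy).1.cyl i⟩) x hx,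
      E.fl.1 _ _ _ _ _ _ _ _ 0 (by norm_num) (by linarith [K_ge E]) h2 h3.1, h2.st,
      E.fl2 _ _ _ _ _ (a_lt E h1) ((norm_tr_apply_le _ _).trans ((EJ.norm_y2_le _).trans
        (ms_j E hm i))) ((norm_tr_apply_le _ _).trans (by
          linarith [pi_le_nrm ((γ₀ i).cyl (a x i)) muCyl (j x i), del E, E.δ0])), hm.my i, h5,
      der_my E hn hp hm.ball (ai i) (ji i) h1 fun y hy => (h y hy).1.my i, Path.piC]
  have e3 : ∀ e, fderiv ℂ (fun x => (γc e).FKI (S.cc e) (S.ka e) (k x e) 0 1) x v =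
      (γc e).FluxCone (S.cc e) (S.ka e) (k x e) 1 (fderiv ℂ (fun x => k x e) x v).y -
        flK (S.cc e) (S.ka e) S.T (S.dK e S.T + (S.out (p x)).2 e) (S.πK e S.T + (p x).2.2.2 e)
          ((fderiv ℂ S.out (p x) (fderiv ℂ p x v)).2 e) := fun e => by
    rw [(d3 e).2 (fun y hy => (h y hy).1.cone e) x hx,
      E.fl.2.1 S.T _ _ _ _ _ 0 (by linarith [KT E, K_ge E]) (hγc e) (hm.cone e).1, (hγc e).st,
      hm.ky e, hm.kp e, der_ky E hn hp hm.ball (ki e) fun y hy => (h y hy).1.ky e, Path.piK]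
  have f2 := fun i => (d2 i).differentiableAt hn
  have f3 := fun e => ((d3 e).1 0 1).differentiableAt hn
  unfold Sys.val
  rw [fderiv_fun_add ((d1.differentiableAt hn).fun_add (DifferentiableAt.fun_sum fun i _ => f2 i))
    (DifferentiableAt.fun_sum fun e _ => f3 e), fderiv_fun_add (d1.differentiableAt hn)
    (DifferentiableAt.fun_sum fun i _ => f2 i), fderiv_fun_sum fun i _ => f2 i,
    fderiv_fun_sum fun e _ => f3 e]
  simp only [_root_.add_apply, _root_.sum_apply, e1, e2, e3, E.core.dF _ hm.ball,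
    Finset.sum_sub_distrib]
  ring

end Vale.Agent.P218N.Glue
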