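import Vale.Agent.P218N.Glue.Stmt
import Vale.Agent.P218N.End.ApiBas
import Vale.Agent.P218N.End.Hol

/-! The final coordinates: pointwise facts about the slope seen from a point of an end. -/

open Filter Topology Metric Set Complex
open scoped ComplexConjugate

noncomputable section

namespace Vale.Agent.P218N.Glue.G2P

open Vale.Agent.P218N.End Vale.Agent.P218N.J

/-- the slope at infinity as seen from the point `t` -/
def sv (γ : Path) (a : ℂ) (j : EJ) (t : ℝ) : ℂ := γ.AA a j t + a ^ 2 * sE a (γ.ze t)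

section point
variable {γ γ' : Path} {a a' : ℂ} {j j' : EJ} {t t' c K T Q : ℝ}

theorem AA_eq (γ : Path) (a : ℂ) (j : EJ) (t : ℝ) :
    γ.AA a j t = (rh a (γ.ze t) * ((1 + tr t j.y) ^ 2).c 0 - 2) / (γ.ze t - 2) := by
  have h : tr t ((1 + j.y) ^ 2) = (1 + tr t j.y) ^ 2 := by
    rw [← trA_apply, map_pow, map_add, map_one, trA_apply]
  rw [Path.AA, ← h, c_tr]

theorem AA_congr (hz : γ.ze t = γ'.ze t') (hy : tr t j.y = tr t' j'.y) :
    γ.AA a j t = γ'.AA a j' t' := by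
  rw [AA_eq, AA_eq, hz, hy]

theorem incr {z g y P : ℝ → ℂ} (hz : ∀ t, HasDerivAt z (g t) t) (hd : ∀ t, c * ‖g t‖ ≤ (g t).re)
    (hy : ∀ t, HasDerivAt y (g t * P t) t) {u v ε : ℝ} (hε : 0 ≤ ε) (huv : u ≤ v)
    (h : ∀ x, ‖P x‖ ≤ ε * c) : ‖y v - y u‖ ≤ ε * (z v - z u).re :=
  image_norm_le_of_norm_deriv_right_le_deriv_boundary (f := fun x => y x - y u)
    (fun x _ => ((hy x).sub_const _).continuousAt.continuousWithinAt)
    (fun x _ => ((hy x).sub_const _).hasDerivWithinAt) (a := u) (b := v)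
    (B := fun x => ε * (z x - z u).re) (B' := fun x => ε * (g x).re) (by simp)
    (fun x => (reCLM.hasFDerivAt.comp_hasDerivAt x ((hz x).sub_const (z u))).const_mul ε)
    (fun x _ => by
      rw [norm_mul]
      calc _ ≤ ‖g x‖ * (ε * c) := by gcongr; exact h x
        _ = ε * (c * ‖g x‖) := by ring
        _ ≤ _ := by gcongr; exact hd x) ⟨huv, le_rfl⟩

theorem re_g (h : AdmP c K T a γ) (t : ℝ) : c * ‖γ.g t‖ ≤ (γ.g t).re := by
  obtain ⟨u, -, h2, -, h4⟩ := h.dir t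
  have h5 := congrArg Complex.re h4
  rw [re_ofReal_mul] at h5
  rw [h5, mul_comm]
  exact mul_le_mul_of_nonneg_left h2 (norm_nonneg _)

/-- jets only depend on the point of the contour -/
theorem same (hc : 0 < c) (h : AdmP c K T a γ) (hj : (γ.cyl a).IsJet j) (hz : γ.ze t = γ.ze t') :
    tr t j.y = tr t' j.y := by
  wlog h1 : t ≤ t' generalizing t t'
  · exact (this hz.symm (le_of_not_ge h1)).symm
  refine W.ext fun m => ?_
  have h2 := incr (y := j.y.c m) h.ok.der (re_g h) (hj m).1 (ε := ‖(γ.cyl a).io * j.op.c m‖ / c)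
    (by positivity) h1 fun x => by
      rw [div_mul_cancel₀ _ hc.ne']
      exact BoundedContinuousFunction.norm_coe_le_norm _ x
  rw [hz, sub_self, zero_re, mul_zero, norm_le_zero_iff, sub_eq_zero] at h2
  rw [c_tr, c_tr, h2]

theorem adm_mono (h : AdmP c K T a γ) {c' K' : ℝ} (hc : c' ≤ c) (hK : K' ≤ K) :
    AdmP c' K' T a γ := by
  refine ⟨h.ok, h.st, fun t => ?_, fun t => hK.trans (h.big t)⟩
  obtain ⟨u, h1, h2, h3, h4⟩ := h.dir t
  exact ⟨u, h1, hc.trans h2, (mul_le_mul_of_nonneg_right hc (norm_nonneg _)).trans h3, h4⟩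

theorem rh_sub (hQ : 2 ≤ Q) : ‖rh a Q - rh a' Q‖ ≤ ‖a - a'‖ * Q := by
  have h : rh a Q - rh a' Q = (a - a') * ((Q - 2 : ℝ) : ℂ) := by
    rw [rh, rh]; push_cast; ring
  rw [h, norm_mul, norm_real, Real.norm_of_nonneg (by linarith)]
  gcongr
  linarith

theorem rh_mem (hQ : 2 ≤ Q) (ha : ‖a‖ ≤ 1 / (4 * Q)) : rh a Q ∈ closedBall (2 : ℂ) (1 / 4) := by
  have h := rh_sub (a := a) (a' := 0) hQ
  have h0 : rh 0 Q = 2 := by simp [rh]
  rw [h0, sub_zero] at h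
  rw [mem_closedBall, dist_eq_norm]
  refine h.trans ?_
  calc _ ≤ 1 / (4 * Q) * Q := by gcongr
    _ = 1 / 4 := by field_simp

theorem ball_facts {w : ℂ} (h : w ∈ closedBall (2 : ℂ) (1 / 4)) :
    7 / 4 ≤ w.re ∧ 7 / 4 ≤ ‖w‖ ∧ ‖w‖ ≤ 9 / 4 := by
  rw [mem_closedBall, dist_eq_norm] at h
  have h2 := (abs_le.1 ((abs_re_le_norm _).trans h)).1
  have h3 := norm_le_insert' w 2
  simp only [sub_re, re_ofNat, Complex.norm_ofNat] at h2 h3
  exact ⟨by linarith, by linarith [re_le_norm w], by linarith⟩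

theorem log_lip {w w' : ℂ} (h : w ∈ closedBall (2 : ℂ) (1 / 4))
    (h' : w' ∈ closedBall (2 : ℂ) (1 / 4)) : ‖log w - log w'‖ ≤ ‖w - w'‖ := by
  have := (convex_closedBall (2 : ℂ) (1 / 4)).norm_image_sub_le_of_norm_hasDerivWithin_le
    (f := log) (f' := fun w => w⁻¹) (C := 1)
    (fun x hx => (hasDerivAt_log (Or.inl (by linarith [(ball_facts hx).1]))).hasDerivWithinAt)
    (fun x hx => by
      rw [norm_inv]
      exact inv_le_one_of_one_le₀ (by linarith [(ball_facts hx).2.1])) h' h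
  rwa [one_mul] at this

theorem log_bd {w : ℂ} (h : w ∈ closedBall (2 : ℂ) (1 / 4)) : ‖log w‖ ≤ 1 := by
  have h1 := log_lip h (mem_closedBall_self (by norm_num))
  have h2 : ‖log 2‖ ≤ 7 / 10 := by
    rw [← ofReal_ofNat, ← ofReal_log zero_le_two, norm_real,
      Real.norm_of_nonneg (Real.log_nonneg one_le_two)]
    linarith [Real.log_two_lt_d9]
  rw [mem_closedBall, dist_eq_norm] at h
  linarith [norm_le_insert' (log w) (log 2)]

theorem sE_real (hQ : 2 ≤ Q) (ha : ‖a‖ ≤ 1 / (4 * Q)) :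
    sE a Q = (Real.log Q : ℝ) - log (rh a Q) := by
  have h : rh a Q ≠ 0 := norm_pos_iff.1 (by linarith [(ball_facts (rh_mem hQ ha)).2.1])
  rw [sE, Om, log_ofReal_mul (by linarith) h, ← ofReal_log (by linarith)]
  ring

theorem sE_bd (hQ : 2 ≤ Q) (ha : ‖a‖ ≤ 1 / (4 * Q)) : ‖sE a Q‖ ≤ 21 * Q ^ (1 / 20 : ℝ) := by
  have h1 : Real.log Q ≤ Q ^ (1 / 20 : ℝ) / (1 / 20) :=
    Real.log_le_rpow_div (by linarith) (by norm_num)
  have h2 : 1 ≤ Q ^ (1 / 20 : ℝ) := Real.one_le_rpow (by linarith) (by norm_num)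
  rw [sE_real hQ ha]
  refine (norm_sub_le _ _).trans ?_
  rw [norm_real, Real.norm_of_nonneg (Real.log_nonneg (by linarith))]
  linarith [log_bd (rh_mem hQ ha)]

theorem rp_inv (hQ : 0 < Q) (p : ℝ) : Q ^ p / Q = Q ^ (p - 1) := (Real.rpow_sub_one hQ.ne' p).symm

theorem sq_lip (hQ : 2 ≤ Q) (ha : ‖a‖ ≤ 1 / (4 * Q)) (ha' : ‖a'‖ ≤ 1 / (4 * Q)) :
    ‖a ^ 2 * sE a Q - a' ^ 2 * sE a' Q‖ ≤ 11 * ‖a - a'‖ * Q ^ (-(19 / 20) : ℝ) := by
  have hQ0 : 0 < Q := by linarith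
  have h1 : ‖sE a Q - sE a' Q‖ ≤ ‖a - a'‖ * Q := by
    rw [sE_real hQ ha, sE_real hQ ha', sub_sub_sub_cancel_left, norm_sub_rev]
    exact (log_lip (rh_mem hQ ha) (rh_mem hQ ha')).trans (rh_sub hQ)
  have h2 : 1 ≤ Q ^ (1 / 20 : ℝ) := Real.one_le_rpow (by linarith) (by norm_num)
  have h3 := sE_bd hQ ha
  have h4 : ‖a + a'‖ ≤ 1 / (4 * Q) + 1 / (4 * Q) := (norm_add_le _ _).trans (add_le_add ha ha')
  have h5 : Q ^ (-(19 / 20) : ℝ) = Q ^ (1 / 20 : ℝ) / Q := by rw [rp_inv hQ0]; norm_num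
  calc _ = ‖(a - a') * ((a + a') * sE a Q) + a' ^ 2 * (sE a Q - sE a' Q)‖ := by congr 1; ring
    _ ≤ ‖a - a'‖ * ((1 / (4 * Q) + 1 / (4 * Q)) * (21 * Q ^ (1 / 20 : ℝ))) +
        (1 / (4 * Q)) ^ 2 * (‖a - a'‖ * Q) := by
      refine (norm_add_le _ _).trans ?_
      rw [norm_mul, norm_mul, norm_mul, norm_pow]
      gcongr
    _ = ‖a - a'‖ / Q * (21 / 2 * Q ^ (1 / 20 : ℝ) + 1 / 16) := by field_simp; ring
    _ ≤ ‖a - a'‖ / Q * (11 * Q ^ (1 / 20 : ℝ)) := by gcongr; linarith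
    _ = _ := by rw [h5]; ring

theorem sE_conj (hQ : 2 ≤ Q) (ha : ‖a‖ ≤ 1 / (4 * Q)) : sE (conj a) Q = conj (sE a Q) := by
  have h1 : rh (conj a) Q = conj (rh a Q) := by simp [rh, map_ofNat]
  have h2 : rh a Q ∈ slitPlane := Or.inl (by linarith [(ball_facts (rh_mem hQ ha)).1])
  rw [sE_real hQ ha, sE_real hQ (by rwa [norm_conj]), h1, log_conj _ (slitPlane_arg_ne_pi h2),
    map_sub, conj_ofReal]

theorem sv_hol {X : Type*} [NormedAddCommGroup X] [NormedSpace ℂ X] {U : Set X} {a : X → ℂ}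
    {j : X → EJ} (ha : DifferentiableOn ℂ a U) (hj : DifferentiableOn ℂ j U) (hQ : 2 ≤ Q)
    (hz : γ.ze t = Q) (h : ∀ x ∈ U, ‖a x‖ ≤ 1 / (4 * Q)) :
    DifferentiableOn ℂ (fun x => sv γ (a x) (j x) t) U := by
  have h1 : DifferentiableOn ℂ (fun x => rh (a x) Q) U := by
    unfold rh
    fun_prop
  have h2 : DifferentiableOn ℂ (fun x => tr t (j x).y) U :=
    (tr t).differentiable.comp_differentiableOn (EJ.differentiable_y.comp_differentiableOn hj)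
  have h3 : DifferentiableOn ℂ (fun x => ((1 + tr t (j x).y) ^ 2).c 0) U :=
    (W.cL 0).differentiable.comp_differentiableOn ((h2.const_add 1).pow 2)
  have h4 : DifferentiableOn ℂ (fun x => log (rh (a x) Q)) U :=
    h1.clog fun x hx => Or.inl (by linarith [(ball_facts (rh_mem hQ (h x hx))).1])
  refine DifferentiableOn.congr (f := fun x => (rh (a x) Q * ((1 + tr t (j x).y) ^ 2).c 0 - 2) *
    ((Q : ℂ) - 2)⁻¹ + a x ^ 2 * ((Real.log Q : ℝ) - log (rh (a x) Q))) ?_ fun x hx => ?_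
  · exact (((h1.mul h3).sub_const 2).mul_const _).add ((ha.pow 2).mul (h4.const_sub _))
  · rw [sv, AA_eq, hz, sE_real hQ (h x hx), div_eq_mul_inv]

/-- the slope seen from a point where the jet is small -/
theorem sv_near {m : ℝ} (hQ : 4 ≤ Q) (hz : γ.ze t = Q) (ha : ‖a‖ ≤ 1 / (4 * Q))
    (hm : ‖tr t j.y2‖ ≤ m) (hm1 : m ≤ 1) :
    ‖sv γ a j t - a‖ ≤ 14 * m / Q + 21 * Q ^ (-(27 / 20) : ℝ) := by
  have hQ0 : 0 < Q := by linarith
  have hQ2 : 2 ≤ Q := by linarith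
  have h0 : 0 ≤ m := (norm_nonneg _).trans hm
  have h1 : ‖tr t j.y‖ ≤ m := by
    rw [EJ.y, tr_mult sym0_le]
    exact (norm_mult_apply_le sym0_le _).trans (by rwa [one_mul])
  have h2 : ‖((1 + tr t j.y) ^ 2).c 0 - 1‖ ≤ 3 * m := by
    have e : ((1 + tr t j.y) ^ 2).c 0 - 1 = (tr t j.y * (1 + 1 + tr t j.y)).c 0 := by
      have e1 : tr t j.y * (1 + 1 + tr t j.y) = (1 + tr t j.y) ^ 2 - 1 := by ring
      rw [e1, W.c_sub, W.c_one, if_pos rfl]
    rw [e]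
    refine ((W.norm_c_le _ _).trans (norm_mul_le _ _)).trans ?_
    have h3 : ‖1 + 1 + tr t j.y‖ ≤ 3 := by
      refine norm_add₃_le.trans ?_
      rw [norm_one]
      linarith
    calc _ ≤ m * 3 := by gcongr
      _ = _ := by ring
  have hne : (Q : ℂ) - 2 ≠ 0 := by
    rw [← ofReal_ofNat, ← ofReal_sub]
    exact ofReal_ne_zero.2 (by linarith)
  have h3 : γ.AA a j t - a = rh a Q * (((1 + tr t j.y) ^ 2).c 0 - 1) / ((Q - 2 : ℝ) : ℂ) := by
    rw [AA_eq, hz, rh]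
    push_cast
    field_simp
    ring
  have h4 : ‖γ.AA a j t - a‖ ≤ 14 * m / Q := by
    rw [h3, norm_div, norm_mul, norm_real, Real.norm_of_nonneg (by linarith)]
    have h5 := (ball_facts (rh_mem hQ2 ha)).2.2
    calc _ ≤ 9 / 4 * (3 * m) / (Q / 2) := by gcongr; linarith
      _ = 27 / 2 * m / Q := by field_simp; ring
      _ ≤ _ := by gcongr; norm_num
  have h5 : ‖a ^ 2 * sE a Q‖ ≤ 21 * Q ^ (-(27 / 20) : ℝ) := by
    have h6 : ‖a‖ ≤ 1 / Q := ha.trans (by gcongr; linarith)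
    have h7 := sE_bd hQ2 ha
    rw [norm_mul, norm_pow]
    calc _ ≤ (1 / Q) ^ 2 * (21 * Q ^ (1 / 20 : ℝ)) := by gcongr
      _ = 21 * (Q ^ (1 / 20 : ℝ) / Q / Q) := by ring
      _ ≤ _ := by
        rw [rp_inv hQ0, rp_inv hQ0]
        gcongr
        · linarith
        · norm_num
  calc _ = ‖(γ.AA a j t - a) + a ^ 2 * sE a Q‖ := by rw [sv, hz]; congr 1; ring
    _ ≤ _ := (norm_add_le _ _).trans (add_le_add h4 h5)

theorem uu_bd {R : ℝ} (hQ : 2 ≤ Q) (hR : Q ≤ R) (ha : ‖a‖ ≤ 1 / (4 * R)) :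
    4 / 9 * Q ≤ uu a Q ∧ uu a Q ≤ 4 / 7 * Q := by
  have hQ0 : 0 < Q := by linarith
  obtain ⟨-, h1, h2⟩ := ball_facts (rh_mem hQ (ha.trans (by gcongr)))
  rw [uu, norm_div, norm_real, Real.norm_of_nonneg hQ0.le, le_div_iff₀ (by linarith),
    div_le_iff₀ (by linarith)]
  constructor <;> nlinarith

theorem ivt (γ : Path) (h0 : (γ.ze 0).re ≤ Q) (h1 : Q ≤ (γ.ze 1).re) :
    ∃ t ∈ Icc (0 : ℝ) 1, (γ.ze t).re = Q :=
  intermediate_value_Icc zero_le_one (continuous_re.comp γ.ze.continuous).continuousOn ⟨h0, h1⟩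

theorem pre_real {P : ℝ} (h : γ.RealP T) (hP : P ≤ (γ.ze 1).re) : γ.Pre P :=
  ⟨1, ⟨zero_le_one, le_rfl⟩, fun t _ => h.im_ze t, hP⟩

theorem le_end (h : γ.RealP T) (t : ℝ) : (γ.ze t).re ≤ (γ.ze 1).re :=
  (le_re_of_dir one_pos h.ok h.dir t).2

end point

theorem fixed {X B : Type*} [NormedAddCommGroup X] [NormedSpace ℂ X] [NormedAddCommGroup B]
    [NormedSpace ℂ B] [CompleteSpace B] {Φ : X → B → B} {U : Set X} (hU : IsOpen U) {R m : ℝ}
    (h0 : 0 ≤ m) (hR : 0 < R) (hm : 8 * m ≤ R)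
    (hd : DifferentiableOn ℂ (fun p : X × B => Φ p.1 p.2) (U ×ˢ ball 0 R))
    (hb : ∀ y ∈ U, ∀ b ∈ ball (0 : B) R, ‖Φ y b‖ ≤ m) :
    ∃ z : X → B, DifferentiableOn ℂ z U ∧ ∀ y ∈ U, z y ∈ ball (0 : B) R ∧ Φ y (z y) = z y := by
  have hs : ball (0 : B) (R / 2) ⊆ ball 0 R := ball_subset_ball (by linarith)
  obtain ⟨z, h1, h2⟩ := exists_fixed (Φ := Φ) hU (b₀ := 0) (r := m) (R := R / 2) (κ := 1 / 2) h0
    (by linarith) (by norm_num) (by norm_num) (hd.mono (prod_mono subset_rfl hs))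
    (fun y hy b h => mem_closedBall_zero_iff.2 (hb y hy b (hs h))) fun y hy b h b' h' => by
      have h3 : DifferentiableOn ℂ (Φ y) (ball 0 R) :=
        hd.comp ((differentiableOn_const y).prodMk differentiableOn_id) fun z hz => ⟨hy, hz⟩
      refine (convex_ball (0 : B) (R / 2)).norm_image_sub_le_of_norm_fderiv_le (𝕜 := ℂ)
        (fun x hx => h3.differentiableAt (isOpen_ball.mem_nhds (hs hx))) (fun x hx => ?_) h' h
      have h4 : ball x (R / 2) ⊆ ball 0 R := ball_subset_ball' (by linarith [mem_ball.1 hx])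
      refine (norm_fderiv_le_of_bdd (half_pos hR) (h3.mono h4)
        fun w hw => hb y hy w (h4 hw)).trans ?_
      rw [div_le_iff₀ (half_pos hR)]
      linarith
  exact ⟨z, h1, fun y hy => ⟨closedBall_subset_ball (by linarith) (h2 y hy).1, (h2 y hy).2.1⟩⟩

/-- a homogeneous function of degree two which is `O(ρ^p)`, `p > 2`, at the scale `ρ` vanishes -/
theorem hom_zero {V Y : Type*} [NormedAddCommGroup V] [NormedSpace ℂ V] [NormedAddCommGroup Y]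
    [NormedSpace ℂ Y] {h : V → Y} {c C : ℝ} {k₀ : ℕ} (hc : 0 < c)
    (h1 : ∀ (t : ℝ) v, h ((t : ℂ) • v) = (t : ℂ) ^ 2 • h v)
    (h2 : ∀ k, k₀ ≤ k → ∀ v, ‖v‖ < c / 2 ^ (k + 1) → ‖h v‖ ≤ C * ((2 : ℝ) ^ k) ^ (-(23 / 10) : ℝ))
    (v : V) : h v = 0 := by
  have hs : 0 < c / (2 * (‖v‖ + 1)) := by positivity
  set s := c / (2 * (‖v‖ + 1)) with hs'
  have h3 : Tendsto (fun k : ℕ => C / s ^ 2 * ((2 : ℝ) ^ k) ^ (-(3 / 10) : ℝ)) atTop (𝓝 0) := by
    simpa using ((tendsto_rpow_neg_atTop (y := 3 / 10) (by norm_num)).comp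
      (tendsto_pow_atTop_atTop_of_one_lt one_lt_two)).const_mul (C / s ^ 2)
  refine norm_le_zero_iff.1 (ge_of_tendsto h3 ?_)
  filter_upwards [eventually_ge_atTop k₀] with k hk
  have hp : (0 : ℝ) < 2 ^ k := by positivity
  have h4 := h2 k hk (((s / 2 ^ k : ℝ) : ℂ) • v) (by
    rw [norm_smul, norm_real, Real.norm_of_nonneg (by positivity), pow_succ, div_mul_eq_mul_div,
      div_lt_div_iff₀ hp (by positivity), hs']
    have h5 : c / (2 * (‖v‖ + 1)) * ‖v‖ * 2 < c := by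
      rw [div_mul_eq_mul_div, div_mul_eq_mul_div, div_lt_iff₀ (by positivity)]
      nlinarith
    nlinarith)
  rw [h1, norm_smul, norm_pow, norm_real, Real.norm_of_nonneg (by positivity)] at h4
  have h6 : ((2 : ℝ) ^ k) ^ (-(23 / 10) : ℝ) = (2 ^ k) ^ (-(3 / 10) : ℝ) / 2 ^ k / 2 ^ k := by
    rw [rp_inv hp, rp_inv hp]; norm_num
  rw [h6] at h4
  rw [div_mul_eq_mul_div, le_div_iff₀ (by positivity)]
  calc _ = (s / 2 ^ k) ^ 2 * ‖h v‖ * (2 ^ k * 2 ^ k) := by field_simp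
    _ ≤ _ := mul_le_mul_of_nonneg_right h4 (by positivity)
    _ = _ := by field_simp

theorem exp_le {x : ℝ} (hx : 1 ≤ x) : Real.exp (-(x / 16)) ≤ 24576 * x ^ (-(23 / 10) : ℝ) := by
  have h0 : 0 < x := by linarith
  have h1 := Real.pow_div_factorial_le_exp (x / 16) (by positivity) 3
  have h2 : x ^ (-(3 : ℕ) : ℝ) ≤ x ^ (-(23 / 10) : ℝ) :=
    Real.rpow_le_rpow_of_exponent_le hx (by norm_num)
  rw [Real.rpow_neg h0.le, Real.rpow_natCast] at h2
  rw [Real.exp_neg]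
  refine (inv_anti₀ (by positivity) h1).trans (le_trans (le_of_eq ?_)
    (mul_le_mul_of_nonneg_left h2 (by norm_num)))
  simp only [Nat.factorial]
  field_simp
  norm_num

end Vale.Agent.P218N.Glue.G2P
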