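import Vale.Agent.P218N.Glue.G2A

/-! The final coordinates: comparison and transfer of the slope, the real truncated problems. -/

open Filter Topology Metric Set Complex
open scoped ComplexConjugate

noncomputable section

namespace Vale.Agent.P218N.Glue.G2P

open Vale.Agent.P218N.End Vale.Agent.P218N.J

variable {J0 Cy Co : Type} [Fintype J0] [Fintype Cy] [Fintype Co] {S : Sys J0 Cy Co} (E : Env S)

/-- the numerical facts -/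
structure Num : Prop where
  T : 100000 ≤ S.T
  K : E.K ≤ S.T
  K0 : 0 < E.K
  n : 2 * E.δ₁ + 2 * E.C * E.δ₀ ≤ E.δ / E.C ^ 2
  c : 2 * E.c₀ ≤ E.δ / E.C ^ 2
  d : E.δ / E.C ^ 2 ≤ E.δ
  q : E.δ / E.C ^ 2 ≤ 1 / 4

theorem num : Num E := by
  have hC := E.hC
  have h0 : 1 ≤ E.C := by linarith
  have h1 : 1 ≤ E.C ^ 8 := one_le_pow₀ h0
  have h2 : E.ε ≤ 1 := (le_mul_of_one_le_right E.ε0.le h1).trans E.hε
  have h3 : E.δ₁ ≤ E.δ₀ := (le_mul_of_one_le_right E.δ₁0.le h1).trans E.hδ₁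
  have h4 : E.δ₀ ≤ 1 := ((le_mul_of_one_le_right E.δ₀0.le h1).trans E.hδ₀).trans (E.hδ.trans h2)
  have h5 : 1 ≤ E.K := by
    by_contra h
    have h6 := h1.trans E.hK
    have h7 := E.δ₁0
    nlinarith
  have h6 : E.c₀ ≤ E.δ₁ := ((le_mul_of_one_le_right E.c₀0.le h1).trans E.hc₀).trans
    ((le_mul_of_one_le_right E.μ0.le h1).trans E.hμ)
  have h7 : 4 ≤ E.C ^ 2 := by nlinarith
  have h8 : 2 * E.δ₁ + 2 * E.C * E.δ₀ ≤ E.δ / E.C ^ 2 := by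
    rw [le_div_iff₀ (by linarith)]
    have h9 : E.C ^ 4 ≤ E.C ^ 8 := pow_le_pow_right₀ h0 (by norm_num)
    have h10 : (2 + 2 * E.C) * E.C ^ 2 ≤ E.C ^ 4 :=
      (mul_le_mul_of_nonneg_right (show _ ≤ E.C ^ 2 by nlinarith) (by linarith)).trans_eq (by ring)
    have := E.δ₀0
    calc _ ≤ (2 * E.δ₀ + 2 * E.C * E.δ₀) * E.C ^ 2 := by gcongr
      _ = E.δ₀ * ((2 + 2 * E.C) * E.C ^ 2) := by ring
      _ ≤ E.δ₀ * E.C ^ 8 := by gcongr; exact h10.trans h9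
      _ ≤ _ := E.hδ₀
  refine ⟨by nlinarith [E.hT], by nlinarith [E.hT], by linarith, h8, ?_,
    div_le_self E.δ0.le (by linarith), ?_⟩
  · nlinarith [mul_pos (show 0 < E.C by linarith) E.δ₀0]
  · rw [div_le_div_iff₀ (by linarith) (by norm_num)]
    linarith [E.hδ]

theorem small {a : ℂ} {R : ℝ} (hR : 0 < R) (h : ‖a‖ * R ≤ E.δ / E.C ^ 2) : ‖a‖ ≤ 1 / (4 * R) := by
  rw [le_div_iff₀ (by linarith)]
  linarith [(num E).q]

theorem adm_real {γ : Path} {a : ℂ} {T R : ℝ} (h : γ.RealP T) (hT : S.T ≤ T)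
    (h1 : (γ.ze 1).re ≤ R) (ha : ‖a‖ ≤ 1 / (4 * R)) : AdmP (1 / 100) E.K T a γ :=
  adm_mono (h.admP (by linarith [(num E).T]) (fun t => (le_end h t).trans h1) ha) (by norm_num)
    ((num E).K.trans hT)

theorem adm_half {γ : Path} {a : ℂ} (h : AdmP (1 / 100) E.K S.T a γ) :
    AdmP (1 / 200) (E.K / 2) S.T a γ := adm_mono h (by norm_num) (by linarith [(num E).K0])

include E in
theorem sg_end {R : ℝ} (h : S.T ≤ R) : ((sg S.T R).ze 1).re = R := by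
  rw [(E.sub.1 _ _ h).2, ofReal_re]

/-- two solutions with the same core parameters see the same slope from the point `R / 2` -/
theorem cmpQ (h1 : E.Restr) (h2 : E.Sl) {R R' Rc D : ℝ} {p p' : CP J0 Cy Co} {a a' : Cy → ℂ}
    {γ : Cy → Path} {j j' : Cy → EJ} {k k' : Co → EJ} (hR : 2 * S.T ≤ R) (hR' : R ≤ R')
    (hc : R ≤ Rc) (e1 : p.1 = p'.1) (e2 : p.2.1 = p'.2.1)
    (hm : S.MS (E.δ / E.C ^ 2) E.r₀ p a γ j (fun _ => sg S.T Rc) k)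
    (hm' : S.MS (E.δ / E.C ^ 2) E.r₀ p' a' (fun _ => sg S.T R') j' (fun _ => sg S.T R') k')
    (hγ : ∀ i, AdmP (1 / 200) (E.K / 2) S.T (a i) (γ i) ∧ (γ i).Pre R)
    (ha : ∀ i, ‖a i‖ * R ≤ E.δ / E.C ^ 2) (ha' : ∀ i, ‖a' i‖ * R' ≤ E.δ / E.C ^ 2) {i : Cy}
    (hD : ‖a i - a' i‖ ≤ D * R ^ (-(27 / 20) : ℝ)) {t t' : ℝ}
    (hz : (γ i).ze t = (R / 2 : ℝ)) (hz' : (sg S.T R').ze t' = (R / 2 : ℝ)) :
    ‖sv (γ i) (a i) (j i) t - sv (sg S.T R') (a' i) (j' i) t'‖ ≤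
      (24576 + 22 * D) * R ^ (-(23 / 10) : ℝ) := by
  have N := num E
  have hT := N.T
  have t1 : S.T ≤ R := by linarith
  have R0 : 0 < R := by linarith
  have r1 := (E.sub.1 _ _ t1).1
  have r2 := (E.sub.1 _ _ (t1.trans hR')).1
  have b1 : ∀ i, ‖a' i‖ * R ≤ E.δ / E.C ^ 2 := fun i =>
    (mul_le_mul_of_nonneg_left hR' (norm_nonneg _)).trans (ha' i)
  have b2 : ∀ z : ℂ, ‖z‖ * R ≤ E.δ / E.C ^ 2 → ‖z‖ * S.T ≤ E.ε := fun z h =>
    ((mul_le_mul_of_nonneg_left t1 (norm_nonneg _)).trans h).trans (N.d.trans E.hδ)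
  have b3 : ∀ i, AdmP (1 / 200) (E.K / 2) S.T (a' i) (sg S.T R') := fun i => adm_half E
    (adm_real E r2 le_rfl (sg_end E (t1.trans hR')).le (small E (by linarith) (ha' i)))
  choose φ γ' g1 g2 g3 g4 using fun i => (E.sub.2.2 (γ i) (1 / 200) S.T R R (by norm_num)
    (hγ i).1.ok (hγ i).1.st (re_g (hγ i).1) (hγ i).2 t1 le_rfl).1
  have g5 : ∀ i, ((γ' i).ze 1).re = R := fun i => by rw [g2, ofReal_re]
  choose φ' g6 g7 using fun i => E.sub.2.1 (γ' i) S.T R' (g1 i) (by linarith) ((g5 i).trans_le hR')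
  obtain ⟨ψ, g8⟩ := E.sub.2.1 _ S.T Rc r1 (by linarith) ((sg_end E t1).trans_le hc)
  obtain ⟨ψ', g9⟩ := E.sub.2.1 _ S.T R' r1 (by linarith) ((sg_end E t1).trans_le hR')
  obtain ⟨m1, m2, -⟩ := h1 _ p a γ γ' j _ (fun _ => sg S.T R) k φ (fun _ => ψ) N.d hm
    (fun i => ⟨b2 _ (ha i), (hγ i).1, (g1 i).ok, g3 i, g4 i⟩)
    fun _ => ⟨(E.sub.1 _ _ (t1.trans hc)).1, r1, g8⟩
  obtain ⟨m3, m4, -⟩ := h1 _ p' a' _ γ' j' _ (fun _ => sg S.T R) k' φ' (fun _ => ψ') N.d hm'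
    (fun i => ⟨b2 _ (b1 i), b3 i, (g1 i).ok, g6 i, g7 i⟩) fun _ => ⟨r2, r1, g9⟩
  obtain ⟨-, s, -⟩ := h2 R p p' a a' γ' _ _ _ _ _ ⟨fun i => ⟨g1 i, (g5 i).ge, (g5 i).le⟩,
    fun _ => ⟨r1, (sg_end E t1).ge⟩⟩ t1 e1 e2 m1 m3 fun i => ⟨ha i, b1 i⟩
  obtain ⟨u, hu, hu'⟩ := ivt (γ' i) (Q := R / 2) (by rw [(g1 i).st, ofReal_re]; linarith)
    (by rw [g5]; linarith)
  have hz2 : (γ' i).ze u = (R / 2 : ℝ) := by rw [(g1 i).ze_eq, hu']
  have z1 : (γ i).ze (φ i u) = (γ i).ze t := by rw [← (g3 i).eq u hu, hz2, hz]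
  have z2 : (sg S.T R').ze (φ' i u) = (sg S.T R').ze t' := by rw [← (g6 i).eq u hu, hz2, hz']
  have s1 := (s i).2 u
  rw [(m2 i u hu).2.2.1, (m4 i u hu).2.2.1, hu',
    AA_congr z1 (same (by norm_num) (hγ i).1 (hm.cyl i).1 z1),
    AA_congr z2 (same (by norm_num) (b3 i) (hm'.cyl i).1 z2),
    show (R - R / 2) / 8 = R / 16 by ring] at s1
  have b4 : ∀ z : ℂ, ‖z‖ * R ≤ E.δ / E.C ^ 2 → ‖z‖ ≤ 1 / (4 * (R / 2)) := fun z h =>
    (small E R0 h).trans (by gcongr; linarith)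
  have s2 := sq_lip (Q := R / 2) (by linarith) (b4 _ (ha i)) (b4 _ (b1 i))
  have s3 : (R / 2) ^ (-(19 / 20) : ℝ) ≤ 2 * R ^ (-(19 / 20) : ℝ) := by
    rw [Real.div_rpow R0.le zero_le_two, Real.rpow_neg zero_le_two, div_inv_eq_mul, mul_comm]
    gcongr
    exact Real.rpow_le_self_of_one_le one_le_two (by norm_num)
  have s4 : R ^ (-(27 / 20) : ℝ) * R ^ (-(19 / 20) : ℝ) = R ^ (-(23 / 10) : ℝ) := by
    rw [← Real.rpow_add R0]; norm_num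
  have s5 : 11 * ‖a i - a' i‖ * (R / 2) ^ (-(19 / 20) : ℝ) ≤
      11 * (D * R ^ (-(27 / 20) : ℝ)) * (2 * R ^ (-(19 / 20) : ℝ)) :=
    mul_le_mul (by linarith) s3 (by positivity) (by linarith [norm_nonneg (a i - a' i)])
  calc _ = ‖((γ i).AA (a i) (j i) t - (sg S.T R').AA (a' i) (j' i) t') +
        (a i ^ 2 * sE (a i) (R / 2 : ℝ) - a' i ^ 2 * sE (a' i) (R / 2 : ℝ))‖ := by
        rw [sv, sv, hz, hz']; congr 1; ring
    _ ≤ _ := (norm_add_le _ _).trans (add_le_add (s1.trans (exp_le (by linarith))) (s2.trans s5))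
    _ = _ := by rw [← s4]; ring

/-- transfer of the slope along the last part of a real path -/
theorem as_seg {R m t₀ : ℝ} {a : ℂ} {γ : Path} {j : EJ} (hγ : γ.RealP S.T) (h1 : γ.ze 1 = R)
    (ha : ‖a‖ ≤ 1 / (4 * R)) (hj : γ.IsCyl a j) (hm0 : 0 ≤ m) (hm : 6 * m ≤ 1 / E.C)
    (hp : ∀ t ∈ Icc (0 : ℝ) 1, R / 4 ≤ (γ.ze t).re → ptN (γ.cyl a) muCyl j t ≤ m)
    (h4 : R / 4 ≤ (γ.ze t₀).re) :
    ‖sv γ a j t₀ - sv γ a j 1‖ ≤ E.C * (324 * m ^ 2 / R + 600 * m / R ^ 2 + 19 / R ^ 3) := by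
  have N := num E
  have hT := N.T
  have e1 : (γ.ze 1).re = R := by rw [h1, ofReal_re]
  obtain ⟨Q, hQ⟩ : ∃ Q, (γ.ze t₀).re = Q := ⟨_, rfl⟩
  have q1 : S.T ≤ Q := hQ ▸ hγ.T_le t₀
  have q2 : Q ≤ R := hQ ▸ (le_end hγ t₀).trans_eq e1
  have q3 : γ.ze t₀ = Q := by rw [hγ.ze_eq, hQ]
  rw [hQ] at h4
  have R0 : 0 < R := by linarith
  obtain ⟨φ, γ', g1, g2, g3, g4, g5⟩ :=
    (E.sub.2.2 γ 1 S.T R Q one_pos hγ.ok hγ.st hγ.dir (pre_real hγ e1.ge) q1 q2).2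
  have r1 : γ'.RealP Q := ⟨g1, g2, fun t => by
    obtain ⟨r, -, h⟩ := g5 t
    rw [h, im_ofReal_mul, hγ.im, mul_zero], fun t => by
    obtain ⟨r, h0, h⟩ := g5 t
    rw [h, re_ofReal_mul]
    exact mul_nonneg h0 (hγ.re _)⟩
  have i0 : (0 : ℝ) ∈ Icc (0 : ℝ) 1 := ⟨le_rfl, zero_le_one⟩
  have i1 : (1 : ℝ) ∈ Icc (0 : ℝ) 1 := ⟨zero_le_one, le_rfl⟩
  have z1 : γ'.ze 1 = γ.ze 1 := by rw [g3.eq 1 i1, g4]
  have z0 : γ.ze (φ 0) = γ.ze t₀ := by rw [← g3.eq 0 i0, g2, q3]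
  have e2 : (γ'.ze 1).re = R := by rw [z1, e1]
  have ad : AdmP (1 / 2) S.T S.T a γ :=
    hγ.admP (by linarith) (fun t => (le_end hγ t).trans_eq e1) ha
  obtain ⟨t1, -, t3, t4, -⟩ := E.htr φ γ γ' (1 / 2) (by norm_num) hγ.ok g1 g3 (re_g ad)
    (hγ.one_le (by linarith))
  obtain ⟨t5, t6, t7, -⟩ := t4 a S.T S.T j (by linarith) ad hj.1
  have hu : ∀ x : ℝ, Q ≤ x → x ≤ R → R / 9 ≤ uu a x ∧ uu a x ≤ 4 / 7 * R := fun x a1 a2 => by
    obtain ⟨b1, b2⟩ := uu_bd (Q := x) (by linarith) a2 ha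
    constructor <;> linarith
  obtain ⟨u1, u2⟩ := hu Q le_rfl q2
  obtain ⟨u3, u4⟩ := hu R q2 le_rfl
  have aR : ‖a‖ ≤ 1 / R := ha.trans (by gcongr; linarith)
  have key := E.as0 E.K Q (6 * m) 0 a γ' (j.cmp φ) le_rfl (N.K.trans q1)
    (aR.trans (one_div_le_one_div_of_le N.K0 (by linarith [N.K]))) (adm_real E r1 q1 e2.le ha)
    ⟨t5, by rw [t6, hj.2, map_zero]⟩ (by linarith) le_rfl (by linarith) fun t ht => by
      have a1 : ptN (γ'.cyl a) muCyl (j.cmp φ) t = ptN (γ.cyl a) muCyl j (φ (cl t)) := by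
        rw [ptN, ptN, t7, ← t1, ← t1, ← t1, ← t1, ← t1]
        rfl
      obtain ⟨b1, b2⟩ := hu _ (r1.T_le t) ((le_end r1 t).trans_eq e2)
      rw [← r1.ze_eq] at b1 b2
      have a2 : (1 / 6 : ℝ) ≤ (uu a Q / uu a (γ'.ze t)) ^ (4 / 5 : ℝ) :=
        (Real.self_le_rpow_of_le_one (by norm_num) (by norm_num) (by norm_num)).trans
          (Real.rpow_le_rpow (by norm_num) (by rw [le_div_iff₀ (by linarith)]; linarith)
            (by norm_num))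
      have a3 := hp (φ t) (g3.maps ht) (by rw [← g3.eq t ht]; exact h4.trans (r1.T_le t))
      rw [a1, cl_of_mem ht, zero_mul, add_zero]
      nlinarith
  have c1 : γ'.AA a (j.cmp φ) 1 = γ.AA a j 1 :=
    AA_congr z1 (by rw [t3, t1, cl_of_mem i1, g4])
  have c0 : γ'.AA a (j.cmp φ) 0 = γ.AA a j t₀ :=
    (AA_congr (g3.eq 0 i0) (by rw [t3, t1, cl_of_mem i0])).trans
      (AA_congr z0 (same (by norm_num) ad hj.1 z0))
  dsimp only at key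
  rw [c1, c0, z1, h1] at key
  have l1 : 1 / uu a Q ≤ 9 / R := by
    rw [div_le_div_iff₀ (by linarith) R0]
    linarith
  have l2 : Real.log (uu a R / uu a Q) ≤ 8 := by
    refine (Real.log_le_sub_one_of_pos (div_pos (by linarith) (by linarith))).trans ?_
    rw [sub_le_iff_le_add, div_le_iff₀ (by linarith)]
    linarith
  have l3 : 0 ≤ 1 / uu a Q := one_div_nonneg.2 (by linarith)
  have l4 : uu a R ≤ R := by linarith
  have l5 : 0 ≤ uu a R := by linarith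
  have C0 : 0 ≤ E.C := by linarith [E.hC]
  calc _ = ‖γ.AA a j 1 - γ.AA a j t₀ + a ^ 2 * (sE a R - sE a Q)‖ := by
        rw [sv, sv, h1, q3, ← norm_neg]; congr 1; ring
    _ ≤ _ := key
    _ = E.C * (36 * m ^ 2 * (1 / uu a Q) + 6 * m * (‖a‖ + 1 / uu a Q) ^ 2 + ‖a‖ ^ 2 *
        (1 / uu a Q + ‖a‖ * (1 + Real.log (uu a R / uu a Q)) + ‖a‖ ^ 2 * uu a R)) := by ring
    _ ≤ E.C * (36 * m ^ 2 * (9 / R) + 6 * m * (1 / R + 9 / R) ^ 2 + ‖a‖ ^ 2 *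
        (9 / R + ‖a‖ * (1 + 8) + (1 / R) ^ 2 * R)) := by gcongr
    _ ≤ E.C * (36 * m ^ 2 * (9 / R) + 6 * m * (1 / R + 9 / R) ^ 2 + (1 / R) ^ 2 *
        (9 / R + 1 / R * (1 + 8) + (1 / R) ^ 2 * R)) := by gcongr
    _ = _ := by field_simp; ring

/-- all ends are truncated at the real point `R` -/
def rt (S : Sys J0 Cy Co) (R : ℝ) : TD Cy Co := ⟨fun _ => sg S.T R, 0, R, 0⟩

theorem prof_pt {CM R t : ℝ} {β : Cy → ℂ} {u : TU Cy Co} {i : Cy} (hCM : 0 ≤ CM) (hR : S.T ≤ R)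
    (h : E.Prof CM (1 / R) (rt S R) β u) (ha : ‖u.a i‖ ≤ 1 / (4 * R)) (ht : t ∈ Icc (0 : ℝ) 1)
    (h4 : R / 4 ≤ ((sg S.T R).ze t).re) : ptN ((sg S.T R).cyl (u.a i)) muCyl (u.j i) t ≤
      (9 * E.C ^ 2 * E.δ₁ * S.T + 2 * (E.C ^ 4 + CM)) * R ^ (-(3 / 4) : ℝ) := by
  have hT := (num E).T
  have R0 : 0 < R := by linarith
  have R1 : 1 ≤ R := by linarith
  obtain ⟨r1, r2⟩ := E.sub.1 _ _ hR
  have h1 := h.pt i t ht
  simp only [rt, Pi.zero_apply, norm_zero, mul_zero, zero_mul, zero_div, add_zero, zero_add, r2]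
    at h1
  obtain ⟨u1, u2⟩ := uu_bd (a := u.a i) (by linarith) hR ha
  obtain ⟨u3, u4⟩ := uu_bd (a := u.a i) (by linarith) le_rfl ha
  have x1 := (le_end r1 t).trans_eq (sg_end E hR)
  obtain ⟨u5, u6⟩ := uu_bd (a := u.a i) (le_trans (by linarith) (r1.T_le t)) x1 ha
  rw [← r1.ze_eq] at u5 u6
  have a1 : (uu (u.a i) S.T / uu (u.a i) ((sg S.T R).ze t)) ^ (9 / 10 : ℝ) ≤
      9 * S.T * R ^ (-(3 / 4) : ℝ) := by
    have b1 : uu (u.a i) S.T / uu (u.a i) ((sg S.T R).ze t) ≤ 9 * S.T / R := by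
      rw [div_le_div_iff₀ (by linarith) R0]
      nlinarith
    refine (Real.rpow_le_rpow (div_nonneg (by linarith) (by linarith)) b1 (by norm_num)).trans ?_
    rw [Real.div_rpow (by linarith) R0.le, div_eq_mul_inv, ← Real.rpow_neg R0.le]
    exact mul_le_mul (Real.rpow_le_self_of_one_le (by linarith) (by norm_num))
      (Real.rpow_le_rpow_of_exponent_le R1 (by norm_num)) (by positivity) (by linarith)
  have a2 : (uu (u.a i) ((sg S.T R).ze t) / uu (u.a i) R) ^ (3 / 5 : ℝ) ≤ 2 :=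
    (Real.rpow_le_rpow (div_nonneg (by linarith) (by linarith))
      (by rw [div_le_iff₀ (by linarith)]; linarith) (by norm_num)).trans
      (Real.rpow_le_self_of_one_le one_le_two (by norm_num))
  have a3 : ‖u.a i‖ ^ 2 * uu (u.a i) R ≤ R ^ (-(3 / 4) : ℝ) := by
    have b1 : ‖u.a i‖ ≤ 1 / R := ha.trans (by gcongr; linarith)
    have b2 : uu (u.a i) R ≤ R := by linarith
    have b3 : 0 ≤ uu (u.a i) R := by linarith
    calc _ ≤ (1 / R) ^ 2 * R := by gcongr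
      _ = R ^ (-1 : ℝ) := by rw [Real.rpow_neg_one]; field_simp
      _ ≤ _ := Real.rpow_le_rpow_of_exponent_le R1 (by norm_num)
  have a4 : (1 / R) ^ (27 / 20 : ℝ) * uu (u.a i) R ^ (3 / 5 : ℝ) ≤ R ^ (-(3 / 4) : ℝ) := by
    rw [one_div, Real.inv_rpow R0.le, ← Real.rpow_neg R0.le]
    refine (mul_le_mul_of_nonneg_left (Real.rpow_le_rpow (by linarith) (show _ ≤ R by linarith)
      (by norm_num)) (by positivity)).trans_eq ?_
    rw [← Real.rpow_add R0]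
    norm_num
  have d0 := E.δ₁0
  rw [mul_assoc CM] at h1
  refine h1.trans ?_
  calc _ ≤ E.C ^ 2 * E.δ₁ * (9 * S.T * R ^ (-(3 / 4) : ℝ)) +
        (E.C ^ 4 * R ^ (-(3 / 4) : ℝ) + CM * R ^ (-(3 / 4) : ℝ)) * 2 := by
        gcongr
        exact Real.rpow_nonneg (div_nonneg (by linarith) (by linarith)) _
    _ = _ := by ring

theorem ms_small {X : XT J0 Cy} {d : TD Cy Co} {β : Cy → ℂ} {b : J0 → ℂ} {u : TU Cy Co} {CM ρ : ℝ}
    (h : E.TS X d β b u) (hp : E.Prof CM ρ d β u) (ho : ∀ e, ‖d.ωc e‖ ≤ E.δ₀) :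
    S.MS (E.δ / E.C ^ 2) E.r₀ (b, X (β, b), u.π) u.a d.γ u.j (fun _ => sg S.T d.Rc) u.k := by
  have N := num E
  have C0 : 0 ≤ E.C := by linarith [E.hC]
  refine ⟨h.ms.ball, h.ms.cyl, fun i => (hp.nc i).trans ?_, h.ms.my, h.ms.mp, h.ms.cone,
    fun e => (hp.nk e).trans (le_trans ?_ N.n), h.ms.ky, h.ms.kp⟩
  · linarith [N.n, E.δ₁0]
  · gcongr
    exact ho e

end Vale.Agent.P218N.Glue.G2P
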