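import Vale.Agent.P218N.Glue.G2B

/-! The final coordinates: the slope at infinity up to second order. -/

open Filter Topology Metric Set Complex
open scoped ComplexConjugate

noncomputable section

namespace Vale.Agent.P218N.Glue.G2P

open Vale.Agent.P218N.End Vale.Agent.P218N.J

variable {J0 Cy Co : Type} [Fintype J0] [Fintype Cy] [Fintype Co] {S : Sys J0 Cy Co} (E : Env S)

/-- solutions of the real truncated problems -/
structure RT (X : XT J0 Cy) (C₀ R : ℝ) (α : Cy → ℂ) (b : J0 → ℂ) (u : TU Cy Co) : Prop where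
  ms : S.MS (E.δ / E.C ^ 2) E.r₀ (b, X (α, b), u.π) u.a (fun _ => sg S.T R) u.j
    (fun _ => sg S.T R) u.k
  sa : ∀ i, ‖u.a i‖ * R ≤ E.δ / E.C ^ 2
  sl : ∀ i, ‖u.a i - α i‖ ≤ C₀ * R ^ (-(27 / 20) : ℝ)
  as : ∀ i t, R / 4 ≤ ((sg S.T R).ze t).re → ‖sv (sg S.T R) (u.a i) (u.j i) t -
    sv (sg S.T R) (u.a i) (u.j i) 1‖ ≤ C₀ * R ^ (-(23 / 10) : ℝ)
  nr : ∀ i, ‖sv (sg S.T R) (u.a i) (u.j i) 1 - α i‖ ≤ C₀ * R ^ (-(27 / 20) : ℝ)

theorem ev_small (A : ℝ) {p η : ℝ} (hp : 0 < p) (hη : 0 < η) :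
    ∀ᶠ R : ℝ in atTop, A * R ^ (-p) ≤ η :=
  ((tendsto_rpow_neg_atTop hp).const_mul A).eventually (ge_mem_nhds (by rwa [mul_zero]))

variable {X : XT J0 Cy} {rX : ℝ}

theorem rt_of {CM C₁ R : ℝ} {α : Cy → ℂ} {b : J0 → ℂ} {u : TU Cy Co} (hCM : 0 ≤ CM)
    (hC₁ : C₁ = 9 * E.C ^ 2 * E.δ₁ * S.T + 2 * (E.C ^ 4 + CM)) (hR : S.T ≤ R)
    (hm : 6 * C₁ * R ^ (-(3 / 4) : ℝ) ≤ 1 / E.C) (ha : ∀ i, ‖u.a i‖ * R ≤ E.δ / E.C ^ 2)
    (h : E.TS X (rt S R) α b u) (hp : E.Prof CM (1 / R) (rt S R) α u) :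
    RT E X (CM + 14 * C₁ + 21 + E.C * (324 * C₁ ^ 2 + 600 * C₁ + 19)) R α b u := by
  have hT := (num E).T
  have hC := E.hC
  have R0 : 0 < R := by linarith
  have R1 : 1 ≤ R := by linarith
  have d0 := E.δ₁0
  have c0 : 0 ≤ C₁ := by rw [hC₁]; positivity
  have c1 : 0 ≤ E.C * (324 * C₁ ^ 2 + 600 * C₁ + 19) := by positivity
  obtain ⟨r1, r2⟩ := E.sub.1 _ _ hR
  have a1 := fun i => small E R0 (ha i)
  have hs : ∀ i, ‖u.a i - α i‖ ≤ CM * R ^ (-(27 / 20) : ℝ) := fun i => by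
    have := (norm_le_pi_norm _ i).trans hp.sl
    rwa [one_div, Real.inv_rpow R0.le, ← Real.rpow_neg R0.le, Pi.sub_apply, norm_sub_rev] at this
  have hpt := fun i t ht h4 => prof_pt E (i := i) (t := t) hCM hR hp (a1 i) ht h4
  rw [← hC₁] at hpt
  have m0 : 0 ≤ C₁ * R ^ (-(3 / 4) : ℝ) := by positivity
  have w0 : 0 ≤ R ^ (-(27 / 20) : ℝ) := by positivity
  refine ⟨ms_small E h hp fun e => by simpa [rt] using E.δ₀0.le, ha,
    fun i => (hs i).trans (by gcongr; linarith), fun i t h4 => ?_, fun i => ?_⟩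
  · refine (as_seg E r1 r2 (a1 i) (h.ms.cyl i) m0 (by rwa [← mul_assoc]) (hpt i) h4).trans ?_
    have b1 : (R ^ (-(3 / 4) : ℝ)) ^ 2 / R ≤ R ^ (-(23 / 10) : ℝ) := by
      rw [← Real.rpow_mul_natCast R0.le, rp_inv R0]
      exact Real.rpow_le_rpow_of_exponent_le R1 (by norm_num)
    have b2 : R ^ (-(3 / 4) : ℝ) / R / R ≤ R ^ (-(23 / 10) : ℝ) := by
      rw [rp_inv R0, rp_inv R0]
      exact Real.rpow_le_rpow_of_exponent_le R1 (by norm_num)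
    have b3 : R ^ (0 : ℝ) / R / R / R ≤ R ^ (-(23 / 10) : ℝ) := by
      rw [rp_inv R0, rp_inv R0, rp_inv R0]
      exact Real.rpow_le_rpow_of_exponent_le R1 (by norm_num)
    rw [Real.rpow_zero] at b3
    calc _ = E.C * (324 * C₁ ^ 2 * ((R ^ (-(3 / 4) : ℝ)) ^ 2 / R) +
          600 * C₁ * (R ^ (-(3 / 4) : ℝ) / R / R) + 19 * (1 / R / R / R)) := by ring
      _ ≤ E.C * (324 * C₁ ^ 2 * R ^ (-(23 / 10) : ℝ) + 600 * C₁ * R ^ (-(23 / 10) : ℝ) +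
          19 * R ^ (-(23 / 10) : ℝ)) := by gcongr
      _ = E.C * (324 * C₁ ^ 2 + 600 * C₁ + 19) * R ^ (-(23 / 10) : ℝ) := by ring
      _ ≤ _ := by gcongr; linarith
  · have b1 : ‖tr 1 (u.j i).y2‖ ≤ C₁ * R ^ (-(3 / 4) : ℝ) := by
      refine le_trans ?_ (hpt i 1 ⟨zero_le_one, le_rfl⟩ (by rw [sg_end E hR]; linarith))
      rw [ptN, add_assoc, add_assoc, add_assoc]
      exact le_add_of_nonneg_right (by positivity)
    have b2 := sv_near (by linarith) r2 (a1 i) b1 (by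
      have : 1 / E.C ≤ 1 := (div_le_one (by linarith)).2 (by linarith)
      linarith)
    have b3 : R ^ (-(3 / 4) : ℝ) / R ≤ R ^ (-(27 / 20) : ℝ) := by
      rw [rp_inv R0]
      exact Real.rpow_le_rpow_of_exponent_le R1 (by norm_num)
    have b4 := mul_le_mul_of_nonneg_left b3 c0
    rw [mul_div_assoc, mul_div_assoc] at b2
    have b5 := mul_nonneg c1 w0
    linarith [norm_sub_le_norm_sub_add_norm_sub (sv (sg S.T R) (u.a i) (u.j i) 1) (u.a i) (α i),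
      hs i]

theorem fam (hX : E.S2ex X rX) : ∃ C₀ ≥ 0, ∀ᶠ R : ℝ in atTop,
    ∃ u : (Cy → ℂ) × (J0 → ℂ) → TU Cy Co, HolU (ball 0 (E.c₀ / R) ×ˢ ball 0 E.r) u ∧
      ∀ α b, ‖α‖ < E.c₀ / R → ‖b‖ < E.r → RT E X C₀ R α b (u (α, b)) := by
  obtain ⟨CM, hCM, ρ₀, hρ₀, H⟩ := hX 1 le_rfl
  have N := num E
  have hT := N.T
  have hC := E.hC
  have d0 := E.δ₁0
  obtain ⟨C₁, hC₁⟩ : ∃ C₁, C₁ = 9 * E.C ^ 2 * E.δ₁ * S.T + 2 * (E.C ^ 4 + CM) := ⟨_, rfl⟩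
  have c0 : 0 ≤ C₁ := by rw [hC₁]; positivity
  refine ⟨CM + 14 * C₁ + 21 + E.C * (324 * C₁ ^ 2 + 600 * C₁ + 19), by positivity, ?_⟩
  filter_upwards [eventually_ge_atTop S.T, eventually_ge_atTop (1 / ρ₀),
    ev_small (8 * CM) (p := 7 / 20) (by norm_num) E.c₀0,
    ev_small (6 * C₁) (p := 3 / 4) (η := 1 / E.C) (by norm_num) (by positivity)] with R a1 a2 a3 a4
  have R0 : 0 < R := by linarith
  obtain ⟨r1, r2⟩ := E.sub.1 _ _ a1
  have e1 : 1 / (1 * (1 / R)) = R := by simp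
  have e2 : E.c₀ / R + E.c₀ / R = 2 * E.c₀ / R := by ring
  have s1 : ∀ a : Cy → ℂ, ‖a‖ < 2 * E.c₀ / R → ∀ i, ‖a i‖ * R ≤ E.δ / E.C ^ 2 := fun a h i =>
    ((le_div_iff₀ R0).1 ((norm_le_pi_norm a i).trans h.le)).trans N.c
  obtain ⟨β, u, hβ, hu, H2⟩ := H (1 / R) (by positivity) ((one_div_le R0 hρ₀).2 a2)
    ((Cy → ℂ) × (J0 → ℂ)) (ball 0 (2 * E.c₀ / R) ×ˢ ball 0 E.r) (fun _ => rt S R) Prod.fst Prod.snd
    ⟨isOpen_ball.prod isOpen_ball, fun _ _ _ _ => rfl, fun _ => differentiableOn_const _,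
      fun _ => differentiableOn_const _, differentiableOn_const _, differentiableOn_const _,
      fun _ _ _ _ _ => ⟨1, ⟨zero_le_one, le_rfl⟩, fun t _ => ⟨r1.im_ze t, rfl⟩,
        e1.le.trans (sg_end E a1).ge⟩⟩ differentiableOn_fst differentiableOn_snd fun p hp => by
      have b1 := fun i => small E R0 (s1 _ (mem_ball_zero_iff.1 hp.1) i)
      refine ⟨⟨fun i => (b1 i).trans ?_, fun i => adm_real E r1 le_rfl (sg_end E a1).le (b1 i),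
        fun i t => ?_, fun i => pre_real r1 (e1.le.trans (sg_end E a1).ge), e1.le,
        fun i => by simpa [rt] using E.δ₀0.le, fun i => by simpa [rt] using E.δ₀0.le⟩,
        mem_ball_zero_iff.1 hp.2⟩
      · rw [one_mul]
        gcongr
        linarith
      · rw [one_div_one_div]
        exact (r1.norm_ze (by linarith) t).le.trans ((le_end r1 t).trans_eq (sg_end E a1))
  have hmem : ∀ z ∈ ball (0 : Cy → ℂ) (E.c₀ / R) ×ˢ ball (0 : J0 → ℂ) E.r,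
      ∀ w ∈ ball (0 : Cy → ℂ) (E.c₀ / R),
      (z.1 + w, z.2) ∈ ball (0 : Cy → ℂ) (2 * E.c₀ / R) ×ˢ ball (0 : J0 → ℂ) E.r :=
    fun z hz w hw => ⟨mem_ball_zero_iff.2 ((norm_add_le _ _).trans_lt
      ((add_lt_add (mem_ball_zero_iff.1 hz.1) (mem_ball_zero_iff.1 hw)).trans_eq e2)), hz.2⟩
  obtain ⟨w, w1, w2⟩ := fixed
    (Φ := fun (z : (Cy → ℂ) × (J0 → ℂ)) (w : Cy → ℂ) => z.1 + w - β (z.1 + w, z.2))
    (U := ball 0 (E.c₀ / R) ×ˢ ball 0 E.r) (isOpen_ball.prod isOpen_ball) (R := E.c₀ / R)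
    (m := CM * (1 / R) ^ (27 / 20 : ℝ)) (by positivity) (div_pos E.c₀0 R0) (by
      rw [one_div, Real.inv_rpow R0.le, ← Real.rpow_neg R0.le, ← mul_assoc,
        show (-(27 / 20) : ℝ) = -(7 / 20) - 1 by norm_num, ← rp_inv R0, ← mul_div_assoc]
      gcongr)
    ((differentiable_fst.fst.add differentiable_snd).differentiableOn.sub (hβ.comp
      ((differentiable_fst.fst.add differentiable_snd).prodMk
        differentiable_fst.snd).differentiableOn fun p hp => hmem _ hp.1 _ hp.2))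
    fun z hz w hw => by
      obtain ⟨b1, -, -, b2⟩ := H2 _ (hmem z hz w hw)
      have := b2.sl
      rwa [b1, norm_sub_rev] at this
  have hd : DifferentiableOn ℂ (fun z : (Cy → ℂ) × (J0 → ℂ) => (z.1 + w z, z.2))
      (ball 0 (E.c₀ / R) ×ˢ ball 0 E.r) :=
    (differentiableOn_fst.add w1).prodMk differentiableOn_snd
  have hm : MapsTo (fun z : (Cy → ℂ) × (J0 → ℂ) => (z.1 + w z, z.2))
      (ball 0 (E.c₀ / R) ×ˢ ball 0 E.r) (ball 0 (2 * E.c₀ / R) ×ˢ ball 0 E.r) :=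
    fun z hz => hmem z hz _ (w2 z hz).1
  refine ⟨fun z => u (z.1 + w z, z.2), ⟨hu.a.comp hd hm, hu.π.comp hd hm, hu.j.comp hd hm,
    hu.k.comp hd hm⟩, fun α b hα hb => ?_⟩
  have hz : (α, b) ∈ ball (0 : Cy → ℂ) (E.c₀ / R) ×ˢ ball (0 : J0 → ℂ) E.r :=
    ⟨mem_ball_zero_iff.2 hα, mem_ball_zero_iff.2 hb⟩
  obtain ⟨b1, -, b2, b3⟩ := H2 _ (hm hz)
  have b4 : β (α + w (α, b), b) = α := by linear_combination -(w2 _ hz).2
  dsimp only at b1 b2 b3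
  rw [b4] at b2 b3
  exact rt_of E hCM hC₁ a1 a4 (by rw [b1]; exact s1 _ (mem_ball_zero_iff.1 (hm hz).1)) b2 b3

variable {E}

theorem RT.adm {C₀ R : ℝ} {α : Cy → ℂ} {b : J0 → ℂ} {u : TU Cy Co} (h : RT E X C₀ R α b u)
    (hR : S.T ≤ R) (i : Cy) {a : ℂ} (ha : ‖a‖ = ‖u.a i‖) :
    AdmP (1 / 200) (E.K / 2) S.T a (sg S.T R) ∧ (sg S.T R).Pre R :=
  ⟨adm_half E (adm_real E (E.sub.1 _ _ hR).1 le_rfl (sg_end E hR).le
    (ha ▸ small E (by linarith [(num E).T]) (h.sa i))), pre_real (E.sub.1 _ _ hR).1 (sg_end E hR).ge⟩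

variable (E) in
include E in
theorem half {R R' : ℝ} (hR : 2 * S.T ≤ R) (hR' : R ≤ R') :
    ∃ t, (sg S.T R').ze t = (R / 2 : ℝ) := by
  have hT := (num E).T
  have h1 : S.T ≤ R' := by linarith
  have r := (E.sub.1 _ _ h1).1
  obtain ⟨t, -, h⟩ := ivt (sg S.T R') (Q := R / 2) (by rw [r.st, ofReal_re]; linarith)
    (by rw [sg_end E h1]; linarith)
  exact ⟨t, by rw [r.ze_eq, h]⟩

theorem RT.cmp (h1 : E.Restr) (h2 : E.Sl) {C₀ R R' Rc D : ℝ} {α : Cy → ℂ} {b : J0 → ℂ}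
    {u : TU Cy Co} (hu : RT E X C₀ R' α b u) (h0 : 0 ≤ C₀) {p : CP J0 Cy Co} {a : Cy → ℂ}
    {γ : Cy → Path} {j : Cy → EJ} {k : Co → EJ} (hR : 2 * S.T ≤ R) (hR' : R ≤ R')
    (hR2 : R' ≤ 2 * R) (hc : R ≤ Rc) (e1 : p.1 = b) (e2 : p.2.1 = X (α, b))
    (hm : S.MS (E.δ / E.C ^ 2) E.r₀ p a γ j (fun _ => sg S.T Rc) k)
    (hγ : ∀ i, AdmP (1 / 200) (E.K / 2) S.T (a i) (γ i) ∧ (γ i).Pre R)
    (ha : ∀ i, ‖a i‖ * R ≤ E.δ / E.C ^ 2) {i : Cy} (hD : ‖a i - α i‖ ≤ D * R ^ (-(27 / 20) : ℝ))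
    {t : ℝ} (hz : (γ i).ze t = (R / 2 : ℝ)) :
    ‖sv (γ i) (a i) (j i) t - sv (sg S.T R') (u.a i) (u.j i) 1‖ ≤
      (24576 + 22 * D + 23 * C₀) * R ^ (-(23 / 10) : ℝ) := by
  have R0 : 0 < R := by linarith [(num E).T]
  obtain ⟨t', ht'⟩ := half E hR hR'
  have a1 := mul_le_mul_of_nonneg_left
    (Real.rpow_le_rpow_of_nonpos R0 hR' (show (-(27 / 20) : ℝ) ≤ 0 by norm_num)) h0
  have a2 := mul_le_mul_of_nonneg_left
    (Real.rpow_le_rpow_of_nonpos R0 hR' (show (-(23 / 10) : ℝ) ≤ 0 by norm_num)) h0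
  have a3 := cmpQ E h1 h2 (D := D + C₀) hR hR' hc e1 e2 hm hu.ms hγ ha hu.sa (i := i) (by
    linarith [norm_sub_le_norm_sub_add_norm_sub (a i) (α i) (u.a i), norm_sub_rev (α i) (u.a i),
      hu.sl i]) hz ht'
  have a4 := hu.as i t' (by rw [ht', ofReal_re]; linarith)
  linarith [norm_sub_le_norm_sub_add_norm_sub (sv (γ i) (a i) (j i) t)
    (sv (sg S.T R') (u.a i) (u.j i) t') (sv (sg S.T R') (u.a i) (u.j i) 1)]

theorem RT.incr (h1 : E.Restr) (h2 : E.Sl) {C₀ R R' : ℝ} {α : Cy → ℂ} {b : J0 → ℂ}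
    {u u' : TU Cy Co} (hu : RT E X C₀ R α b u) (hu' : RT E X C₀ R' α b u') (h0 : 0 ≤ C₀)
    (hR : 2 * S.T ≤ R) (hR' : R ≤ R') (hR2 : R' ≤ 2 * R) (i : Cy) :
    ‖sv (sg S.T R') (u'.a i) (u'.j i) 1 - sv (sg S.T R) (u.a i) (u.j i) 1‖ ≤
      (24576 + 46 * C₀) * R ^ (-(23 / 10) : ℝ) := by
  have hT := (num E).T
  obtain ⟨t, ht⟩ := half E hR le_rfl
  have a1 := hu'.cmp h1 h2 h0 hR hR' hR2 le_rfl rfl rfl hu.ms
    (fun i => hu.adm (by linarith) i rfl) hu.sa (hu.sl i) ht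
  have a2 := hu.as i t (by rw [ht, ofReal_re]; linarith)
  rw [norm_sub_rev] at a1
  linarith [norm_sub_le_norm_sub_add_norm_sub (sv (sg S.T R') (u'.a i) (u'.j i) 1)
    (sv (sg S.T R) (u.a i) (u.j i) t) (sv (sg S.T R) (u.a i) (u.j i) 1)]

theorem RT.real (h1 : E.Restr) (h2 : E.Sl) (h3 : E.CjMS) {C₀ R : ℝ} {α : Cy → ℂ} {b : J0 → ℂ}
    {u u' : TU Cy Co} (hu : RT E X C₀ R α b u) (hu' : RT E X C₀ R (star α) (star b) u')
    (h0 : 0 ≤ C₀) (hR : 2 * S.T ≤ R) (hX : X (star α, star b) = cjF (X (α, b))) (i : Cy) :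
    ‖sv (sg S.T R) (u'.a i) (u'.j i) 1 - conj (sv (sg S.T R) (u.a i) (u.j i) 1)‖ ≤
      (24576 + 46 * C₀) * R ^ (-(23 / 10) : ℝ) := by
  have N := num E
  have hT := N.T
  have t1 : S.T ≤ R := by linarith
  have r := (E.sub.1 _ _ t1).1
  have e := sg_end E t1
  obtain ⟨t, ht⟩ := half E hR le_rfl
  have b1 := fun i => small E (show 0 < R by linarith) (hu.sa i)
  have b2 := (h3 _ R _ _ _ _ _ _ N.d ⟨fun _ => ⟨r, by linarith, e.le⟩, fun _ => ⟨r, by linarith⟩⟩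
    (fun i => ⟨b1 i, ((mul_le_mul_of_nonneg_left t1 (norm_nonneg _)).trans (hu.sa i)).trans
      (N.d.trans E.hδ)⟩) hu.ms).1
  have a1 := hu'.cmp h1 h2 h0 hR le_rfl (by linarith) le_rfl rfl hX.symm b2
    (fun i => hu.adm t1 i (norm_star _)) (fun i => by
      rw [Pi.star_apply, norm_star]; exact hu.sa i) (i := i) (D := C₀) (by
      rw [Pi.star_apply, Pi.star_apply, ← star_sub, norm_star]; exact hu.sl i) ht
  have a2 := hu.as i t (by rw [ht, ofReal_re]; linarith)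
  have a3 : sv (sg S.T R) (star u.a i) (u.j i).cj t = conj (sv (sg S.T R) (u.a i) (u.j i) t) := by
    have b3 := ((E.cj S.T R _ (u.j i) (by linarith) r).1 _ _ e.le (b1 i) (b1 i)).2.2.2.2.2.2.2.1 t
    have b4 := sE_conj (Q := R / 2) (by linarith) ((b1 i).trans (by gcongr <;> linarith))
    rw [sv, sv, ht, map_add, map_mul, map_pow, ← b3, ← b4]
    rfl
  rw [a3, norm_sub_rev] at a1
  rw [← norm_conj, map_sub] at a2
  linarith [norm_sub_le_norm_sub_add_norm_sub (sv (sg S.T R) (u'.a i) (u'.j i) 1)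
    (conj (sv (sg S.T R) (u.a i) (u.j i) t)) (conj (sv (sg S.T R) (u.a i) (u.j i) 1))]

end Vale.Agent.P218N.Glue.G2P
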