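import Vale.Agent.P218N.Glue.Bas
import Vale.Agent.P218N.Core.Out
import Vale.Agent.P218N.Core.PathB
import Vale.Agent.P218N.End.ApiFl

/-! The normalised core problem from the core box. -/

open Filter Topology Metric Set Complex
open scoped ComplexConjugate

noncomputable section

namespace Vale.Agent.P218N.Glue

open Vale.Agent.P218N.End Vale.Agent.P218N.J Vale.Agent.P218N.Core Vale.Agent.P218N.H

variable {w : E3 → ℝ} {D : EndData w} {N : ℕ}

/-- the constraint on a cylindrical end from the mode `0` -/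
def yC (s : ℝ) : WD →L[ℂ] ℂ := (s : ℂ)⁻¹ • W.cL 0
/-- the rotation from the modes `±1` -/
def cC (s : ℝ) : WD →L[ℂ] ℂ × ℂ :=
  ContinuousLinearMap.prod ((2 * s : ℂ)⁻¹ • (W.cL 1 + W.cL (-1) : WD →L[ℂ] ℂ))
    ((I * (2 * s : ℂ)⁻¹) • (W.cL 1 - W.cL (-1) : WD →L[ℂ] ℂ))

/-- the parameters of the core box -/
def toPar (T : ℝ) (g ρ : Fin D.b → ℝ) :
    CP (Fin N) (Fin D.b) (Fin D.a) →L[ℂ] Core.Par D (Fin N ⊕ Fin D.b) :=
  (ContinuousLinearMap.pi (Sum.rec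
    (fun k => (ContinuousLinearMap.proj k).comp (ContinuousLinearMap.fst ℂ _ _))
    fun i => (yC (g i * T)).comp ((ContinuousLinearMap.proj i).comp
      ((ContinuousLinearMap.fst ℂ _ _).comp (ContinuousLinearMap.snd ℂ _ _))))).prod
  ((ContinuousLinearMap.pi fun i => (cC (ρ i * √T)).comp ((ContinuousLinearMap.proj i).comp
      ((ContinuousLinearMap.fst ℂ _ _).comp (ContinuousLinearMap.snd ℂ _ _)))).prod
  (ContinuousLinearMap.pi (Sum.rec
    (fun e => (ContinuousLinearMap.proj e).comp ((ContinuousLinearMap.snd ℂ _ _).comp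
      ((ContinuousLinearMap.snd ℂ _ _).comp (ContinuousLinearMap.snd ℂ _ _))))
    fun i => (ContinuousLinearMap.proj i).comp ((ContinuousLinearMap.fst ℂ _ _).comp
      ((ContinuousLinearMap.snd ℂ _ _).comp (ContinuousLinearMap.snd ℂ _ _))))))

theorem toPar_apply (T : ℝ) (g ρ : Fin D.b → ℝ) (p : CP (Fin N) (Fin D.b) (Fin D.a)) :
    toPar T g ρ p = (Sum.elim p.1 fun i => yC (g i * T) (p.2.1 i),
      fun i => cC (ρ i * √T) (p.2.1 i), Sum.elim p.2.2.2 p.2.2.1) :=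
  Prod.ext (funext fun k => by cases k <;> rfl) (Prod.ext rfl (funext fun k => by cases k <;> rfl))

/-- the data at the end of the paths -/
def trD : (En D → EJ) →L[ℂ] Dat (Fin D.b) (Fin D.a) :=
  (ContinuousLinearMap.pi fun i => ((tr 1).comp (ContinuousLinearMap.fst ℂ _ _)).comp
    (ContinuousLinearMap.proj (R := ℂ) (φ := fun _ : En D => EJ) (.inr i))).prod
  (ContinuousLinearMap.pi fun e => ((tr 1).comp (ContinuousLinearMap.fst ℂ _ _)).comp
    (ContinuousLinearMap.proj (R := ℂ) (φ := fun _ : En D => EJ) (.inl e)))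

theorem trD_apply (j : En D → EJ) :
    trD j = (fun i => tr 1 (j (.inr i)).y2, fun e => tr 1 (j (.inl e)).y2) := rfl

/-- the system of the glued problem -/
def sysOf (jE : En D → Path → EJ) (dS πS : En D → ℝ → WD) (zm : ℝ) (n : ℕ) (g ρ : Fin D.b → ℝ)
    (jc : Core.Par D (Fin N ⊕ Fin D.b) → En D → EJ)
    (lm : Core.Par D (Fin N ⊕ Fin D.b) → Fin N ⊕ Fin D.b → ℂ)
    (Fc : Core.Par D (Fin N ⊕ Fin D.b) → ℂ) : Sys (Fin N) (Fin D.b) (Fin D.a) where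
  T := TT zm n
  jS i := jE (.inr i)
  dS i := dS (.inr i)
  πS i := πS (.inr i)
  kS e := jE (.inl e)
  dK e := dS (.inl e)
  πK e := πS (.inl e)
  cc := cc
  ka := ka
  kd := kd
  out p := trD (jc (toPar (TT zm n) g ρ p)) -
    (fun i => dS (.inr i) (TT zm n), fun e => dS (.inl e) (TT zm n))
  Fc p := Fc (toPar (TT zm n) g ρ p)
  rest p v := -∑ k, lm (toPar (TT zm n) g ρ p) k * (toPar (TT zm n) g ρ v).1 k +
    ∑ e, TqE (gam zm 4 n) e (jc (toPar (TT zm n) g ρ p) e) 1 fun b =>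
      al ((toPar (TT zm n) g ρ p).2.1 b) ((toPar (TT zm n) g ρ v).2.1 b)

/-- the constant of the normalisation -/
def KK (g ρ : Fin D.b → ℝ) : ℝ := ∑ b, (|g b|⁻¹ + |ρ b|⁻¹) + 1

namespace Lk

theorem strict {E F : Type} [NormedAddCommGroup E] [NormedSpace ℂ E] [NormedAddCommGroup F]
    [NormedSpace ℂ F] {f : E → F} {r : ℝ} (hr : 0 < r) (hd : DifferentiableOn ℂ f (ball 0 r))
    {η : ℝ} (hη : 0 < η) : ∃ s > 0, ∀ p p', ‖p‖ < s → ‖p'‖ < s →
      ‖f p - f p' - fderiv ℂ f 0 (p - p')‖ ≤ η * ‖p - p'‖ := by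
  have hc := (hd.differentiableAt (ball_mem_nhds _ hr)).continuousAt
  obtain ⟨r1, h1, hb⟩ := Metric.eventually_nhds_iff_ball.1
    ((hc.eventually (ball_mem_nhds _ one_pos)).and (ball_mem_nhds _ hr))
  have hd1 := hd.mono fun y hy => (hb y hy).2
  set M := ‖f 0‖ + 1 with hM
  have M0 : 0 < M := by positivity
  have hM1 : ∀ y ∈ ball (0 : E) r1, ‖f y‖ ≤ M := fun y hy => by
    have := (mem_ball_iff_norm.1 (hb y hy).1).le
    linarith [norm_sub_norm_le (f y) (f 0)]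
  set s := min (r1 / 2) (η * r1 ^ 2 / (32 * M)) with hs
  have s0 : 0 < s := by positivity
  have s1 : s ≤ r1 / 2 := min_le_left _ _
  have s2 : s ≤ η * r1 ^ 2 / (32 * M) := min_le_right _ _
  have hh : DifferentiableOn ℂ (fun y => f y - f 0 - fderiv ℂ f 0 y) (ball 0 r1) := by fun_prop
  have key : ∀ x ∈ ball (0 : E) s, ‖fderiv ℂ (fun y => f y - f 0 - fderiv ℂ f 0 y) x‖ ≤ η := by
    intro x hx
    have sub : ball x s ⊆ ball 0 (2 * s) := ball_subset_ball' (by rw [mem_ball] at hx; linarith)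
    refine (norm_fderiv_le_of_bdd (M := 4 * M * (2 * s / r1) ^ 2) s0
      (hh.mono (sub.trans (ball_subset_ball (by linarith)))) fun y hy => ?_).trans ?_
    · have hy' := mem_ball_zero_iff.1 (sub hy)
      have := schwarz2 hd1 hM1 (h := y) (by linarith)
      rw [zero_add] at this
      exact this.trans (by gcongr)
    · rw [le_div_iff₀ (by positivity)] at s2
      rw [div_le_iff₀ s0, div_pow, ← mul_div_assoc, ← mul_div_assoc, div_le_iff₀ (by positivity)]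
      nlinarith
  refine ⟨s, s0, fun p p' hp hp' => ?_⟩
  have := (convex_ball (0 : E) s).norm_image_sub_le_of_norm_fderiv_le (fun y hy =>
    hh.differentiableAt (isOpen_ball.mem_nhds (ball_subset_ball (by linarith) hy))) key
    (mem_ball_zero_iff.2 hp') (mem_ball_zero_iff.2 hp)
  convert this using 2
  rw [map_sub]
  abel

theorem norm_yC (s : ℝ) (x : WD) : ‖yC s x‖ ≤ |s|⁻¹ * ‖x‖ := by
  rw [yC, smul_apply, norm_smul, norm_inv, Complex.norm_real, Real.norm_eq_abs]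
  exact mul_le_mul_of_nonneg_left (x.norm_c_le 0) (by positivity)

theorem norm_cC (s : ℝ) (x : WD) : ‖cC s x‖ ≤ |s|⁻¹ * ‖x‖ := by
  have h1 := x.norm_c_le 1
  have h2 := x.norm_c_le (-1)
  have e : ‖(2 * s : ℂ)⁻¹‖ = |s|⁻¹ / 2 := by
    rw [norm_inv, norm_mul, Complex.norm_real, Real.norm_eq_abs, mul_inv, Complex.norm_ofNat]; ring
  have h0 : 0 ≤ |s|⁻¹ := by positivity
  refine max_le ?_ ?_
  · change ‖(2 * s : ℂ)⁻¹ * (x.c 1 + x.c (-1))‖ ≤ _
    rw [norm_mul, e]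
    nlinarith [norm_add_le (x.c 1) (x.c (-1))]
  · change ‖I * (2 * s : ℂ)⁻¹ * (x.c 1 - x.c (-1))‖ ≤ _
    rw [norm_mul, norm_mul, e, Complex.norm_I, one_mul]
    nlinarith [norm_sub_le (x.c 1) (x.c (-1))]

theorem low_eq {s t : ℝ} (hs : s ≠ 0) (ht : t ≠ 0) (x : WD) :
    low x = (yC s x * s) • W.one1 0 (1 : ℂ) + (t : ℂ) • Rc (cC t x) := W.ext fun m => by
  have hs' : (s : ℂ) ≠ 0 := by exact_mod_cast hs
  have ht' : (t : ℂ) ≠ 0 := by exact_mod_cast ht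
  have e0 : yC s x = (s : ℂ)⁻¹ * x.c 0 := rfl
  have e1 : (cC t x).1 = (2 * t : ℂ)⁻¹ * (x.c 1 + x.c (-1)) := rfl
  have e2 : (cC t x).2 = I * (2 * t : ℂ)⁻¹ * (x.c 1 - x.c (-1)) := rfl
  rw [c_bwd, W.c_add, W.c_smul, W.c_smul, Rc, W.c_add, W.c_one1, W.c_one1, W.c_one1, e0, e1, e2]
  by_cases h0 : m = 0
  · subst h0; simp [sdCyl, p1_ne_p0]; field_simp
  by_cases h1 : m = 1
  · subst h1; simp [sdCyl, p1_ne_p0]; field_simp; ring_nf; simp; ring
  by_cases h2 : m = -1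
  · subst h2; simp [sdCyl, p1_ne_p0]; field_simp; ring_nf; simp; ring
  have : ¬|m| ≤ 1 := fun h => by rw [abs_le] at h; omega
  simp [sdCyl, this, h0, h1, h2]

theorem toPar_cj (T : ℝ) (g ρ : Fin D.b → ℝ) (p : CP (Fin N) (Fin D.b) (Fin D.a)) :
    toPar T g ρ (cjP p) = Core.cjP (toPar T g ρ p) := by
  rw [toPar_apply, toPar_apply]
  refine Prod.ext (funext fun k => ?_) (Prod.ext (funext fun i => Prod.ext ?_ ?_)
    (funext fun k => by cases k <;> rfl))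
  · cases k with
    | inl k => rfl
    | inr i =>
      change (((g i * T : ℝ) : ℂ))⁻¹ * star ((p.2.1 i).c (-0)) =
        star ((((g i * T : ℝ) : ℂ))⁻¹ * (p.2.1 i).c 0)
      simp
  · change (2 * ((ρ i * √T : ℝ) : ℂ))⁻¹ * (star ((p.2.1 i).c (-1)) + star ((p.2.1 i).c (- -1))) =
      star ((2 * ((ρ i * √T : ℝ) : ℂ))⁻¹ * ((p.2.1 i).c 1 + (p.2.1 i).c (-1)))
    simp [add_comm]
  · change I * (2 * ((ρ i * √T : ℝ) : ℂ))⁻¹ *
      (star ((p.2.1 i).c (-1)) - star ((p.2.1 i).c (- -1))) =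
      star (I * (2 * ((ρ i * √T : ℝ) : ℂ))⁻¹ * ((p.2.1 i).c 1 - (p.2.1 i).c (-1)))
    simp
    ring

theorem KK_pos (g ρ : Fin D.b → ℝ) : 1 ≤ KK g ρ :=
  le_add_of_nonneg_left (Finset.sum_nonneg fun _ _ => by positivity)

/-- the derivative in the direction of the slow data -/
theorem dx {zm C0 ε : ℝ} {n : ℕ} {g ρ : Fin D.b → ℝ} (hT : 0 < TT zm n) (hε : 0 ≤ ε)
    (hg : ∀ b, g b ≠ 0 ∧ ρ b ≠ 0) {A : Core.Par D (Fin N ⊕ Fin D.b) →L[ℂ] En D → EJ}
    (h : OutF zm n C0 ε g ρ A) (x : Fin D.b → WD) (e : En D) :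
    ‖tr 1 (A (toPar (TT zm n) g ρ (0, x, 0)) e).y2 - Sum.elim (fun _ => 0) (fun i => low (x i)) e‖
      ≤ ε * KK g ρ * ‖x‖ := by
  set T := TT zm n with hTd
  have sT : 0 < √T := Real.sqrt_pos.2 hT
  set c : Fin D.b → ℂ × ℂ := fun i => cC (ρ i * √T) (x i) with hc
  have e1 : toPar T g ρ ((0 : Fin N → ℂ), x, 0) = ∑ b, yC (g b * T) (x b) •
      ((Pi.single (.inr b) 1, 0, 0) : Core.Par D (Fin N ⊕ Fin D.b)) + (0, c, 0) := by
    rw [toPar_apply]
    refine Prod.ext (funext fun k => ?_) (Prod.ext ?_ (funext fun k => ?_))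
    · cases k <;> simp [Prod.fst_sum, Pi.single_apply]
    · simp [Prod.snd_sum, hc]
    · cases k <;> simp [Prod.snd_sum]
  let L : Core.Par D (Fin N ⊕ Fin D.b) →L[ℂ] WD := ((tr 1).comp (ContinuousLinearMap.fst ℂ _ _)).comp
    ((ContinuousLinearMap.proj e).comp A)
  have hL : ∀ d, tr 1 (A d e).y2 = L d := fun _ => rfl
  have T0 : (T : ℂ) ≠ 0 := by exact_mod_cast hT.ne'
  have S0 : ((√T : ℝ) : ℂ) ≠ 0 := by exact_mod_cast sT.ne'
  have e2 : Sum.elim (fun _ => 0) (fun i => low (x i)) e = ∑ b, (yC (g b * T) (x b) * T) •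
      (if e = .inr b then (g b : ℂ) • W.one1 0 (1 : ℂ) else 0) + ((√T : ℝ) : ℂ) •
        Sum.elim (fun _ => 0) (fun b => (ρ b : ℂ) • Rc (c b)) e := by
    cases e with
    | inl e => simp
    | inr i =>
      rw [Finset.sum_eq_single i (fun b _ hb => by simp [hb.symm]) (by simp), if_pos rfl,
        Sum.elim_inr, Sum.elim_inr, low_eq (mul_ne_zero (hg i).1 hT.ne')
          (mul_ne_zero (hg i).2 sT.ne'), smul_smul, smul_smul]
      push_cast
      congr 2 <;> ring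
  rw [hL, e1, e2, map_add, map_sum, add_sub_add_comm, ← Finset.sum_sub_distrib]
  have b1 : ∀ b, ‖L (yC (g b * T) (x b) • (Pi.single (.inr b) 1, 0, 0)) -
      (yC (g b * T) (x b) * T) • (if e = .inr b then (g b : ℂ) • W.one1 0 (1 : ℂ) else 0)‖ ≤
      ε * |g b|⁻¹ * ‖x‖ := fun b => by
    have := h.y b e
    rw [hL] at this
    rw [map_smul, ← mul_inv_cancel_right₀ T0 (yC (g b * T) (x b)), mul_smul _ (T : ℂ)⁻¹,
      mul_inv_cancel_right₀ T0, ← smul_sub, norm_smul, norm_mul, Complex.norm_real,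
      Real.norm_of_nonneg hT.le]
    have h1 := (norm_yC (g b * T) (x b)).trans
      (mul_le_mul_of_nonneg_left (norm_le_pi_norm x b) (by positivity))
    rw [abs_mul, abs_of_pos hT, mul_inv] at h1
    calc _ ≤ |g b|⁻¹ * T⁻¹ * ‖x‖ * T * ε := by gcongr
      _ = _ := by field_simp
  have b2 : ‖L (0, c, 0) - ((√T : ℝ) : ℂ) •
      Sum.elim (fun _ => 0) (fun b => (ρ b : ℂ) • Rc (c b)) e‖ ≤ ε * (∑ b, |ρ b|⁻¹) * ‖x‖ := by
    have := h.c c e
    rw [hL] at this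
    rw [← smul_inv_smul₀ S0 (L _), ← smul_sub, norm_smul, Complex.norm_real,
      Real.norm_of_nonneg sT.le]
    have h1 : ‖c‖ ≤ (∑ b, |ρ b|⁻¹) * (√T)⁻¹ * ‖x‖ :=
      (pi_norm_le_iff_of_nonneg (by positivity)).2 fun b => (norm_cC _ _).trans (by
        rw [abs_mul, abs_of_pos sT, mul_inv]
        gcongr
        · exact Finset.single_le_sum (f := fun b => |ρ b|⁻¹) (fun _ _ => by positivity)
            (Finset.mem_univ b)
        · exact norm_le_pi_norm x b)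
    calc _ ≤ √T * (ε * ((∑ b, |ρ b|⁻¹) * (√T)⁻¹ * ‖x‖)) := by
          gcongr; exact this.trans (by gcongr)
      _ = _ := by field_simp
  refine (norm_add_le _ _).trans ((add_le_add ((norm_sum_le _ _).trans
    (Finset.sum_le_sum fun b _ => b1 b)) b2).trans ?_)
  rw [← Finset.sum_mul, ← Finset.mul_sum, KK, Finset.sum_add_distrib]
  nlinarith [mul_nonneg hε (norm_nonneg x)]

variable {jE : En D → Path → EJ} {dS πS : En D → ℝ → WD} {Z C zm : ℝ} {n : ℕ}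

theorem base (hP : PathF D zm) (hE : RealEnds D jE dS πS Z C) (hZ : Z ≤ zm) (hn : 4 ≤ n)
    (e : En D) : tr 1 (Res 4 n (jE e (gam zm 0 n))).y2 = dS e (TT zm n) ∧
      piT (gam zm 4 n) e (Res 4 n (jE e (gam zm 0 n))) = πS e (TT zm n) := by
  have hr := hP.real 0 n
  have hZ' : Z ≤ zm + (0 : ℕ) := by simpa using hZ
  have h1 : ((gam zm 0 n).ze 1).re = TT zm n := by
    rw [hP.ze, Complex.ofReal_re, hP.hi 0 n 1 (Nat.zero_le _)]
    unfold tau
    have : (0 : ℝ) < (1 / 2) ^ (n + 1) := by positivity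
    linarith
  cases e with
  | inl i =>
    obtain ⟨a, b⟩ := hP.piT_res 0 4 n (.inl i) _ (by omega) hn ((hE.cone i).sol _ _ hZ' hr).1
    obtain ⟨c, d⟩ := (hE.cone i).trs _ _ hZ' hr 1
    exact ⟨by rw [b, c, h1], by rw [a, ← h1, ← d]; rfl⟩
  | inr i =>
    obtain ⟨a, b⟩ := hP.piT_res 0 4 n (.inr i) _ (by omega) hn ((hE.cyl i).sol _ _ hZ' hr).1
    obtain ⟨c, d⟩ := (hE.cyl i).trs _ _ hZ' hr 1
    exact ⟨by rw [b, c, h1], by rw [a, ← h1, ← d]; rfl⟩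

theorem ze_one (hP : PathF D zm) (hn : 4 ≤ n) : (gam zm 4 n).ze 1 = TT zm n := by
  rw [hP.ze, hP.hi 4 n 1 hn]
  unfold tau
  have : (0 : ℝ) < (1 / 2) ^ (n + 1) := by positivity
  linarith

theorem tq_zero (γ : Path) (e : En D) (j : EJ) (c : Fin D.b → ℂ × ℂ) :
    TqE γ e j 1 (fun b => al (c b) 0) = 0 := by
  cases e <;> simp [TqE, TqCyl, tqCyl, al]

theorem lips {J0 Cy Co : Type} [Fintype J0] [Fintype Cy] [Fintype Co] {f : CP J0 Cy Co → Dat Cy Co}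
    {A : CP J0 Cy Co →L[ℂ] Dat Cy Co} {ε M Cb : ℝ} (hε1 : ε ≤ 1) (hε : 0 < ε) (hC : ‖A‖ + 1 ≤ Cb)
    {p p' : CP J0 Cy Co} (hs : ‖f p - f p' - A (p - p')‖ ≤ ε / 2 * ‖p - p'‖)
    (x1 : ∀ x i, ‖(A (0, x, 0)).1 i - low (x i)‖ ≤ ε / 2 * ‖x‖)
    (x2 : ∀ x e, ‖(A (0, x, 0)).2 e‖ ≤ ε / 2 * ‖x‖)
    (o1 : ∀ π i, ‖(A (0, 0, π)).1 i‖ ≤ M * ‖π‖) (o2 : ∀ π e, ‖(A (0, 0, π)).2 e‖ ≤ M * ‖π‖)
    (o3 : ∀ π e, ‖ibr ((A (0, 0, π)).2 e)‖ ≤ ε / 2 * ‖π‖) :
    (∀ i, ‖(f p).1 i - (f p').1 i - low (p.2.1 i - p'.2.1 i)‖ ≤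
      Cb * ‖p.1 - p'.1‖ + ε * ‖p.2.1 - p'.2.1‖ + (M + 1) * ‖p.2.2 - p'.2.2‖) ∧
    (∀ e, ‖(f p).2 e - (f p').2 e‖ ≤
      Cb * ‖p.1 - p'.1‖ + ε * ‖p.2.1 - p'.2.1‖ + (M + 1) * ‖p.2.2 - p'.2.2‖) ∧
    ∀ e, ‖ibr ((f p).2 e - (f p').2 e)‖ ≤
      Cb * ‖p.1 - p'.1‖ + ε * (‖p.2.1 - p'.2.1‖ + ‖p.2.2 - p'.2.2‖) := by
  obtain ⟨h, e1, b⟩ : ∃ h : Dat Cy Co, f p - f p' =
        h + A (0, p.2.1 - p'.2.1, 0) + A (0, 0, p.2.2 - p'.2.2) ∧
      ‖h‖ ≤ Cb * ‖p.1 - p'.1‖ + ε / 2 * (‖p.2.1 - p'.2.1‖ + ‖p.2.2 - p'.2.2‖) := by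
    refine ⟨A (p.1 - p'.1, 0, 0) + (f p - f p' - A (p - p')), ?_, ?_⟩
    · have : p - p' = (p.1 - p'.1, 0, 0) + (0, p.2.1 - p'.2.1, 0) + (0, 0, p.2.2 - p'.2.2) := by
        ext <;> simp
      rw [this, map_add, map_add]
      abel
    · have h1 := A.le_opNorm (p.1 - p'.1, 0, 0)
      have n1 := norm_nonneg (p.1 - p'.1)
      have h2 : ‖p - p'‖ ≤ ‖p.1 - p'.1‖ + (‖p.2.1 - p'.2.1‖ + ‖p.2.2 - p'.2.2‖) :=
        max_le (le_add_of_nonneg_right (by positivity)) (max_le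
          (by change ‖p.2.1 - p'.2.1‖ ≤ _; linarith [norm_nonneg (p.2.2 - p'.2.2)])
          (by change ‖p.2.2 - p'.2.2‖ ≤ _; linarith [norm_nonneg (p.2.1 - p'.2.1)]))
      have h3 := hs.trans (mul_le_mul_of_nonneg_left h2 (by positivity))
      have h4 : ‖((p.1 - p'.1, 0, 0) : CP J0 Cy Co)‖ = ‖p.1 - p'.1‖ := by simp [Prod.norm_def]
      rw [h4] at h1
      refine (norm_add_le _ _).trans ?_
      nlinarith
  have n2 := mul_nonneg (sub_nonneg.2 hε1) (norm_nonneg (p.2.2 - p'.2.2))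
  have n3 := norm_nonneg (p.2.2 - p'.2.2)
  refine ⟨fun i => ?_, fun e => ?_, fun e => ?_⟩
  · have e2 : (f p).1 i - (f p').1 i - low (p.2.1 i - p'.2.1 i) = h.1 i +
        ((A (0, p.2.1 - p'.2.1, 0)).1 i - low ((p.2.1 - p'.2.1) i)) +
        (A (0, 0, p.2.2 - p'.2.2)).1 i := by
      rw [show (f p).1 i - (f p').1 i = (f p - f p').1 i from rfl, e1]
      simp only [Prod.fst_add, Pi.add_apply, Pi.sub_apply]
      abel
    rw [e2]
    refine norm_add₃_le.trans ((add_le_add_three ((norm_le_pi_norm _ i).trans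
      ((norm_fst_le _).trans b)) (x1 _ i) (o1 _ i)).trans ?_)
    linarith
  · rw [show (f p).2 e - (f p').2 e = (f p - f p').2 e from rfl, e1]
    refine norm_add₃_le.trans ((add_le_add_three ((norm_le_pi_norm _ e).trans
      ((norm_snd_le _).trans b)) (x2 _ e) (o2 _ e)).trans ?_)
    linarith
  · rw [show (f p).2 e - (f p').2 e = (f p - f p').2 e from rfl, e1, Prod.snd_add,
      Prod.snd_add, Pi.add_apply, Pi.add_apply, map_add, map_add]
    refine norm_add₃_le.trans ((add_le_add_three ((norm_ibr_le _).trans ((norm_le_pi_norm _ e).trans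
      ((norm_snd_le _).trans b))) ((norm_ibr_le _).trans (x2 _ e)) (o3 _ e)).trans ?_)
    linarith

theorem toPar_pi (T : ℝ) (g ρ : Fin D.b → ℝ) (π : Dat (Fin D.b) (Fin D.a)) :
    toPar T g ρ ((0 : Fin N → ℂ), 0, π) = (0, 0, Sum.elim π.2 π.1) := by
  rw [toPar_apply]
  refine Prod.ext (funext fun k => ?_) (Prod.ext (funext fun i => map_zero _) rfl)
  cases k
  · rfl
  · exact map_zero (yC _)

theorem norm_elim (π : Dat (Fin D.b) (Fin D.a)) : ‖Sum.elim π.2 π.1‖ ≤ ‖π‖ :=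
  (pi_norm_le_iff_of_nonneg (norm_nonneg _)).2 fun e => by
    cases e
    · exact (norm_le_pi_norm π.2 _).trans (norm_snd_le π)
    · exact (norm_le_pi_norm π.1 _).trans (norm_fst_le π)

variable {G : Geo D} {κ : Type} {ψ : Fin N ⊕ Fin D.b → E3 → ℝ} {P : κ → Patch (SS w)}
  {O : κ → Set R2} {r C' : ℝ} {g ρ : Fin D.b → ℝ} {u : Core.Par D (Fin N ⊕ Fin D.b) → E3 → ℂ}
  {jc : Core.Par D (Fin N ⊕ Fin D.b) → En D → EJ}
  {lm : Core.Par D (Fin N ⊕ Fin D.b) → Fin N ⊕ Fin D.b → ℂ} {Fc : Core.Par D (Fin N ⊕ Fin D.b) → ℂ}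

theorem dout (box : CoreBox G zm ψ P O (fun e => Res 4 n (jE e (gam zm 0 n))) n r C' u jc lm Fc)
    {p} (hp : toPar (N := N) (TT zm n) g ρ p ∈ ball 0 r) :
    HasFDerivAt (sysOf jE dS πS zm n g ρ jc lm Fc).out (trD.comp
      ((fderiv ℂ jc (toPar (TT zm n) g ρ p)).comp (toPar (TT zm n) g ρ))) p :=
  (trD.hasFDerivAt.comp p ((box.jhol.differentiableAt
    (isOpen_ball.mem_nhds hp)).hasFDerivAt.comp p (toPar _ g ρ).hasFDerivAt)).sub_const _

theorem dFc (box : CoreBox G zm ψ P O (fun e => Res 4 n (jE e (gam zm 0 n))) n r C' u jc lm Fc)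
    {p} (hp : toPar (N := N) (TT zm n) g ρ p ∈ ball 0 r) :
    HasFDerivAt (sysOf jE dS πS zm n g ρ jc lm Fc).Fc
      ((fderiv ℂ Fc (toPar (TT zm n) g ρ p)).comp (toPar (TT zm n) g ρ)) p :=
  (box.Fhol.differentiableAt (isOpen_ball.mem_nhds hp)).hasFDerivAt.comp p
    (toPar _ g ρ).hasFDerivAt

theorem flux_eq (hP : PathF D zm) (hz : 1000 ≤ zm) (hE : RealEnds D jE dS πS Z C) (hZ : Z ≤ zm)
    (hn : 4 ≤ n)
    (box : CoreBox G zm ψ P O (fun e => Res 4 n (jE e (gam zm 0 n))) n r C' u jc lm Fc)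
    {q} (hq : q ∈ ball 0 r) (j : En D → EJ) :
    (∀ i, FluxE (gam zm 4 n) (.inr i) (jc q (.inr i)) 1 (j (.inr i)).y = flC 0 (TT zm n)
      (tr 1 (jc q (.inr i)).y2) (πS (.inr i) (TT zm n) + q.2.2 (.inr i)) 0 ((trD j).1 i)) ∧
    ∀ i, FluxE (gam zm 4 n) (.inl i) (jc q (.inl i)) 1 (j (.inl i)).y = flK (cc i) (ka i) (TT zm n)
      (tr 1 (jc q (.inl i)).y2) (πS (.inl i) (TT zm n) + q.2.2 (.inl i)) ((trD j).2 i) := by
  have hre := hP.real 4 n
  refine ⟨fun i => ?_, fun i => ?_⟩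
  · have h1 := flStmt.1 (1 / 2) _ _ 0 0 _ _ (j (.inr i)) 1 one_half_pos
      (by push_cast; linarith) (PathP.admP0 hre (by push_cast; linarith)) (box.jet _ hq (.inr i))
    have h2 := box.piT_eq _ hq (.inr i)
    rw [(base hP hE hZ hn _).2] at h2
    rw [ze_one hP hn] at h1
    rw [← h2]
    exact h1
  · have h1 := flStmt.2.1 _ (cc i) (ka i) _ _ (j (.inl i)) 1
      (by push_cast; linarith) hre (box.jet _ hq (.inl i))
    have h2 := box.piT_eq _ hq (.inl i)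
    rw [(base hP hE hZ hn _).2] at h2
    rw [ze_one hP hn] at h1
    rw [← h2]
    exact h1

theorem realL (hP : PathF D zm) (hE : RealEnds D jE dS πS Z C) (hZ : Z ≤ zm) (hn : 4 ≤ n)
    (box : CoreBox G zm ψ P O (fun e => Res 4 n (jE e (gam zm 0 n))) n r C' u jc lm Fc)
    {p} (hp : toPar (N := N) (TT zm n) g ρ p ∈ ball 0 r) :
    (sysOf jE dS πS zm n g ρ jc lm Fc).out (cjP p) =
      cjD ((sysOf jE dS πS zm n g ρ jc lm Fc).out p) := by
  have h1 := (box.cj _ hp).1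
  have h0 : ∀ e, W.cj (dS e (TT zm n)) = dS e (TT zm n) := fun e => by
    have := (box.cj 0 (mem_ball_self box.r_pos)).1 e
    rw [show Core.cjP (0 : Core.Par D (Fin N ⊕ Fin D.b)) = 0 by
      simp [Core.cjP, funext_iff, Prod.ext_iff], box.j0] at this
    rw [← (base hP hE hZ hn e).1, cj_tr]
    exact congrArg (fun j : EJ => tr 1 j.y2) this.symm
  change trD (jc (toPar _ g ρ (cjP p))) - _ = _
  rw [toPar_cj, trD_apply]
  refine Prod.ext (funext fun i => ?_) (funext fun i => ?_)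
  · change tr 1 _ - _ = W.cj (tr 1 _ - _)
    rw [W.cj_sub, h0, h1, cj_tr]; rfl
  · change tr 1 _ - _ = W.cj (tr 1 _ - _)
    rw [W.cj_sub, h0, h1, cj_tr]; rfl

end Lk

open Lk in
theorem coreL {G : Geo D} {zm : ℝ} {κ : Type} {ψ : Fin N ⊕ Fin D.b → E3 → ℝ}
    {P : κ → Patch (SS w)} {O : κ → Set R2} {jE : En D → Path → EJ} {dS πS : En D → ℝ → WD}
    {Z C : ℝ} {n : ℕ} {r C' C0 ε : ℝ} {g ρ : Fin D.b → ℝ} {u jc lm Fc} (hP : PathF D zm)
    (hz : 1000 ≤ zm) (hE : RealEnds D jE dS πS Z C) (hZ : Z ≤ zm) (hn : 4 ≤ n)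
    (hg : ∀ b, g b ≠ 0 ∧ ρ b ≠ 0) (hε : 0 < ε) (hε1 : ε ≤ 1)
    (box : CoreBox G zm ψ P O (fun e => Res 4 n (jE e (gam zm 0 n))) n r C' u jc lm Fc)
    (ho : OutF zm n C0 (ε / (2 * KK g ρ)) g ρ (fderiv ℂ jc 0)) :
    ∃ Cb r₀, 0 < r₀ ∧ (∀ p, ‖p‖ < r₀ → ‖toPar (N := N) (TT zm n) g ρ p‖ ≤ r / 4) ∧
      CoreL (sysOf jE dS πS zm n g ρ jc lm Fc) (max C0 0 + 1) ε Cb r₀ := by
  have hr := box.r_pos
  have K1 := KK_pos g ρ
  have hT : 0 < TT zm n := by unfold TT; positivity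
  obtain ⟨r1, r10, m1⟩ : ∃ r1 > 0, ∀ p, ‖p‖ < r1 → ‖toPar (N := N) (TT zm n) g ρ p‖ ≤ r / 4 :=
    ⟨r / 4 / (‖toPar (N := N) (TT zm n) g ρ‖ + 1), by positivity, fun p hp =>
      ((toPar _ g ρ).le_opNorm p).trans (by
        rw [lt_div_iff₀ (by positivity)] at hp
        nlinarith [norm_nonneg p])⟩
  have m2 : ∀ p, ‖p‖ < r1 → toPar (N := N) (TT zm n) g ρ p ∈ ball 0 r := fun p hp =>
    mem_ball_zero_iff.2 ((m1 p hp).trans_lt (by linarith))
  have m0 := m2 0 (by simpa using r10)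
  have ho1 : DifferentiableOn ℂ (sysOf jE dS πS zm n g ρ jc lm Fc).out (ball 0 r1) := fun p hp =>
    (dout box (m2 p (mem_ball_zero_iff.1 hp))).differentiableAt.differentiableWithinAt
  obtain ⟨s, s0, hs⟩ := strict r10 ho1 (half_pos hε)
  obtain ⟨r2, r20, hb⟩ := Metric.eventually_nhds_iff_ball.1
    ((dFc (dS := dS) (πS := πS) box m0).continuousAt.eventually (ball_mem_nhds _ one_pos))
  rw [(dout box m0).fderiv, map_zero] at hs
  have ε2 : ε / (2 * KK g ρ) * KK g ρ = ε / 2 := by field_simp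
  have ε3 : ε / (2 * KK g ρ) ≤ ε / 2 := div_le_div_of_nonneg_left hε.le two_pos (by linarith)
  have hx := dx hT (by positivity) hg ho
  rw [ε2] at hx
  have om : ∀ (π : Dat (Fin D.b) (Fin D.a)) e,
      ‖tr 1 (fderiv ℂ jc 0 (toPar (TT zm n) g ρ (0, 0, π)) e).y2‖ ≤ max C0 0 * ‖π‖ ∧
      ‖ibr (tr 1 (fderiv ℂ jc 0 (toPar (TT zm n) g ρ (0, 0, π)) e).y2)‖ ≤ ε / 2 * ‖π‖ :=
    fun π e => by
      rw [toPar_pi, ← tr_y]
      exact ⟨(ho.om _ e).1.trans (mul_le_mul (le_max_left _ _) (norm_elim π) (norm_nonneg _)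
        (le_max_right _ _)), (ho.om _ e).2.trans (mul_le_mul ε3 (norm_elim π) (norm_nonneg _)
          (by positivity))⟩
  have lt : ∀ p : CP (Fin N) (Fin D.b) (Fin D.a), ‖p‖ < min r1 (min s r2) →
      ‖p‖ < r1 ∧ ‖p‖ < s ∧ ‖p‖ < r2 := fun p hp => by simpa using hp
  have L := fun p p' hp hp' => lips hε1 hε (le_add_of_nonneg_right (norm_nonneg
    ((sysOf jE dS πS zm n g ρ jc lm Fc).Fc 0))) (hs p p' (lt p hp).2.1 (lt p' hp').2.1)
    (fun x i => hx x (.inr i)) (fun x e => by simpa [trD_apply] using hx x (.inl e))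
    (fun π i => (om π (.inr i)).1) (fun π i => (om π (.inl i)).1) fun π i => (om π (.inl i)).2
  refine ⟨_, min r1 (min s r2), by positivity, fun p hp => m1 p (lt p hp).1,
    ho1.mono (ball_subset_ball (min_le_left _ _)), fun p hp => (dFc box (m2 p (lt p
      (mem_ball_zero_iff.1 hp)).1)).differentiableAt.differentiableWithinAt, ?_,
    fun p p' hp hp' => (L p p' hp hp').1, fun p p' hp hp' => (L p p' hp hp').2.1,
    fun p p' hp hp' => (L p p' hp hp').2.2, fun p hp => ?_,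
    fun p hp v => ?_, fun p π => ?_,
    fun p hp => ⟨realL hP hE hZ hn box (m2 p (lt p hp).1), ?_⟩⟩
  · change trD (jc (toPar _ g ρ 0)) - _ = 0
    rw [map_zero, box.j0, trD_apply, sub_eq_zero]
    exact Prod.ext (funext fun i => (base hP hE hZ hn _).1) (funext fun i => (base hP hE hZ hn _).1)
  · have := (mem_ball_iff_norm.1 (hb p (mem_ball_zero_iff.2 (lt p hp).2.2))).le
    refine (sub_le_iff_le_add.1 ((norm_sub_norm_le _ _).trans this)).trans ?_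
    gcongr
    exact le_add_of_nonneg_left (norm_nonneg _)
  · have hp1 := m2 p (lt p hp).1
    obtain ⟨e1, e2⟩ := flux_eq hP hz hE hZ hn box hp1
      (fderiv ℂ jc (toPar (TT zm n) g ρ p) (toPar (TT zm n) g ρ v))
    rw [(dFc box hp1).fderiv, (dout box hp1).fderiv, ContinuousLinearMap.comp_apply,
      box.dF _ hp1, Finset.sum_add_distrib, Fintype.sum_sum_type (α₁ := Fin D.a)]
    simp only [e1, e2, ContinuousLinearMap.comp_apply, sysOf, trD_apply, Prod.fst_sub, Prod.snd_sub,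
      Pi.sub_apply, add_sub_cancel]
    change _ = _ + ∑ i, flC _ _ _ (_ + (toPar (TT zm n) g ρ p).2.2 (.inr i)) _ _ +
      ∑ i, flK _ _ _ _ (_ + (toPar (TT zm n) g ρ p).2.2 (.inl i)) _
    abel
  · simp [sysOf, toPar_pi, tq_zero]
  · change Fc (toPar _ g ρ (cjP p)) = _
    rw [toPar_cj]
    exact (box.cj _ (m2 p (lt p hp).1)).2.2.1

end Vale.Agent.P218N.Glue
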