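import Vale.Agent.P218N.Glue.Link
import Vale.Agent.P218N.Glue.EnvEx
import Vale.Agent.P218N.Core.PathC
import Vale.Agent.P218N.End.ApiRp

/-! The environment of the glued problem from the core box. -/

open Filter Topology Metric Set

noncomputable section

namespace Vale.Agent.P218N.Glue

open Vale.Agent.P218N.End Vale.Agent.P218N.J Vale.Agent.P218N.Core Vale.Agent.P218N.H

variable {w : E3 → ℝ} {D : EndData w} {N : ℕ}

/-- Along the sequence of core boxes one finds, arbitrarily far out, an environment. -/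
theorem envL {G : Geo D} {zm : ℝ} {κ : Type} {ψ : Fin N ⊕ Fin D.b → E3 → ℝ}
    {P : κ → Patch (SS w)} {O : κ → Set R2} {jE : En D → Path → EJ} {dS πS : En D → ℝ → WD}
    {Z C C0 : ℝ} {g ρ : Fin D.b → ℝ} (hz : 1000 ≤ zm) (hE : RealEnds D jE dS πS Z C) (hZ : Z ≤ zm)
    (hg : ∀ b, g b ≠ 0 ∧ ρ b ≠ 0)
    (h : ∀ ε > 0, ∀ᶠ n in atTop, ∃ r C' u jc lm Fc,
      CoreBox G zm ψ P O (fun e => Res 4 n (jE e (gam zm 0 n))) n r C' u jc lm Fc ∧
        OutF zm n C0 ε g ρ (fderiv ℂ jc 0)) (n₀ : ℕ) :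
    ∃ n r C' u jc lm Fc, 4 ≤ n ∧ n₀ ≤ n ∧
      CoreBox G zm ψ P O (fun e => Res 4 n (jE e (gam zm 0 n))) n r C' u jc lm Fc ∧
      ∃ E : Env (sysOf jE dS πS zm n g ρ jc lm Fc),
        ∀ p, ‖p‖ < E.r₀ → ‖toPar (N := N) (TT zm n) g ρ p‖ ≤ r / 4 := by
  obtain ⟨ε, hε, T₀, hT⟩ := exists_env' rpStmt
    (sysOf (N := N) jE dS πS zm 0 g ρ (fun _ _ => 0) (fun _ _ => 0) fun _ => 0)
    (fun e => inv_pos.2 (D.link e).pos) (fun i => ⟨_, _, _, hE.cyl i⟩)
    (fun e => ⟨_, _, _, hE.cone e⟩) (max C0 0 + 1)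
  have K1 := Lk.KK_pos g ρ
  obtain ⟨m, hm⟩ := exists_nat_ge T₀
  obtain ⟨n, ⟨r, C', u, jc, lm, Fc, box, ho⟩, hn⟩ := ((h (min ε 1 / (2 * KK g ρ))
    (by positivity)).and (eventually_ge_atTop (max (max 4 n₀) m))).exists
  simp only [max_le_iff] at hn
  obtain ⟨Cb, r₀, h0, h1, h2⟩ := coreL (pathStmt w D zm hz) hz hE hZ hn.1.1 hg
    (by positivity) (min_le_right _ _) box ho
  have h3 : CoreL (sysOf jE dS πS zm n g ρ jc lm Fc) (max C0 0 + 1) ε Cb r₀ :=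
    { h2 with
      lip1 := fun p p' a b i => (h2.lip1 p p' a b i).trans (by
        gcongr; exact min_le_left _ _)
      lip2 := fun p p' a b i => (h2.lip2 p p' a b i).trans (by
        gcongr; exact min_le_left _ _)
      lip3 := fun p p' a b i => (h2.lip3 p p' a b i).trans (by
        gcongr; exact min_le_left _ _) }
  obtain ⟨E, -, e2, -⟩ := hT (TT zm n) _ _ _ Cb r₀ (by
    have : (m : ℝ) ≤ n := by exact_mod_cast hn.2
    unfold TT
    linarith) h0 h3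
  exact ⟨n, r, C', u, jc, lm, Fc, hn.1.1, hn.1.2, box, E, fun p hp => h1 p (e2 ▸ hp)⟩

end Vale.Agent.P218N.Glue
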