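import Vale.Agent.P218N.Glue.Stmt
import Vale.Agent.P218N.End.ApiBas

/-! Restriction, change of the slopes and conjugation of matched solutions. -/

open Filter Topology Metric Set Complex
open scoped ComplexConjugate

noncomputable section

namespace Vale.Agent.P218N.Glue

open Vale.Agent.P218N.End Vale.Agent.P218N.J

namespace Rs

theorem piJ_sub (Γ : Ctr) (μ : ℤ → ℝ) (j j' : EJ) :
    Γ.piJ μ (j - j') = Γ.piJ μ j - Γ.piJ μ j' := by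
  simp only [Ctr.piJ, EJ.sub_pt, EJ.sub_op, EJ.sub_y2, map_sub, smul_sub]; abel

theorem nrm_one (Γ : Ctr) (μ : ℤ → ℝ) (j : EJ) : Γ.nrm μ 1 j = max ‖j‖ ‖Γ.piJ μ j‖ := by
  rw [Ctr.nrm, EJ.wt_one, map_one, one_mul]

theorem norm_le_nrm (Γ : Ctr) (μ : ℤ → ℝ) (j : EJ) : ‖j‖ ≤ Γ.nrm μ 1 j := by
  rw [nrm_one]; exact le_max_left _ _

theorem pi_le_nrm (Γ : Ctr) (μ : ℤ → ℝ) (j : EJ) : ‖Γ.piJ μ j‖ ≤ Γ.nrm μ 1 j := by
  rw [nrm_one]; exact le_max_right _ _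

theorem nrm_nonneg (Γ : Ctr) (μ : ℤ → ℝ) (w : BC) (j : EJ) : 0 ≤ Γ.nrm μ w j :=
  (norm_nonneg _).trans (le_max_left _ _)

theorem y2_le (j : EJ) : ‖j.y2‖ ≤ ‖j‖ := norm_fst_le j
theorem op_le (j : EJ) : ‖j.op‖ ≤ ‖j‖ := (norm_fst_le j.2).trans (norm_snd_le j)
theorem oq_le (j : EJ) : ‖j.oq‖ ≤ ‖j‖ :=
  (norm_fst_le j.2.2).trans ((norm_snd_le j.2).trans (norm_snd_le j))
theorem pt_le (j : EJ) : ‖j.pt‖ ≤ ‖j‖ :=
  (norm_snd_le j.2.2).trans ((norm_snd_le j.2).trans (norm_snd_le j))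

theorem cmp_sub (φ : ℝ → ℝ) (j j' : EJ) : (j - j').cmp φ = j.cmp φ - j'.cmp φ :=
  EJ.ext' (map_sub _ _ _) (map_sub _ _ _) (map_sub _ _ _) (map_sub _ _ _)

theorem nrm_cmp {Γ Γ' : Ctr} {μ : ℤ → ℝ} {φ : ℝ → ℝ} {j : EJ}
    (h : ∀ (f : WB) (w w' : BC) (A : ℝ), 0 ≤ A → (∀ t ∈ Icc (0 : ℝ) 1, ‖w' t‖ ≤ A * ‖w (φ t)‖) →
      (∀ t, ‖w' t‖ ≤ ‖w' (cl t)‖) → ‖W.C w' * cmpW φ f‖ ≤ A * ‖W.C w * f‖)
    (hp : Γ'.piJ μ (j.cmp φ) = cmpW φ (Γ.piJ μ j)) : Γ'.nrm μ 1 (j.cmp φ) ≤ Γ.nrm μ 1 j := by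
  have hn : ∀ f : WB, ‖cmpW φ f‖ ≤ ‖f‖ := fun f => by
    simpa using h f 1 1 1 zero_le_one (fun t _ => by simp) (fun t => by simp)
  rw [nrm_one, nrm_one, hp]
  exact max_le_max (EJ.norm_le _ ((hn _).trans (y2_le j)) ((hn _).trans (op_le j))
    ((hn _).trans (oq_le j)) ((hn _).trans (pt_le j))) (hn _)

theorem cl0 : cl 0 = 0 := cl_of_mem ⟨le_rfl, zero_le_one⟩

theorem sq_c (y : WB) (t : ℝ) : ((1 + y) ^ 2).c 0 t = ((1 + tr t y) ^ 2).c 0 := by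
  rw [← c_tr, ← trA_apply, map_pow, map_add, map_one, trA_apply]

theorem admP_mono {c c' K K' T : ℝ} {a : ℂ} {γ : Path} (h : AdmP c K T a γ) (hc : c' ≤ c)
    (hK : K' ≤ K) : AdmP c' K' T a γ :=
  ⟨h.ok, h.st, fun t => by
    obtain ⟨u, h1, h2, h3, h4⟩ := h.dir t
    exact ⟨u, h1, hc.trans h2, (mul_le_mul_of_nonneg_right hc (norm_nonneg _)).trans h3, h4⟩,
    fun t => hK.trans (h.big t)⟩

theorem norm_cjF {ι : Type} [Fintype ι] (d : ι → WD) : ‖cjF d‖ ≤ ‖d‖ :=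
  (pi_norm_le_iff_of_nonneg (norm_nonneg _)).2 fun i => by
    rw [cjF, W.norm_cj]; exact norm_le_pi_norm d i

theorem isRl_jet {j : EJ} (h : ∀ t θ, (ev j.y2 t θ).im = 0 ∧ (ev j.op t θ).im = 0 ∧
    (ev j.oq t θ).im = 0 ∧ (ev j.pt t θ).im = 0) : j.cj = j :=
  EJ.ext' (isRl_iff_ev.2 fun t θ => (h t θ).1) (isRl_iff_ev.2 fun t θ => (h t θ).2.1)
    (isRl_iff_ev.2 fun t θ => (h t θ).2.2.1) (isRl_iff_ev.2 fun t θ => (h t θ).2.2.2)

variable {J0 Cy Co : Type} [Fintype J0] [Fintype Cy] [Fintype Co]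

theorem norm_cjP (p : CP J0 Cy Co) : ‖cjP p‖ ≤ ‖p‖ :=
  max_le_max ((pi_norm_le_iff_of_nonneg (norm_nonneg _)).2 fun i => by
      rw [show (cjP p).1 i = star (p.1 i) from rfl, norm_star]; exact norm_le_pi_norm p.1 i)
    (max_le_max (norm_cjF _) (max_le_max (norm_cjF _) (norm_cjF _)))

variable {S : Sys J0 Cy Co} (E : Env S)

theorem C8 : 100000 * E.C ^ 5 ≤ E.C ^ 8 ∧ 100000 * E.C ≤ E.C ^ 5 := by
  have h := E.hC
  have h1 : (1 : ℝ) ≤ E.C := by linarith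
  have h0 : (0 : ℝ) ≤ E.C := by linarith
  constructor
  · calc 100000 * E.C ^ 5 ≤ E.C * E.C ^ 5 := by gcongr
      _ = E.C ^ 6 := by ring
      _ ≤ _ := pow_le_pow_right₀ h1 (by norm_num)
  · calc 100000 * E.C ≤ E.C * E.C := by gcongr
      _ = E.C ^ 2 := by ring
      _ ≤ _ := pow_le_pow_right₀ h1 (by norm_num)

theorem eps5 : E.ε * E.C ^ 5 ≤ 1 / 100000 := by
  have := E.hε
  have := mul_le_mul_of_nonneg_left (C8 E).1 E.ε0.le
  linarith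

theorem eps1 : E.ε * E.C ≤ 1 / 100000 := by
  have := eps5 E
  have := mul_le_mul_of_nonneg_left (C8 E).2 E.ε0.le
  have := mul_pos E.ε0 (show 0 < E.C by linarith [E.hC])
  linarith

theorem eps0 : E.ε ≤ 1 / 100000 := by
  have := eps1 E
  have := mul_le_mul_of_nonneg_left E.hC E.ε0.le
  have := E.ε0
  linarith

theorem Kbig : 100000 ≤ E.K := by
  have hC := E.hC
  have h8 : 100000 ≤ E.C ^ 8 := by linarith [(C8 E).1, (C8 E).2]
  have h0 : E.δ₀ ≤ E.δ := le_trans (le_mul_of_one_le_right E.δ₀0.le (by linarith)) E.hδ₀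
  have h1 : E.δ₁ ≤ E.δ₀ := le_trans (le_mul_of_one_le_right E.δ₁0.le (by linarith)) E.hδ₁
  have h2 : E.δ₁ ≤ 1 := by linarith [E.hδ, eps0 E]
  have h3 := E.hK
  by_contra hn
  have h4 : E.K * E.δ₁ < 100000 * E.δ₁ := mul_lt_mul_of_pos_right (not_le.1 hn) E.δ₁0
  linarith

theorem KT : E.K ≤ S.T :=
  le_trans (le_mul_of_one_le_left (by linarith [Kbig E]) (by linarith [E.hC])) E.hT

include E in
theorem Tbig : 100000 ≤ S.T := (Kbig E).trans (KT E)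

theorem aK {a : ℂ} (h : ‖a‖ * S.T ≤ E.ε) : ‖a‖ ≤ 1 / E.K := by
  rw [le_div_iff₀ (by linarith [Kbig E])]
  have := mul_le_mul_of_nonneg_left (KT E) (norm_nonneg a)
  linarith [eps0 E]

theorem aT {a : ℂ} (h : ‖a‖ * S.T ≤ E.ε) : ‖a‖ < 1 / (4 * S.T) := by
  rw [lt_div_iff₀ (by linarith [Tbig E])]
  linarith [eps0 E]

include E in
theorem zT : ‖(0 : ℂ)‖ < 1 / (4 * S.T) := by
  rw [norm_zero]
  have := Tbig E
  positivity

theorem invC {x : ℝ} (h : x ≤ 2 * E.δ) : x ≤ 1 / E.C := by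
  rw [le_div_iff₀ (by linarith [E.hC])]
  have := mul_le_mul_of_nonneg_right (h.trans (mul_le_mul_of_nonneg_left E.hδ zero_le_two))
    (show 0 ≤ E.C by linarith [E.hC])
  linarith [eps1 E]

theorem coneD_le {e : Co} {γ : Path} {k : EJ} (hr : γ.RealP S.T)
    (h : γ.cone.nrm (muCone (S.cc e)) 1 (k - S.kS e γ) ≤ E.δ) (t θ : ℝ) :
    ‖coneD (W.sumL θ (S.ka e)) (ev k.y t θ) (ev k.y t θ + 2 * (γ.ze t)⁻¹ * ev k.op t θ)
      (S.cc e * ev k.yt t θ) - 1‖ ≤ 1 / 2 := by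
  obtain ⟨r1, r2, -⟩ := E.kref e γ hr
  have h1 := (norm_le_nrm _ _ _).trans h
  have h2 := (y2_le _).trans h1
  have h3 := (op_le _).trans h1
  rw [EJ.sub_y2] at h2
  rw [EJ.sub_op] at h3
  refine ((E.lagK e γ hr).2 k (invC E ?_) ?_).1 t θ
  · linarith [norm_le_insert' k.y2 (S.kS e γ).y2]
  · linarith [norm_le_insert' k.op (S.kS e γ).op, E.hδ, eps0 E]

theorem rhT {a : ℂ} (h : ‖a‖ * S.T ≤ E.ε) : rh a S.T ≠ 0 := fun h0 => by
  have h1 : a * ((S.T : ℂ) - 2) = -2 := by rw [rh] at h0; linear_combination h0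
  have h2 := congrArg norm h1
  have hT := Tbig E
  rw [norm_mul, norm_neg, Complex.norm_ofNat, ← ofReal_ofNat, ← ofReal_sub, norm_real,
    Real.norm_of_nonneg (by linarith)] at h2
  have := norm_nonneg a
  have := eps0 E
  nlinarith

theorem ms_mono {δ δ' r : ℝ} {p : CP J0 Cy Co} {a : Cy → ℂ} {γ : Cy → Path} {j : Cy → EJ}
    {γc : Co → Path} {k : Co → EJ} (h : S.MS δ r p a γ j γc k) (hδ : δ ≤ δ') :
    S.MS δ' r p a γ j γc k :=
  ⟨h.ball, h.cyl, fun i => (h.ncyl i).trans hδ, h.my, h.mp, h.cone,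
    fun e => (h.ncone e).trans hδ, h.ky, h.kp⟩

end Rs

open Rs

variable {J0 Cy Co : Type} [Fintype J0] [Fintype Cy] [Fintype Co]

namespace Env
variable {S : Sys J0 Cy Co} (E : Env S)

theorem restr : E.Restr := by
  intro δ p a γ γ' j γc γc' k φ ψ hδ ms hc hk
  have hK := Kbig E
  have hT := Tbig E
  have hKT := KT E
  have H := fun i => E.htr (φ i) (γ i) (γ' i) (1 / 200) (by norm_num) (hc i).2.1.ok (hc i).2.2.1
    (hc i).2.2.2.1 (hc i).2.1.re_g fun t => le_trans (by linarith)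
      (((hc i).2.1.T_le (by norm_num) t).trans (re_le_norm _))
  have H4 := fun i => (H i).2.2.2.1 (a i) (E.K / 2) S.T (j i) (by norm_num; linarith) (hc i).2.1
    (ms.cyl i).1
  have G := fun e => E.htr (ψ e) (γc e) (γc' e) 1 one_pos (hk e).1.ok (hk e).2.1.ok
    (hk e).2.2.1 (hk e).1.dir ((hk e).1.one_le (by linarith))
  have G5 := fun e (x : EJ) => (G e).2.2.2.2 S.T (S.cc e) (S.ka e) (S.kd e) x (by linarith) (hk e).1
  have GS : ∀ e, S.kS e (γc' e) = (S.kS e (γc e)).cmp (ψ e) ∧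
      (γc' e).cone.piJ (muCone (S.cc e)) ((S.kS e (γc e)).cmp (ψ e)) =
        cmpW (ψ e) ((γc e).cone.piJ (muCone (S.cc e)) (S.kS e (γc e))) := fun e => by
    obtain ⟨h, ce⟩ := E.coneE e
    exact ⟨ce.cmp S.T S.T _ _ _ E.hZ (hk e).1 (hk e).2.1 (hk e).2.2.1,
      (G5 e _ (ce.sol S.T _ E.hZ (hk e).1).1).2.2.1⟩
  have h0 : ∀ i (f : WB), tr 0 (cmpW (φ i) f) = tr 0 f := fun i f => by
    rw [(H i).1, cl0, (hc i).2.2.2.2]
  have g0 : ∀ e (f : WB), tr 0 (cmpW (ψ e) f) = tr 0 f := fun e f => by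
    rw [(G e).1, cl0, (hk e).2.2.2]
  refine ⟨⟨ms.ball, fun i => ⟨(H4 i).1, by rw [(H4 i).2.1, (ms.cyl i).2, map_zero]⟩,
    fun i => (nrm_cmp (H i).2.1 (H4 i).2.2.1).trans (ms.ncyl i), fun i => ?_, fun i => ?_,
    fun e => ⟨(G5 e _ (ms.cone e).1).1, by
      rw [(G5 e _ (ms.cone e).1).2.1, (ms.cone e).2, map_zero]⟩, fun e => ?_, fun e => ?_,
    fun e => ?_⟩, fun i t ht => ⟨?_, ?_, ?_, ?_⟩, fun e t ht => ⟨?_, ?_, ?_⟩⟩
  · rw [ms.my i, ← h0 i (j i).y2]; rfl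
  · rw [ms.mp i, Path.piC, Path.piC, (H4 i).2.2.1, h0, ← h0 i (j i).y2]; rfl
  · rw [(GS e).1, ← cmp_sub]
    refine (nrm_cmp (G e).2.1 ?_).trans (ms.ncone e)
    rw [cmp_sub, piJ_sub, piJ_sub, map_sub, (GS e).2, (G5 e _ (ms.cone e).1).2.2.1]
  · rw [ms.ky e, ← g0 e (k e).y2]; rfl
  · rw [ms.kp e, Path.piK, Path.piK, (G5 e _ (ms.cone e).1).2.2.1, g0]
  · exact ((H i).1 _ t).trans (by rw [cl_of_mem ht])
  · rw [Path.piC, Path.piC, (H4 i).2.2.1, (H i).1, cl_of_mem ht]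
  · rw [Path.AA, Path.AA, (hc i).2.2.2.1.eq t ht, sq_c, sq_c, (H i).2.2.1, (H i).1, cl_of_mem ht]
  · have := E.rp2 (E.K / 2) S.T (a i) (γ i) (γ' i) (φ i) (j i) le_rfl (by linarith)
      ((aK E (hc i).1).trans (one_div_le_one_div_of_le (by linarith) (by linarith))) (hc i).2.1
      (hc i).2.2.1 (hc i).2.2.2.1 (ms.cyl i).1
      (((norm_le_nrm _ _ _).trans (ms.ncyl i)).trans (by linarith [E.hδ, eps0 E]))
      0 ⟨le_rfl, zero_le_one⟩ t ht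
    rwa [(hc i).2.2.2.2] at this
  · rw [Path.piK, Path.piK, (G5 e _ (ms.cone e).1).2.2.1, (G e).1, cl_of_mem ht]
  · rw [Path.piK, Path.piK, (GS e).1, (GS e).2, (G e).1, cl_of_mem ht]
  · have := (G5 e _ (ms.cone e).1).2.2.2 (coneD_le E (hk e).1 ((ms.ncone e).trans hδ))
      0 ⟨le_rfl, zero_le_one⟩ t ht
    rwa [(hk e).2.2.2] at this

theorem cvms : E.CvMS := by
  intro δ δ' θ p a a' γ j j' γc k ms hθ hd hd' hc
  have hC := E.hC
  have hK := Kbig E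
  have hT := Tbig E
  have hδ : 0 ≤ δ → δ + θ ≤ δ' := fun h => le_trans (le_mul_of_one_le_left (by linarith)
    (by linarith)) hd
  have key : ∀ i, (γ i).IsCyl (a' i) (j' i) ∧ ((γ i).cyl (a' i)).nrm muCyl 1 (j' i) ≤ δ' ∧
      cvY (a' i) 0 S.T (tr 0 (j' i).y2) = cvY (a i) 0 S.T (tr 0 (j i).y2) ∧
      cvP (a' i) 0 S.T (tr 0 (j' i).y2) ((γ i).piC (a' i) (j' i) 0) =
        cvP (a i) 0 S.T (tr 0 (j i).y2) ((γ i).piC (a i) (j i) 0) ∧
      (γ i).FCI (a' i) (j' i) 0 1 = (γ i).FCI (a i) (j i) 0 1 := fun i => by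
    have n0 := (nrm_nonneg _ _ _ _).trans (ms.ncyl i)
    have n1 := hδ n0
    rcases hc i with ⟨e1, e2⟩ | ⟨b1, b2, ad, th, e2⟩
    · rw [e1, e2]
      exact ⟨ms.cyl i, (ms.ncyl i).trans (by linarith), rfl, rfl, rfl⟩
    · obtain ⟨ad', h2, -⟩ := E.conv E.K S.T θ (a i) (a' i) (γ i) le_rfl (KT E) (aK E b1) (aK E b2)
        ad (by linarith [E.hδ, eps0 E]) th (rhT E b2)
      obtain ⟨c1, c2, c3, c4, c5, -⟩ := h2 (j i) (ms.cyl i).1
      obtain ⟨-, -, p3, p4, -⟩ := E.pt2 S.T (a i) (a' i) 0 (tr 0 (j i).y2)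
        ((γ i).piC (a i) (j i) 0) (by linarith) (aT E b1) (aT E b2) (zT E)
      obtain ⟨d1, d2, -⟩ := c4 0
      rw [ad.st] at d1 d2
      rw [e2]
      refine ⟨⟨c1, ext_ct fun m t => ?_⟩, c3.trans (le_trans ?_ hd), by rw [d1, p3],
        by rw [Path.piC, d1, d2]; exact p4,
        c5 (invC E ((ms.ncyl i).trans (by linarith [E.δ0]))) (invC E (by linarith [E.δ0])) 0 1⟩
      · have h3 := congrArg (fun f : WB => f.c m t) c2
        simp only [(ms.cyl i).2, mul_zero, c_C_mul_apply] at h3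
        exact (mul_eq_zero.1 h3).resolve_left
          (right_ne_zero_of_mul (norm_pos_iff.1 (lt_of_lt_of_le (by linarith) (ad'.big t))))
      · gcongr
        exact ms.ncyl i
  refine ⟨⟨ms.ball, fun i => (key i).1, fun i => (key i).2.1,
    fun i => (ms.my i).trans (key i).2.2.1.symm, fun i => (ms.mp i).trans (key i).2.2.2.1.symm,
    ms.cone, fun e => (ms.ncone e).trans ?_, ms.ky, ms.kp⟩, ?_⟩
  · linarith [hδ ((nrm_nonneg _ _ _ _).trans (ms.ncone e))]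
  · simp only [Sys.val, fun i => (key i).2.2.2.2]

theorem cjms : E.CjMS := by
  intro δ P p a γ j γc k hδ rs ha ms
  have hT := Tbig E
  have T1 : (1000 : ℝ) ≤ S.T := by linarith
  obtain ⟨o1, o2⟩ := E.core.real p ms.ball
  have H := fun i (x : EJ) => (E.cj S.T P (γ i) x T1 (rs.cyl i).1).1
  have H1 := fun i => H i (j i) (a i) (a i) (rs.cyl i).2.2 (ha i).1 (ha i).1
  have hS : ∀ i, (S.jS i (γ i)).cj = S.jS i (γ i) ∧ W.cj (S.dS i S.T) = S.dS i S.T ∧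
      W.cj (S.πS i S.T) = S.πS i S.T := fun i => by
    obtain ⟨v, ce⟩ := E.cylE i
    have r := isRl_jet (ce.real S.T _ E.hZ (rs.cyl i).1)
    obtain ⟨t1, t2⟩ := ce.trs S.T _ E.hZ (rs.cyl i).1 0
    rw [(rs.cyl i).1.st, ofReal_re] at t1 t2
    have z : ‖(0 : ℂ)‖ ≤ 1 / (4 * P) := by
      rw [norm_zero]; exact (norm_nonneg _).trans (ha i).1
    have h3 := (H i (S.jS i (γ i)) 0 0 (rs.cyl i).2.2 z z).2.2.1
    rw [map_zero, r] at h3
    refine ⟨r, ?_, by rw [← t2, cj_tr, ← h3]⟩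
    rw [← t1, cj_tr, ← EJ.y2_cj, r]
  have hA : ∀ e, W.cj (S.ka e) = S.ka e ∧ W.cj (S.kd e) = S.kd e := fun e => by
    obtain ⟨h, ce⟩ := E.coneE e
    have r : W.cj (S.ka e) = S.ka e := isRl_iff_WD.2 ce.ka_real
    refine ⟨r, W.ext fun m => ?_⟩
    have r1 := congrArg (fun d : WD => d.c m) r
    simp only [W.c_cj] at r1
    rw [W.c_cj, ce.kd_eq, ce.kd_eq, star_mul', r1]
    simp
  have G := fun e (x : EJ) => (E.cj S.T P (γc e) x T1 (rs.cone e).1).2 (S.cc e) (S.ka e) (S.kd e)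
    (hA e).1 (hA e).2
  have hK : ∀ e, (S.kS e (γc e)).cj = S.kS e (γc e) ∧ W.cj (S.dK e S.T) = S.dK e S.T ∧
      W.cj (S.πK e S.T) = S.πK e S.T := fun e => by
    obtain ⟨h, ce⟩ := E.coneE e
    have r := isRl_jet (ce.real S.T _ E.hZ (rs.cone e).1)
    obtain ⟨t1, t2⟩ := ce.trs S.T _ E.hZ (rs.cone e).1 0
    rw [(rs.cone e).1.st, ofReal_re] at t1 t2
    have h3 := (G e (S.kS e (γc e))).2.2.1
    rw [r] at h3
    refine ⟨r, ?_, by rw [← t2, cj_tr, ← h3]⟩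
    rw [← t1, cj_tr, ← EJ.y2_cj, r]
  have P2 := fun i => E.pt2 S.T (a i) 0 0 (tr 0 (j i).y2) ((γ i).piC (a i) (j i) 0) T1
    (aT E (ha i).2) (zT E) (zT E)
  refine ⟨⟨(norm_cjP p).trans_lt ms.ball,
    fun i => ⟨(H1 i).1 (ms.cyl i).1, (H1 i).2.1.trans (by rw [(ms.cyl i).2, W.cj_zero])⟩,
    fun i => (H1 i).2.2.2.2.1.trans_le (ms.ncyl i), fun i => ?_, fun i => ?_,
    fun e => ⟨(G e _).1 (ms.cone e).1, (G e _).2.1.trans (by rw [(ms.cone e).2, W.cj_zero])⟩,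
    fun e => ?_, fun e => ?_, fun e => ?_⟩, ?_, fun i => (hS i).1, fun e => (hK e).1⟩
  · have h1 := congrArg W.cj (ms.my i)
    rw [W.cj_add, (hS i).2.1, (P2 i).2.2.2.2.1, map_zero, cj_tr] at h1
    rw [o1]; exact h1
  · have h1 := congrArg W.cj (ms.mp i)
    rw [W.cj_add, (hS i).2.2, (P2 i).2.2.2.2.2, map_zero, cj_tr, Path.piC, cj_tr,
      ← (H1 i).2.2.1] at h1
    exact h1
  · rw [← (hK e).1, ← EJ.cj_sub, (G e _).2.2.2.1]
    exact ms.ncone e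
  · have h1 := congrArg W.cj (ms.ky e)
    rw [W.cj_add, (hK e).2.1, cj_tr] at h1
    rw [o1]; exact h1
  · have h1 := congrArg W.cj (ms.kp e)
    rw [W.cj_add, (hK e).2.2, Path.piK, cj_tr, ← (G e _).2.2.1] at h1
    exact h1
  · have s1 : ∀ i, (γ i).FCI (star a i) (j i).cj 0 1 = conj ((γ i).FCI (a i) (j i) 0 1) :=
      fun i => (H1 i).2.2.2.2.2.2.2.2
        (((norm_le_nrm _ _ _).trans (ms.ncyl i)).trans (by linarith [E.hδ, eps0 E])) 0 1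
    have s2 := fun e => (G e (k e)).2.2.2.2
      (coneD_le E (rs.cone e).1 ((ms.ncone e).trans hδ)) 0 1
    simp only [Sys.val, o2, map_add, map_sum, s1, s2]

end Env

end Vale.Agent.P218N.Glue
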