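import Vale.Agent.P218N.Glue.S2a
import Vale.Agent.P218N.Glue.Cmp

/-! The second stage of the glued problem: existence for given slopes. -/

open Filter Topology Metric Set Complex
open scoped ComplexConjugate

noncomputable section

namespace Vale.Agent.P218N.Glue

open Vale.Agent.P218N.End Vale.Agent.P218N.J

variable {J0 Cy Co : Type} [Fintype J0] [Fintype Cy] [Fintype Co] {S : Sys J0 Cy Co} (E : Env S)

namespace S2P

theorem ev_lt (A : ℝ) {s η : ℝ} (hs : 0 < s) (hη : 0 < η) : ∀ᶠ ρ in 𝓝[>] (0 : ℝ), A * ρ ^ s < η := by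
  have h : Tendsto (fun ρ : ℝ => A * ρ ^ s) (𝓝 0) (𝓝 (A * 0 ^ s)) :=
    (Real.continuousAt_rpow_const 0 s (Or.inr hs.le)).tendsto.const_mul A
  rw [Real.zero_rpow hs.ne', mul_zero] at h
  exact mem_nhdsWithin_of_mem_nhds (h.eventually (Iio_mem_nhds hη))

/-- the conditions on the scale -/
structure Sc (rX c₁ CX P₀ M ρ P κ : ℝ) : Prop where
  TP : 7 * S.T ≤ P
  P0 : P₀ ≤ P
  PM : P ≤ 1 / (M * ρ)
  aP : M * ρ < c₁ / P
  a4 : M * ρ < 1 / (4 * P)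
  sa : M * ρ * S.T ≤ E.ε
  q : (7 * S.T / P) ^ (3 / 2 : ℝ) ≤ κ
  aB : (M * ρ) ^ 2 * S.T * (M / ρ) ^ (1 / 5 : ℝ) ≤ κ
  sm : E.C ^ 7 * κ * (M / ρ) ^ (6 / 5 : ℝ) ≤ E.μ
  x : CX * P ^ (-(27 / 20) : ℝ) ≤ κ
  rX : M * ρ + 3 * E.C * κ * E.C ^ 4 < rX

theorem exists_sc {rX c₁ CX M : ℝ} (P₀ : ℝ) (h0 : 0 < rX) (h1 : 0 < c₁) (h2 : c₁ ≤ E.c₀)
    (h3 : 0 ≤ CX) (hM : 1 ≤ M) : ∃ A ≥ 0, ∃ ρ₀ > 0, ∀ ρ, 0 < ρ → ρ ≤ ρ₀ →
      Sc E rX c₁ CX P₀ M ρ (c₁ / (2 * M * ρ)) (A * ρ ^ (27 / 20 : ℝ)) := by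
  have hT := E.T0
  have hc : c₁ ≤ 1 / 4 := by linarith [E.c₀_le, E.μ_le, E.δ₁_lt]
  set A := CX * (2 * M / c₁) ^ (27 / 20 : ℝ) + 1 with hA
  have A1 : 1 ≤ A := le_add_of_nonneg_left (by positivity)
  refine ⟨A, by linarith, ?_⟩
  have key : ∀ᶠ ρ in 𝓝[>] (0 : ℝ),
      Sc E rX c₁ CX P₀ M ρ (c₁ / (2 * M * ρ)) (A * ρ ^ (27 / 20 : ℝ)) := by
    filter_upwards [self_mem_nhdsWithin, ev_lt (7 * S.T * (2 * M)) one_pos h1,
      ev_lt (P₀ * (2 * M)) one_pos h1, ev_lt (M * S.T) one_pos E.ε0,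
      ev_lt ((14 * S.T * M / c₁) ^ (3 / 2 : ℝ)) (show (0 : ℝ) < 3 / 20 by norm_num) one_pos,
      ev_lt (M ^ 2 * S.T * M ^ (1 / 5 : ℝ)) (show (0 : ℝ) < 9 / 20 by norm_num) one_pos,
      ev_lt (E.C ^ 7 * A * M ^ (6 / 5 : ℝ)) (show (0 : ℝ) < 3 / 20 by norm_num) E.μ0,
      ev_lt M one_pos (half_pos h0),
      ev_lt (3 * E.C * A * E.C ^ 4) (show (0 : ℝ) < 27 / 20 by norm_num) (half_pos h0)]
      with ρ (hρ : 0 < ρ) a1 a2 a3 a4 a5 a6 a7 a8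
    rw [Real.rpow_one] at a1 a2 a3 a7
    have hp : 0 < ρ ^ (27 / 20 : ℝ) := by positivity
    have hA' : ρ ^ (27 / 20 : ℝ) ≤ A * ρ ^ (27 / 20 : ℝ) := le_mul_of_one_le_left hp.le A1
    have e : ∀ s t : ℝ, ρ ^ (s + t) = ρ ^ s * ρ ^ t := fun s t => Real.rpow_add hρ s t
    refine ⟨?_, ?_, ?_, ?_, ?_, by linarith, le_trans ?_ hA', le_trans ?_ hA', ?_, ?_, by linarith⟩
    · rw [le_div_iff₀ (by positivity)]; linarith
    · rw [le_div_iff₀ (by positivity)]; linarith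
    · rw [div_le_div_iff₀ (by positivity) (by positivity)]
      nlinarith [mul_pos (show 0 < M by linarith) hρ]
    · rw [div_div_cancel₀ h1.ne']
      nlinarith [mul_pos (show 0 < M by linarith) hρ]
    · rw [lt_div_iff₀ (by positivity)]
      calc _ = 2 * c₁ := by field_simp; norm_num
        _ < _ := by linarith
    · rw [show 7 * S.T / (c₁ / (2 * M * ρ)) = 14 * S.T * M / c₁ * ρ by field_simp; norm_num,
        Real.mul_rpow (by positivity) hρ.le, show (3 / 2 : ℝ) = 3 / 20 + 27 / 20 by norm_num, e,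
        show (3 / 20 + 27 / 20 : ℝ) = 3 / 2 by norm_num, ← mul_assoc]
      exact mul_le_of_le_one_left hp.le a4.le
    · have e1 : ρ ^ 2 = ρ ^ (9 / 20 : ℝ) * ρ ^ (27 / 20 : ℝ) * ρ ^ (1 / 5 : ℝ) := by
        rw [← e, ← e, ← Real.rpow_two]; norm_num
      have : 0 < ρ ^ (1 / 5 : ℝ) := by positivity
      calc _ = M ^ 2 * S.T * M ^ (1 / 5 : ℝ) * ρ ^ (9 / 20 : ℝ) * ρ ^ (27 / 20 : ℝ) := by
            rw [Real.div_rpow (by linarith) hρ.le, mul_pow, e1]; field_simp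
        _ ≤ _ := mul_le_of_le_one_left hp.le a5.le
    · have e1 : ρ ^ (27 / 20 : ℝ) = ρ ^ (3 / 20 : ℝ) * ρ ^ (6 / 5 : ℝ) := by rw [← e]; norm_num
      have : 0 < ρ ^ (6 / 5 : ℝ) := by positivity
      refine le_trans (le_of_eq ?_) a6.le
      rw [Real.div_rpow (by linarith) hρ.le, e1]; field_simp
    · rw [Real.rpow_neg (by positivity), ← Real.inv_rpow (by positivity),
        show (c₁ / (2 * M * ρ))⁻¹ = 2 * M / c₁ * ρ by field_simp,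
        Real.mul_rpow (by positivity) hρ.le, ← mul_assoc]
      exact mul_le_mul_of_nonneg_right (by linarith) hp.le
  obtain ⟨u, hu, h⟩ := mem_nhdsGT_iff_exists_Ioc_subset.1 key
  exact ⟨u, hu, fun ρ a b => h ⟨a, b⟩⟩

/-- the coordinates in terms of the modes `0` -/
def bt (S : Sys J0 Cy Co) (a : Cy → ℂ) (η : Cy → WD) (i : Cy) : ℂ := a i + (η i).c 0 / S.τ

omit [Fintype J0] [Fintype Cy] [Fintype Co] in
theorem bt_zero (a : Cy → ℂ) : bt S a 0 = a := funext fun i => by simp [bt]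

include E in
theorem bt_sub (a : Cy → ℂ) (η : Cy → WD) : S.τ * ‖bt S a η - a‖ ≤ ‖η‖ := by
  have h := E.τ1
  rw [← le_div_iff₀' (by linarith)]
  refine (pi_norm_le_iff_of_nonneg (by positivity)).2 fun i => ?_
  rw [Pi.sub_apply, bt, add_sub_cancel_left, norm_div, norm_real, Real.norm_of_nonneg (by linarith)]
  exact div_le_div_of_nonneg_right ((W.norm_c_le _ _).trans (norm_le_pi_norm η i)) (by linarith)

include E in
theorem bt_sub' (a : Cy → ℂ) (η : Cy → WD) : ‖bt S a η - a‖ ≤ ‖η‖ :=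
  (le_mul_of_one_le_left (norm_nonneg _) E.τ1).trans (bt_sub E a η)

theorem chi {X : XT J0 Cy} {η₀ rX c₁ CX P₀ : ℝ} (h : E.Coord X η₀ rX c₁ CX P₀) (h0 : η₀ ≤ 1 / 50)
    {a : Cy → ℂ} {b : J0 → ℂ} {η : Cy → WD} (ha : ‖a‖ + ‖η‖ < rX) (hb : ‖b‖ < E.r) :
    ‖bt S a η‖ < rX ∧ ‖X (bt S a η, b) - X (a, b)‖ ≤ 2 * ‖η‖ ∧
      ∀ i, ‖bwd sdF (low (X (bt S a η, b) i - X (a, b) i) - η i)‖ ≤ ‖η‖ / 20 := by
  have h1 : ‖bt S a η‖ < rX := by
    linarith [norm_le_insert' (bt S a η) a, bt_sub' E a η]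
  have hn := norm_nonneg η
  have h2 : ∀ i, ‖X (bt S a η, b) i - X (a, b) i - (η i).c 0 • (1 : WD)‖ ≤ ‖η‖ / 50 := fun i => by
    have := h.x2 _ a b h1 (by linarith) hb i
    rw [bt, add_sub_cancel_left, mul_div_cancel₀ _ (ofReal_ne_zero.2 (by linarith [E.τ1])),
      mul_assoc] at this
    refine this.trans ((mul_le_mul h0 (bt_sub E a η) (mul_nonneg (by linarith [E.τ1])
      (norm_nonneg _)) (by norm_num)).trans_eq (by ring))
  refine ⟨h1, (pi_norm_le_iff_of_nonneg (by positivity)).2 fun i => ?_, fun i => ?_⟩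
  · have h3 := norm_le_insert' (X (bt S a η, b) i - X (a, b) i) ((η i).c 0 • (1 : WD))
    rw [norm_smul, norm_one_WD, mul_one] at h3
    rw [Pi.sub_apply]
    linarith [h2 i, (W.norm_c_le (η i) 0).trans (norm_le_pi_norm η i)]
  · have h3 := (W.norm_c_le _ 0).trans (h2 i)
    rw [W.c_sub, W.c_smul, c_one_zero, smul_eq_mul, mul_one] at h3
    rw [norm_bwd_sdF, W.c_sub, c_low_zero]
    linarith

/-- the situation at one value of the parameter -/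
structure Pt (X : XT J0 Cy) (rX P B κ : ℝ) (d : TD Cy Co) (a : Cy → ℂ) (b : J0 → ℂ)
    (γh : Cy → Path) (x : Cy → WD) (π : Dat Cy Co) (j : Cy → EJ) (k : Co → EJ) (jc v : Cy → EJ) :
    Prop where
  oe : ∀ i, OE E P B κ (d.γ i) (a i)
  s1 : E.S1 a b γh (fun _ => sg S.T d.Rc) x π j k
  cf : ∀ i, OE.CutF E κ (d.γ i) (a i) (jc i) ∧ tr 0 (jc i).y2 = tr 0 (j i).y2 ∧
    (d.γ i).piC (a i) (jc i) 0 = (γh i).piC (a i) (j i) 0
  lf : ∀ i, OE.LayF E κ (d.γ i) (a i) (jc i) (v i) (d.ω i)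
  om : ∀ i, ‖d.ω i‖ ≤ E.δ₀
  oc : ∀ e, ‖d.ωc e‖ ≤ E.δ₀
  rc : P ≤ d.Rc
  xX : ‖x - X (a, b)‖ ≤ κ
  hb : ‖b‖ < E.r
  ha : ‖a‖ + 3 * E.C * κ * E.C ^ 4 < rX
  κ0 : 0 < κ
  sm : E.C ^ 7 * κ ≤ E.μ
  TP : 7 * S.T ≤ P
  q : (7 * S.T / P) ^ (3 / 2 : ℝ) ≤ κ

include E in
theorem sg_real {R : ℝ} (h : S.T ≤ R) : (sg S.T R).RealP S.T ∧ (sg S.T R).ze 1 = R :=
  E.sub.1 _ _ h

theorem kw {γ : Path} (h : γ.RealP S.T) : γ.cone.WC (pk E.Λ γ 0) E.Λ 0 (1 / 5) ∧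
    ‖γ.cone.Wt (pk E.Λ γ 0) p0‖ ≤ 2 ∧ ∀ d ω, γ.cone.dsz sdAll (pk E.Λ γ 0) d ω 0 ≤ ‖ω‖ := by
  obtain ⟨h1, h2⟩ := (E.wtK γ h).1 0 ⟨le_rfl, by norm_num⟩
  refine ⟨h1, norm_BC_le fun t => by simpa using (h2 t).2, fun d ω => ?_⟩
  rw [Ctr.dsz, bwd_sdAll, mul_zero, norm_zero, norm_zero, zero_add, add_zero]
  exact mul_le_of_le_one_left (norm_nonneg _) (by simpa using (h2 1).1)

namespace Pt
variable {E} {X : XT J0 Cy} {η₀ rX c₁ CX P₀ P B κ : ℝ} {d : TD Cy Co} {a : Cy → ℂ} {b : J0 → ℂ}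
  {γh : Cy → Path} {x : Cy → WD} {π : Dat Cy Co} {j : Cy → EJ} {k : Co → EJ} {jc v : Cy → EJ}
  (h : Pt E X rX P B κ d a b γh x π j k jc v)
include h

theorem num : κ ≤ E.C * κ ∧ E.C * κ ≤ 3 * E.C * κ * E.C ^ 4 ∧
    1000 * (E.C * (3 * E.C * κ * E.C ^ 4)) ≤ E.μ ∧
    3 * E.C * κ * E.C ^ 4 ≤ E.C * (3 * E.C * κ * E.C ^ 4) := by
  have h1 : _ ≤ E.C ^ 7 * κ := mul_le_mul_of_nonneg_right (E.num_le 6) h.κ0.le
  have h2 := mul_le_mul_of_nonneg_right (E.pow_le (show 1 ≤ 5 by norm_num)) h.κ0.le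
  have h3 := mul_pos (pow_pos E.C0 6) h.κ0
  have h4 := mul_pos (pow_pos E.C0 5) h.κ0
  refine ⟨le_mul_of_one_le_left h.κ0.le E.C1, by nlinarith, by linarith [h.sm],
    le_mul_of_one_le_left (by nlinarith) E.C1⟩

theorem real : (sg S.T d.Rc).RealP S.T ∧ (sg S.T d.Rc).ze 1 = d.Rc :=
  sg_real E (by linarith [h.rc, h.TP, E.T0])

theorem exH (hX : E.Coord X η₀ rX c₁ CX P₀) (h0 : η₀ ≤ 1 / 50) :
    E.ExH sdF (3 * E.C * κ * E.C ^ 4) (3 * E.C * κ) b a d.γ (fun _ => sg S.T d.Rc)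
      (fun i => (d.γ i).pw (a i) (3 / 5)) (fun i => (d.γ i).pw (a i) (9 / 10))
      (fun _ => pk E.Λ (sg S.T d.Rc) 0) (fun _ => φe) (fun i => jc i + v i) k π
      (fun η => X (bt S a η, b)) (fun i => -tr 1 (v i).y2) 0 d.ωc := by
  obtain ⟨n1, n2, n3, n4⟩ := h.num
  have hκ := h.κ0
  have hC := E.C0
  have hμ := E.μ_le'
  have hμ0 := E.μ0
  have m := h.s1.ms
  have d0 := E.small E.δ₀0.le E.hδ₀ (n := 1) (by norm_num)
  have b0 : ‖b‖ < E.r₀ := by linarith [h.hb, E.r_le, E.r0]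
  have x0 : ‖X (a, b)‖ ≤ 2 * E.μ := by
    linarith [norm_le_insert (x) (X (a, b)), h.s1.xb, h.xX]
  have p0 : ‖((b, X (a, b), π) : CP J0 Cy Co)‖ < E.r₀ := by
    simp only [Prod.norm_def (b, _), Prod.norm_def (X (a, b), π)]
    exact max_lt b0 (max_lt (by linarith) (by linarith [h.s1.pb]))
  have xx : ‖X (a, b) - x‖ ≤ κ := norm_sub_rev x _ ▸ h.xX
  have ex : E.ε * ‖X (a, b) - x‖ ≤ κ := by nlinarith [E.ε_le, E.ε0, norm_nonneg (X (a, b) - x)]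
  refine ⟨fun i => (h.oe i).sa, fun i => (h.oe i).adm, fun i =>
    ⟨(h.oe i).wt.2.2.2.2.2.2.2.1 _ ⟨by norm_num, by norm_num⟩,
      (h.oe i).wt.2.2.2.2.2.2.2.1 _ ⟨by norm_num, by norm_num⟩⟩,
    fun i => ⟨(h.cf i).1.jet.add (h.lf i).jet,
      (OE.one_le (h.cf i).1 (h.lf i) (h.om i)).trans (OE.half_le E)⟩,
    fun e => ⟨(m.cone e).1, (h.s1.kdec e).trans (by linarith [E.δ₁_le, E.δ₀_le, E.δ₁0, E.δ₀0])⟩, b0,
    by linarith [h.s1.pb], fun η hη => ?_, fun i => ?_, fun i => ?_, fun e => ?_, fun e => ?_,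
    fun i => (h.oe i).ds9 (h.cf i).1 (h.lf i) (h.om i), fun e => ?_,
    fun i => ((h.oe i).ds6' (h.cf i).1 (h.lf i) (h.om i)).trans
      (by linarith [E.δ₁_le, E.δ₀_le, E.δ₁0, E.δ₀0]), fun e => ?_⟩
  · obtain ⟨-, c2, c3⟩ := chi E hX h0 (η := η) (by linarith [h.ha]) h.hb
    rw [bt_zero]
    exact ⟨by linarith [norm_le_insert' (X (bt S a η, b)) (X (a, b))], c2, c3⟩
  · have l := E.core.lip1 _ _ p0 m.ball i
    simp only [sub_self, norm_zero, mul_zero, zero_add, add_zero] at l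
    rw [bt_zero, EJ.add_y2, map_add, (h.lf i).y0, add_zero, (h.cf i).2.1, ← m.my i,
      add_sub_add_left_eq_sub]
    have l2 := (norm_bwd_le sdCyl (X (a, b) i - x i)).trans
      ((norm_le_pi_norm (X (a, b) - x) i).trans xx)
    linarith [norm_le_insert' ((S.out (b, X (a, b), π)).1 i - (S.out (b, x, π)).1 i)
      (low (X (a, b) i - x i))]
  · have l := (E.cmp_pt (h.oe i).sa (h.oe i).adm (tr 0 (j i).y2) (tr 0 (j i).y2)
      ((γh i).piC (a i) (j i) 0) ((γh i).piC (a i) (j i) 0 + (d.γ i).piC (a i) (v i) 0)).2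
    rw [EJ.add_y2, map_add, (h.lf i).y0, add_zero, (h.cf i).2.1, piC_add, (h.cf i).2.2, m.mp i]
    rw [sub_add_cancel_left, norm_neg, sub_self, norm_zero, add_zero] at l
    have l1 := (h.lf i).p0.trans (mul_le_of_le_one_left hκ.le
      (by nlinarith [mul_le_mul_of_nonneg_left (h.om i) hC.le, E.δ_le]))
    have l2 := E.small E.ε0.le E.hε (n := 1) (by norm_num)
    have l3 := norm_le_insert' (cvP (a i) 0 S.T (tr 0 (j i).y2) ((γh i).piC (a i) (j i) 0) -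
      cvP (a i) 0 S.T (tr 0 (j i).y2) ((γh i).piC (a i) (j i) 0 + (d.γ i).piC (a i) (v i) 0))
      (-(d.γ i).piC (a i) (v i) 0)
    rw [norm_neg] at l3
    nlinarith [norm_nonneg ((d.γ i).piC (a i) (v i) 0), mul_pos hC E.ε0]
  · have l := E.core.lip2 _ _ p0 m.ball e
    simp only [sub_self, norm_zero, mul_zero, zero_add, add_zero] at l
    rw [bt_zero, ← m.ky e, add_sub_add_left_eq_sub]
    linarith
  · rw [m.kp e, sub_self, norm_zero]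
    positivity
  · rw [(m.cone e).2, Ctr.dsz, bwd_sdAll, mul_zero, norm_zero, norm_zero, zero_add, add_zero,
      ((E.wtK _ h.real.1).2.2 _ 1).1, h.real.2, ofReal_re]
    have l := (exp_le (by linarith [E.T_ge]) h.TP h.rc).trans h.q
    have l2 : ‖d.ωc e‖ ≤ 1 := by linarith [h.oc e, E.δ₀_le, E.δ_le, E.δ₀0]
    linarith [mul_le_mul l l2 (norm_nonneg _) hκ.le]
  · obtain ⟨-, k2, k3⟩ := kw E h.real.1
    rw [(m.cone e).2]
    refine (mul_le_mul (mul_le_mul_of_nonneg_left k2 hC.le) (add_le_add le_rfl ((k3 _ _).trans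
      (h.oc e))) (add_nonneg (by positivity) (Ctr.dsz_nonneg ..)) (by positivity)).trans ?_
    nlinarith [E.μ_le, E.δ₁_le, E.δ₀_le, E.δ₀0, mul_pos hC E.δ₀0]

theorem fin (hX : E.Coord X η₀ rX c₁ CX P₀) (h0 : η₀ ≤ 1 / 50) {η π' z zc} {A ρ : ℝ}
    (hκ : κ = A * ρ ^ (27 / 20 : ℝ))
    (c : E.ExC sdF (3 * E.C * κ * E.C ^ 4) b a d.γ (fun _ => sg S.T d.Rc) (fun i => jc i + v i) k π
      (fun η => X (bt S a η, b)) (fun i => -tr 1 (v i).y2) 0 d.ωc η π' z zc) :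
    ‖bt S a η‖ < rX ∧
      E.TS X d (bt S a η) b ⟨a, π', fun i => jc i + v i + z i, fun e => k e + zc e⟩ ∧
      E.Prof (100 * E.C ^ 6 * A) ρ d (bt S a η)
        ⟨a, π', fun i => jc i + v i + z i, fun e => k e + zc e⟩ := by
  obtain ⟨n1, n2, n3, n4⟩ := h.num
  have hC := E.C0
  have pf := fun i => (h.oe i).prof (h.cf i).1 (h.lf i) (h.om i) (c.jet i).1 (c.jet i).2.1
    (c.jet i).2.2.1 (c.jet i).2.2.2 (c.ms.cyl i).2 (c.ms.ncyl i)
  refine ⟨(chi E hX h0 (by linarith [h.ha, c.hη]) h.hb).1, ⟨c.ms, fun i => admP_mono (h.oe i).adm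
    (by norm_num) (by linarith [E.K0]), fun i => (h.oe i).sa, fun i => ?_, fun i => ?_, fun e => ?_⟩,
    ?_, fun i => (pf i).1, fun e => ?_, fun i t _ => ?_⟩
  · have l := congrArg (fun f : WD => f.c 0) (c.jet i).2.2.1
    simp only [bwd_sdF, W.c_smul, c_one_zero, smul_eq_mul, mul_one] at l
    rw [← c_tr]
    change (tr 1 (jc i + v i + z i).y2).c 0 = 0
    rw [EJ.add_y2, EJ.add_y2, map_add, map_add, (h.cf i).1.y1, zero_add, W.c_add, l, W.c_neg,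
      add_neg_cancel]
  · change (d.γ i).piC (a i) (jc i + v i + z i) 1 = _
    rw [piC_add, piC_add, (h.cf i).1.p1, (h.lf i).p1, (c.jet i).2.2.2, zero_add, Pi.zero_apply,
      add_zero]
  · change (sg S.T d.Rc).piK (S.cc e) (k e + zc e) 1 = _
    rw [piK_add, h.s1.kp e, (c.kjet e).2.2]
  · have l := (bt_sub' E a η).trans c.hη.le
    rw [mul_assoc (100 * E.C ^ 6), ← hκ]
    nlinarith [mul_pos (pow_pos hC 6) h.κ0]
  · obtain ⟨k1, k2, k3⟩ := kw E h.real.1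
    have l := ((E.fcone e _ _ h.real.1 k1).1 _ _ (c.ms.cone e).1 (h.s1.ms.cone e).1 (c.ms.ncone e)
      (h.s1.ms.ncone e)).1
    rw [add_sub_cancel_left, (c.ms.cone e).2, (h.s1.ms.cone e).2, sub_self] at l
    have l1 := l.trans (mul_le_mul_of_nonneg_left (add_le_add ((norm_fwd_le _ _).trans
      (c.kjet e).2.1) (k3 _ _)) hC.le)
    have l2 := (Ctr.nrm_one_le _ _ _ _ _).trans
      (mul_le_mul k2 l1 (Ctr.nrm_nonneg ..) zero_le_two)
    have l3 : tr 1 ((sg S.T d.Rc).cone.piJ (muCone (S.cc e)) (zc e)) = d.ωc e := (c.kjet e).2.2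
    have l4 := (sg S.T d.Rc).cone.nrm_add_le (muCone (S.cc e)) 1 (k e - S.kS e (sg S.T d.Rc)) (zc e)
    rw [l3] at l2
    change (sg S.T d.Rc).cone.nrm _ 1 (k e + zc e - _) ≤ _
    rw [add_sub_right_comm]
    linarith [h.s1.kdec e, E.μ_le, E.μ0]
  · rw [mul_assoc (100 * E.C ^ 6), ← hκ]
    exact (pf i).2 t

end Pt

end S2P

open S2P

theorem Env.s2ex {X : XT J0 Cy} {η₀ rX c₁ CX P₀ : ℝ} (hX : E.Coord X η₀ rX c₁ CX P₀)
    (h0 : η₀ ≤ 1 / 50) (h1 : E.Exm) (h2 : E.S1ex) : E.S2ex X rX := by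
  intro M hM
  obtain ⟨A, A0, ρ₀, hρ₀, hs⟩ := exists_sc E P₀ hX.rX0 hX.c₁0 hX.c₁1 hX.CX0 hM
  have hC := E.C0
  refine ⟨100 * E.C ^ 6 * A, by positivity, ρ₀, hρ₀, fun ρ hρ hρ' Y _ _ U d a b hd ha hb hG => ?_⟩
  have s := hs ρ hρ hρ'
  generalize c₁ / (2 * M * ρ) = P at s
  generalize hκ : A * ρ ^ (27 / 20 : ℝ) = κ at s
  rcases U.eq_empty_or_nonempty with rfl | ⟨p₀, hp₀⟩
  · exact ⟨0, fun _ => ⟨0, 0, 0, 0⟩, differentiableOn_empty, ⟨differentiableOn_empty,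
      differentiableOn_empty, differentiableOn_empty, differentiableOn_empty⟩, fun _ h => h.elim⟩
  have hT := E.T0
  have hP : 0 < P := by linarith [s.TP]
  have κ0 : 0 < κ := (Real.rpow_pos_of_pos (by positivity) _).trans_le s.q
  have an : ∀ p ∈ U, ‖a p‖ ≤ M * ρ := fun p hp =>
    (pi_norm_le_iff_of_nonneg (by positivity)).2 (hG p hp).1.al
  have oe : ∀ p ∈ U, ∀ i, OE E P (M / ρ) κ ((d p).γ i) (a p i) := fun p hp i =>
    have g := (hG p hp).1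
    ⟨g.adm i, (mul_le_mul_of_nonneg_right (g.al i) hT.le).trans s.sa, Pre.mono (g.pre i) s.PM, s.TP,
      (g.al i).trans s.a4.le, g.up i, s.q, le_trans (by gcongr; exact g.al i) s.aB, s.sm⟩
  have cl : ∀ p ∈ U, ∀ i, E.clp P ((d p).γ i) = E.clp P ((d p₀).γ i) ∧
      E.cut P ((d p).γ i) = E.cut P ((d p₀).γ i) := fun p hp i =>
    (oe p₀ hp₀ i).cutB.2.2.2.2.1 _ (oe p hp i).adm.ok (oe p hp i).adm.re_g
      (CPre.mono (hd.com i p₀ hp₀ p hp) s.PM)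
  have rc : P ≤ (d p₀).Rc := s.PM.trans (hG p₀ hp₀).1.rc
  have sr := sg_real E (R := (d p₀).Rc) (by linarith [s.TP])
  have rs : ∀ l ≤ P / 2, S.RS l P (fun i => E.clp P ((d p₀).γ i)) fun _ => sg S.T (d p₀).Rc :=
    fun l hl => ⟨fun i => ⟨(oe p₀ hp₀ i).cutB.1, by linarith [(oe p₀ hp₀ i).cutB.2.1],
      (oe p₀ hp₀ i).cutB.2.2.1⟩, fun _ => ⟨sr.1, by rw [sr.2, ofReal_re]; linarith⟩⟩
  obtain ⟨x, π, j, k, -, d2, d3, d4, s1⟩ := h2 P _ _ (by linarith [s.TP]) (rs 0 (by positivity))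
  have a0 : ∀ p ∈ U, ‖a p‖ < E.c₀ / P := fun p hp => ((an p hp).trans_lt s.aP).trans_le
    (div_le_div_of_nonneg_right hX.c₁1 hP.le)
  have mp : MapsTo (fun p => (a p, b p)) U (ball 0 (E.c₀ / P) ×ˢ ball 0 E.r) := fun p hp =>
    ⟨mem_ball_zero_iff.2 (a0 p hp), mem_ball_zero_iff.2 (hG p hp).2⟩
  have hai : ∀ i, DifferentiableOn ℂ (fun p => a p i) U := differentiableOn_pi.1 ha
  have hj := d3.comp (ha.prodMk hb) mp
  set jc : Y → Cy → EJ := fun p i => E.cut P ((d p₀).γ i) (a p i) (j (a p, b p) i) with hjc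
  have hc : ∀ i, DifferentiableOn ℂ (fun p => jc p i) U := fun i =>
    (oe p₀ hp₀ i).cutB.2.2.2.2.2.1.comp ((hai i).prodMk (differentiableOn_pi.1 hj i))
      fun p hp => ((hG p hp).1.al i).trans_lt s.a4
  have cf : ∀ p ∈ U, ∀ i, OE.CutF E κ ((d p).γ i) (a p i) (jc p i) ∧
      tr 0 (jc p i).y2 = tr 0 (j (a p, b p) i).y2 ∧ ((d p).γ i).piC (a p i) (jc p i) 0 =
        (E.clp P ((d p₀).γ i)).piC (a p i) (j (a p, b p) i) 0 := fun p hp i => by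
    have l := (oe p hp i).cutF (j := j (a p, b p) i)
    rw [(cl p hp i).1, (cl p hp i).2] at l
    exact l ((s1 _ _ (a0 p hp) (hG p hp).2).ms.cyl i) ((s1 _ _ (a0 p hp) (hG p hp).2).dec i)
  have ph : ∀ i, Path.Hol (fun p => (d p).γ i) U := fun i => ⟨hd.op, hd.ze i, hd.g i⟩
  have ex := fun i => (E.far.2 Y U (fun _ => S.T) (fun p => a p i) (fun p => (d p).γ i) sdAll
    (fun _ => φe) hd.op (hai i) (hd.ze i) (hd.g i) (differentiableOn_const _) fun p hp =>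
      ⟨E.K_le_T, E.sa_K (oe p hp i).sa, (oe p hp i).adm, (oe p hp i).wt.2.2.2.2.2.2.2.2.1⟩).1
    (fun p => jc p i) (fun p => ((d p).γ i).Ecyl (a p i) (jc p i)) (fun _ => 0) (fun _ => 0)
    (fun p => (d p).ω i) (hc i) ((ph i).Ecyl (hai i) (fun p hp => (oe p hp i).nice) (hc i))
    (differentiableOn_const _) (differentiableOn_const _) (differentiableOn_pi.1 hd.ω i)
    fun p hp => (oe p hp i).lay_ex (cf p hp i).1 ((hG p hp).1.om i)
  choose v hv1 hv2 using ex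
  have pt : ∀ p ∈ U, Pt E X rX P (M / ρ) κ (d p) (a p) (b p) (fun i => E.clp P ((d p₀).γ i))
      (x (a p, b p)) (π (a p, b p)) (j (a p, b p)) (k (a p, b p)) (jc p) fun i => v i p :=
    fun p hp => ⟨oe p hp, hd.rc p₀ hp₀ p hp ▸ s1 _ _ (a0 p hp) (hG p hp).2, cf p hp, fun i =>
      (oe p hp i).layF (cf p hp i).1 (hv2 i p hp).1 (hv2 i p hp).2.1 (hv2 i p hp).2.2.1
        (hv2 i p hp).2.2.2.2.1 (hv2 i p hp).2.2.2.2.2, (hG p hp).1.om, (hG p hp).1.oc,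
      s.PM.trans (hG p hp).1.rc, (hX.x1 P _ _ _ _ _ _ _ _ s.P0 (rs _ le_rfl)
        ((an p hp).trans_lt s.aP) (hG p hp).2 (s1 _ _ (a0 p hp) (hG p hp).2)).trans s.x,
      (hG p hp).2, by linarith [an p hp, s.rX], κ0, le_trans (le_mul_of_one_le_right (by positivity)
        (Real.one_le_rpow ?_ (by norm_num))) s.sm, s.TP, s.q⟩
  swap
  · have := s.sa
    rw [one_le_div hρ]
    nlinarith [E.ε_le, E.T_ge, mul_le_mul_of_nonneg_right hM hρ.le]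
  have hbt : ∀ {Z : Type} [NormedAddCommGroup Z] [NormedSpace ℂ Z] {V : Set Z} {f : Z → Cy → ℂ}
      {g : Z → Cy → WD}, DifferentiableOn ℂ f V → DifferentiableOn ℂ g V →
      DifferentiableOn ℂ (fun z => bt S (f z) (g z)) V := fun hf hg =>
    differentiableOn_pi.2 fun i => (differentiableOn_pi.1 hf i).add
      (((W.cL 0).differentiable.comp_differentiableOn (differentiableOn_pi.1 hg i)).mul_const _)
  have fs : MapsTo (Prod.fst : Y × (Cy → WD) → Y) (U ×ˢ ball 0 (3 * E.C * κ * E.C ^ 4)) U :=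
    fun z hz => hz.1
  have hj1 : DifferentiableOn ℂ (fun p i => jc p i + v i p) U :=
    differentiableOn_pi.2 fun i => (hc i).add (hv1 i)
  have hk := d4.comp (ha.prodMk hb) mp
  obtain ⟨η, π', z, zc, k1, k2, k3, k4, k5⟩ := h1 Y U sdF (3 * E.C * κ * E.C ^ 4) (3 * E.C * κ) b a
    (fun p => (d p).γ) (fun _ => sg S.T (d p₀).Rc) (fun p i => ((d p).γ i).pw (a p i) (3 / 5))
    (fun p i => ((d p).γ i).pw (a p i) (9 / 10)) (fun _ => pk E.Λ (sg S.T (d p₀).Rc) 0)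
    (fun _ => φe) (fun p i => jc p i + v i p) (fun p => k (a p, b p)) (fun p => π (a p, b p))
    (fun p η => X (bt S (a p) η, b p)) (fun p i => -tr 1 (v i p).y2) (fun _ => 0)
    (fun p => (d p).ωc) hd.op (by positivity) le_rfl hb ha hd.ze hd.g
    (differentiableOn_pi.2 fun i => (ph i).pw (hai i) (fun p hp => (oe p hp i).nice) _) hj1 hk
    (d2.comp (ha.prodMk hb) mp)
    (hX.hol.comp ((hbt (ha.comp differentiableOn_fst fs) differentiableOn_snd).prodMk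
      (hb.comp differentiableOn_fst fs)) fun z hz => ⟨mem_ball_zero_iff.2 (chi E hX h0
        (by linarith [(pt z.1 hz.1).ha, mem_ball_zero_iff.1 hz.2]) (hG z.1 hz.1).2).1,
        mem_ball_zero_iff.2 (hG z.1 hz.1).2⟩)
    (differentiableOn_pi.2 fun i => ((tr 1).differentiable.comp_differentiableOn
      (EJ.differentiable_y2.comp_differentiableOn (hv1 i))).neg)
    (differentiableOn_const _) hd.ωc
    (fun _ => ⟨sr.1, (kw E sr.1).1, (E.wtK _ sr.1).2.1⟩)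
    fun p hp => hd.rc p hp p₀ hp₀ ▸ (pt p hp).exH hX h0
  refine ⟨fun p => bt S (a p) (η p), fun p => ⟨a p, π' p, fun i => jc p i + v i p + z p i,
    fun e => k (a p, b p) e + zc p e⟩, hbt ha k1, ⟨ha, k2, hj1.add k3, hk.add k4⟩,
    fun p hp => ⟨rfl, (pt p hp).fin hX h0 hκ.symm ?_⟩⟩
  rw [hd.rc p hp p₀ hp₀]
  exact k5 p hp

end Vale.Agent.P218N.Glue
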