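import Vale.Agent.P218N.Glue.Bas

/-! The second stage of the glued problem: estimates on one cylindrical end. -/

open Filter Topology Metric Set Complex
open scoped ComplexConjugate

noncomputable section

namespace Vale.Agent.P218N.Glue

open Vale.Agent.P218N.End Vale.Agent.P218N.J

variable {J0 Cy Co : Type} [Fintype J0] [Fintype Cy] [Fintype Co] {S : Sys J0 Cy Co} (E : Env S)

namespace S2P

/-- the exponential weight -/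
abbrev φe : BC := ((1 / 8 : ℝ) : ℂ) • 1
/-- the power weights -/
abbrev iP (γ : Path) (a : ℂ) (p : ℝ) : BC := (γ.cyl a).iW (γ.pw a p) p0

theorem exp_le {T P R : ℝ} (hT : 100 ≤ T) (h : 7 * T ≤ P) (hR : P ≤ R) :
    Real.exp (-(1 / 8 * (R - T))) ≤ (7 * T / P) ^ (3 / 2 : ℝ) := by
  have hP : 0 < P := by linarith
  have h1 : 7 * T / P ≤ 1 := (div_le_one hP).2 h
  have h2 : (7 * T / P) ^ (2 : ℝ) ≤ (7 * T / P) ^ (3 / 2 : ℝ) :=
    Real.rpow_le_rpow_of_exponent_ge (by positivity) h1 (by norm_num)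
  refine le_trans ?_ h2
  have h3 := Real.quadratic_le_exp_of_nonneg (x := 1 / 8 * (R - T)) (by linarith)
  rw [Real.exp_neg, Real.rpow_two, div_pow, inv_le_comm₀ (Real.exp_pos _) (by positivity), inv_div,
    div_le_iff₀ (by positivity)]
  have h4 : P / 16 ≤ 1 / 8 * (R - T) := by linarith
  have h5 : (P / 16) ^ 2 ≤ (1 / 8 * (R - T)) ^ 2 := pow_le_pow_left₀ (by positivity) h4 2
  have h6 : P ^ 2 / 512 ≤ Real.exp (1 / 8 * (R - T)) := by nlinarith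
  have h7 : 512 ≤ (7 * T) ^ 2 := by nlinarith
  calc P ^ 2 = P ^ 2 / 512 * 512 := by ring
    _ ≤ _ := mul_le_mul h6 h7 (by norm_num) (Real.exp_pos _).le

/-- the hypotheses on one end -/
structure OE (P B κ : ℝ) (γ : Path) (a : ℂ) : Prop where
  adm : AdmP (1 / 100) E.K S.T a γ
  sa : ‖a‖ * S.T ≤ E.ε
  pre : γ.Pre P
  TP : 7 * S.T ≤ P
  a4 : ‖a‖ ≤ 1 / (4 * P)
  up : ∀ t, ‖γ.ze t‖ ≤ B
  q : (7 * S.T / P) ^ (3 / 2 : ℝ) ≤ κ
  aB : ‖a‖ ^ 2 * S.T * B ^ (1 / 5 : ℝ) ≤ κ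
  sm : E.C ^ 7 * κ * B ^ (6 / 5 : ℝ) ≤ E.μ

namespace OE
variable {E} {P B κ : ℝ} {γ : Path} {a : ℂ} (h : OE E P B κ γ a)
include h

theorem P0 : 0 < P := by linarith [h.TP, E.T0]
theorem κ0 : 0 < κ := (Real.rpow_pos_of_pos (div_pos (by linarith [E.T0]) h.P0) _).trans_le h.q
theorem nice : γ.Nice (1 / 100) (1 / 10) a := nice_of_admP (by norm_num) h.adm E.K_le_T
  (E.sa_K h.sa) (by norm_num) le_rfl (by linarith [E.K_ge])
theorem wt : type_of% (E.wt E.K S.T a γ le_rfl E.K_le_T (E.sa_K h.sa) h.adm) :=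
  E.wt E.K S.T a γ le_rfl E.K_le_T (E.sa_K h.sa) h.adm
theorem iP_eq (p t : ℝ) : ‖iP γ a p t‖ = (uu a S.T / uu a (γ.ze t)) ^ p := (h.wt.1 p t).1
theorem u_pos (t : ℝ) : 0 < uu a (γ.ze t) := (h.wt.2.2.2.1 t).1
theorem u_le (t : ℝ) : uu a (γ.ze t) ≤ uu a (γ.ze 1) := by
  rw [← PolyP.ze_cl h.adm.ok t]; exact h.wt.2.1 (cl_mem t).2
theorem le_u (t : ℝ) : uu a S.T ≤ uu a (γ.ze t) := by
  rw [← PolyP.ze_cl h.adm.ok t, ← h.adm.st]; exact h.wt.2.1 (cl_mem t).1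
theorem re_le (t : ℝ) : (γ.ze t).re ≤ (γ.ze 1).re := by
  rw [← PolyP.ze_cl h.adm.ok t]; exact h.wt.2.2.1 (cl_mem t).2
theorem P_le : P ≤ (γ.ze 1).re := Pre.le_end h.pre h.wt.2.2.1
theorem B1 : 1 ≤ B := by
  linarith [h.up 1, re_le_norm (γ.ze 1), h.P_le, h.TP, E.T_ge]

theorem u0 : 1 ≤ uu a S.T ∧ uu a S.T ≤ S.T := by
  have hT := E.T_ge
  have h1 : ‖rh a S.T - 2‖ ≤ 1 := by
    rw [rh, add_sub_cancel_left, norm_mul, ← ofReal_ofNat, ← ofReal_sub, norm_real,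
      Real.norm_of_nonneg (by linarith)]
    nlinarith [h.sa, E.ε_le, norm_nonneg a]
  have h2 := abs_le.1 ((abs_norm_sub_norm_le (rh a S.T) 2).trans h1)
  rw [Complex.norm_ofNat] at h2
  rw [uu, norm_div, norm_real, Real.norm_of_nonneg (by linarith),
    one_le_div (by linarith [h2.1]), div_le_iff₀ (by linarith [h2.1])]
  constructor <;> nlinarith [h2.1, h2.2]

theorem u_Om (t : ℝ) : uu a (γ.ze t) * ‖Om a (γ.ze t)‖ = ‖γ.ze t‖ ^ 2 := by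
  have := norm_ne_zero_iff.2 (h.nice.rh_ne t)
  rw [uu, Om, norm_div, norm_mul]
  field_simp

theorem u_B (t : ℝ) : uu a (γ.ze t) ≤ B ^ 2 := by
  have h1 := h.adm.big t
  have h2 := pow_le_pow_left₀ (norm_nonneg _) (h.up t) 2
  nlinarith [h.u_Om t, h.u_pos t, E.K_ge]

theorem u_rpow (t p : ℝ) (hp : 0 ≤ p) : uu a (γ.ze t) ^ p ≤ B ^ (2 * p) := by
  rw [Real.rpow_mul (by linarith [h.B1]), Real.rpow_two]
  exact Real.rpow_le_rpow (h.u_pos t).le (h.u_B t) hp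

theorem u_ge {t : ℝ} (ht : P / 2 ≤ (γ.ze t).re) : uu a S.T / uu a (γ.ze t) ≤ 7 * S.T / P := by
  have hP := h.P0
  have hT := E.T_ge
  have h1 : P / 2 ≤ ‖γ.ze t‖ := ht.trans (re_le_norm _)
  have h2 : ‖a‖ * P ≤ 1 / 4 := by
    have := h.a4
    rw [le_div_iff₀ (by linarith)] at this
    linarith
  have h3 : ‖rh a (γ.ze t)‖ ≤ 2 + ‖a‖ * (‖γ.ze t‖ + 2) := by
    refine (norm_add_le _ _).trans ?_
    rw [Complex.norm_ofNat, norm_mul]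
    gcongr
    simpa using norm_sub_le (γ.ze t) 2
  have h4 : P / 7 ≤ uu a (γ.ze t) := by
    rw [uu, norm_div, div_le_div_iff₀ (by norm_num) (norm_pos_iff.2 (h.nice.rh_ne t))]
    nlinarith [mul_le_mul_of_nonneg_left h3 hP.le, mul_le_mul_of_nonneg_right h2 (norm_nonneg (γ.ze t)),
      h.TP]
  rw [div_le_div_iff₀ (h.u_pos t) hP]
  nlinarith [h.u0.2, mul_le_mul_of_nonneg_left h4 (show 0 ≤ 7 * S.T by linarith)]

theorem exp_κ {R : ℝ} (hR : P ≤ R) : Real.exp (-(1 / 8 * (R - S.T))) ≤ κ :=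
  (exp_le (by linarith [E.T_ge]) h.TP hR).trans h.q

theorem κ_le : E.C ^ 7 * κ ≤ E.μ := le_trans (le_mul_of_one_le_right
  (mul_pos (pow_pos E.C0 _) h.κ0).le (Real.one_le_rpow h.B1 (by norm_num))) h.sm

theorem T4 : 4 * S.T ≤ P := by linarith [h.TP, E.T0]

theorem cutB : type_of% (E.hcut E.K S.T P γ le_rfl E.K_le_T h.T4 h.adm.ok h.adm.st h.adm.re_g
    h.pre) := E.hcut E.K S.T P γ le_rfl E.K_le_T h.T4 h.adm.ok h.adm.st h.adm.re_g h.pre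

theorem clp_adm : AdmP (1 / 100) E.K S.T a (E.clp P γ) :=
  E.admP_real h.cutB.1 E.K_le_T h.cutB.2.2.1 h.a4

theorem iP_clp (p : ℝ) {t : ℝ} (ht : (γ.ze t).re ≤ 5 * P / 8) :
    ‖iP (E.clp P γ) a p t‖ = (uu a S.T / uu a (γ.ze t)) ^ p := by
  rw [← h.cutB.2.2.2.1 t ht]
  exact ((E.wt E.K S.T a _ le_rfl E.K_le_T (E.sa_K h.sa) h.clp_adm).1 p t).1

/-- the facts about the cut off solution of the first stage -/
structure CutF (E : Env S) (κ : ℝ) (γ : Path) (a : ℂ) (jc : EJ) : Prop where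
  jet : (γ.cyl a).IsJet jc
  y1 : tr 1 jc.y2 = 0
  p1 : γ.piC a jc 1 = 0
  dec : (γ.cyl a).nrm muCyl (iP γ a (-(9 / 10))) jc ≤ E.C * E.δ₁
  one : (γ.cyl a).nrm muCyl 1 jc ≤ E.C * E.δ₁
  r9 : ‖W.C (iP γ a (9 / 10)) * γ.Ecyl a jc‖ ≤ 2 * E.C * κ
  r6 : ‖W.C (iP γ a (3 / 5)) * γ.Ecyl a jc‖ ≤ E.C * (κ +
    (uu a S.T / uu a (γ.ze 1)) ^ (3 / 5 : ℝ) * (‖a‖ ^ 2 * uu a (γ.ze 1)))

theorem cutF {j : EJ} (hj : (E.clp P γ).IsCyl a j)
    (hd : ((E.clp P γ).cyl a).nrm muCyl (iP (E.clp P γ) a (-(9 / 10))) j ≤ E.δ₁) :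
    CutF E κ γ a (E.cut P γ a j) ∧ tr 0 (E.cut P γ a j).y2 = tr 0 j.y2 ∧
      γ.piC a (E.cut P γ a j) 0 = (E.clp P γ).piC a j 0 := by
  obtain ⟨c1, c2, c3, c4, c5, c6, c7⟩ := h.cutB.2.2.2.2.2.2 a j h.a4 h.adm hj.1
  have hC := E.C0
  have hκ := h.κ0
  have r0 : ∀ t, 0 < uu a S.T / uu a (γ.ze t) := fun t => div_pos (by linarith [h.u0.1]) (h.u_pos t)
  have r1 : ∀ t, uu a S.T / uu a (γ.ze t) ≤ 1 := fun t => (div_le_one (h.u_pos t)).2 (h.le_u t)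
  have dec : (γ.cyl a).nrm muCyl (iP γ a (-(9 / 10))) (E.cut P γ a j) ≤ E.C * E.δ₁ :=
    (c6 _ _ fun t ht => by rw [h.iP_eq, h.iP_clp _ ht]).trans (mul_le_mul_of_nonneg_left hd hC.le)
  have w1 : ∀ {γ' : Path}, AdmP (1 / 100) E.K S.T a γ' → ∀ j',
      (γ'.cyl a).nrm muCyl 1 j' ≤ (γ'.cyl a).nrm muCyl (iP γ' a (-(9 / 10))) j' := fun {γ'} ha j' => by
    obtain ⟨b1, b2, -, b3, -⟩ := E.wt E.K S.T a _ le_rfl E.K_le_T (E.sa_K h.sa) ha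
    refine (nrm_mono _ _ _ zero_le_one fun t => ?_).trans_eq (one_mul _)
    rw [(b1 _ t).1, one_mul, BoundedContinuousFunction.coe_one, Pi.one_apply, norm_one]
    refine Real.one_le_rpow_of_pos_of_le_one_of_nonpos (div_pos (by linarith [h.u0.1]) (b3 t).1)
      ((div_le_one (b3 t).1).2 ?_) (by norm_num)
    rw [← PolyP.ze_cl ha.ok t, ← ha.st]; exact b2 (cl_mem t).1
  have n1 : ((E.clp P γ).cyl a).nrm muCyl 1 j ≤ 1 / E.C := by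
    refine ((w1 h.clp_adm j).trans hd).trans ?_
    have := E.small E.δ₁0.le E.hδ₁ (n := 1) (by norm_num)
    rw [le_div_iff₀ hC]
    nlinarith [E.δ₀_le, E.δ_le, E.δ₀0, mul_pos hC E.δ₁0]
  have res : ∀ p : ℝ, 3 / 5 ≤ p → ∀ B', 0 ≤ B' → (∀ t, P / 2 ≤ (γ.ze t).re →
      (uu a S.T / uu a (γ.ze t)) ^ p * (‖a‖ ^ 2 * uu a (γ.ze t)) ≤ B') →
      ‖W.C (iP γ a p) * γ.Ecyl a (E.cut P γ a j)‖ ≤ E.C * (κ + B') := fun p hp B' h0 hB => by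
    refine (c7 hj.2 n1 _ (iP (E.clp P γ) a (-(9 / 10))) κ B' hκ.le h0 (fun t h1 h2 => ?_)
      fun t ht => ?_).trans ?_
    · rw [h.iP_eq, h.iP_clp _ h2, show p = (p + 9 / 10) + -(9 / 10) by ring, Real.rpow_add (r0 t)]
      refine mul_le_mul_of_nonneg_right (le_trans ?_ h.q) (Real.rpow_nonneg (r0 t).le _)
      exact (Real.rpow_le_rpow_of_exponent_ge (r0 t) (r1 t) (by linarith)).trans
        (Real.rpow_le_rpow (r0 t).le (h.u_ge h1) (by norm_num))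
    · rw [h.iP_eq, mul_div_assoc, norm_mul, norm_pow]
      exact hB t ht
    · gcongr
      exact (mul_le_mul_of_nonneg_left (hd.trans E.δ₁_lt) hκ.le).trans_eq (mul_one _)
  refine ⟨⟨c1, c4, c5, dec, (w1 h.adm _).trans dec, (res _ (by norm_num) κ hκ.le fun t _ => ?_).trans_eq
    (by ring), res _ le_rfl _ (mul_nonneg (Real.rpow_nonneg (r0 1).le _)
      (mul_nonneg (sq_nonneg _) (h.u_pos 1).le)) fun t _ => ?_⟩, c2, c3⟩
  · refine le_trans ?_ h.aB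
    have u0 := h.u0
    have e : uu a (γ.ze t) = uu a (γ.ze t) ^ (9 / 10 : ℝ) * uu a (γ.ze t) ^ (1 / 10 : ℝ) := by
      rw [← Real.rpow_add (h.u_pos t)]; norm_num
    have b1 : uu a S.T ^ (9 / 10 : ℝ) ≤ S.T := le_trans
      (by simpa using Real.rpow_le_rpow_of_exponent_le u0.1 (show (9 / 10 : ℝ) ≤ 1 by norm_num)) u0.2
    have b2 := h.u_rpow t (1 / 10) (by norm_num)
    have b3 := Real.rpow_pos_of_pos (h.u_pos t) (9 / 10)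
    rw [show 2 * (1 / 10 : ℝ) = 1 / 5 by norm_num] at b2
    rw [Real.div_rpow (by linarith) (h.u_pos t).le]
    calc _ = ‖a‖ ^ 2 * uu a S.T ^ (9 / 10 : ℝ) * uu a (γ.ze t) ^ (1 / 10 : ℝ) := by
          rw [div_mul_eq_mul_div, div_eq_iff b3.ne']
          nth_rewrite 1 [e]
          ring
      _ ≤ _ := by
        have := Real.rpow_nonneg (h.u_pos t).le (1 / 10)
        have := E.T0
        gcongr
  · have u0 := h.u0
    have e : ∀ s, (uu a S.T / uu a (γ.ze s)) ^ (3 / 5 : ℝ) * (‖a‖ ^ 2 * uu a (γ.ze s)) =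
        uu a S.T ^ (3 / 5 : ℝ) * ‖a‖ ^ 2 * uu a (γ.ze s) ^ (2 / 5 : ℝ) := fun s => by
      have e : uu a (γ.ze s) = uu a (γ.ze s) ^ (3 / 5 : ℝ) * uu a (γ.ze s) ^ (2 / 5 : ℝ) := by
        rw [← Real.rpow_add (h.u_pos s)]; norm_num
      rw [Real.div_rpow (by linarith) (h.u_pos s).le, div_mul_eq_mul_div,
        div_eq_iff (Real.rpow_pos_of_pos (h.u_pos s) _).ne']
      nth_rewrite 1 [e]
      ring
    rw [e, e]
    exact mul_le_mul_of_nonneg_left (Real.rpow_le_rpow (h.u_pos t).le (h.u_le t) (by norm_num))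
      (mul_nonneg (Real.rpow_nonneg (by linarith) _) (sq_nonneg _))

theorem Wt_e : ‖(γ.cyl a).Wt φe p0‖ ≤ Real.exp (1 / 8 * ((γ.ze 1).re - S.T)) :=
  norm_BC_le fun t => by
    rw [(h.wt.2.2.2.2.1 _ t).2]
    exact Real.exp_le_exp.2 (by linarith [h.re_le t])

theorem ap {s : ℤ → Icc (0 : ℝ) 1} {φ : BC} (ht : (γ.cyl a).TypW s φ) {j v : EJ}
    (hj : (γ.cyl a).IsJet j) (hv : (γ.cyl a).IsJet v) (h1 : (γ.cyl a).nrm muCyl 1 j ≤ E.δ)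
    (h2 : (γ.cyl a).nrm muCyl 1 (j + v) ≤ E.δ) :
    (γ.cyl a).nrm muCyl ((γ.cyl a).iW φ p0) v ≤ E.C * (‖fwd s (tr 0 v.y2)‖ +
      (γ.cyl a).dsz s φ (tr 1 v.y2) (γ.piC a v 1) (γ.Ecyl a (j + v) - γ.Ecyl a j)) := by
  have := ((E.far.1 S.T a γ s φ E.K_le_T (E.sa_K h.sa) h.adm ht).1 (j + v) j (hj.add hv) hj
    (by rwa [sub_zero]) (by rwa [sub_zero])).1
  rwa [add_sub_cancel_left] at this

theorem dsz_e (d ω : WD) : (γ.cyl a).dsz sdAll φe d ω 0 =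
    Real.exp (-(1 / 8 * ((γ.ze 1).re - S.T))) * ‖ω‖ := by
  rw [Ctr.dsz, bwd_sdAll, mul_zero, norm_zero, norm_zero, zero_add, add_zero,
    (h.wt.2.2.2.2.1 _ 1).1]

/-- the hypothesis of the existence theorem for the boundary layer -/
theorem lay_ex {jc : EJ} (hc : CutF E κ γ a jc) {ω : WD} (hω : ‖ω‖ ≤ E.δ₀) :
    (γ.cyl a).IsJet jc ∧ (γ.cyl a).nrm muCyl 1 (jc - 0) ≤ E.δ / 2 ∧
      E.C * ‖(γ.cyl a).Wt φe p0‖ * (‖fwd sdAll 0‖ +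
        (γ.cyl a).dsz sdAll φe 0 ω (γ.Ecyl a jc - γ.Ecyl a jc)) ≤ E.δ / 2 := by
  have h1 := E.small E.δ₁0.le E.hδ₁ (n := 1) (by norm_num)
  have h2 := E.small E.δ₀0.le E.hδ₀ (n := 1) (by norm_num)
  have hC := E.C0
  refine ⟨hc.jet, by rw [sub_zero]; nlinarith [hc.one, E.δ₀_le, E.δ₀0, mul_pos hC E.δ₁0], ?_⟩
  rw [sub_self, h.dsz_e, map_zero, norm_zero, zero_add]
  calc _ ≤ E.C * Real.exp (1 / 8 * ((γ.ze 1).re - S.T)) *
        (Real.exp (-(1 / 8 * ((γ.ze 1).re - S.T))) * E.δ₀) := by gcongr; exact h.Wt_e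
    _ = E.C * E.δ₀ := by rw [Real.exp_neg]; field_simp
    _ ≤ _ := by nlinarith [mul_pos hC E.δ₀0]

/-- the facts about the boundary layer -/
structure LayF (E : Env S) (κ : ℝ) (γ : Path) (a : ℂ) (jc v : EJ) (ω : WD) : Prop where
  jet : (γ.cyl a).IsJet v
  eq : γ.Ecyl a (jc + v) = γ.Ecyl a jc
  y0 : tr 0 v.y2 = 0
  p1 : γ.piC a v 1 = ω
  one : (γ.cyl a).nrm muCyl 1 v ≤ E.C * ‖ω‖
  pt : ∀ t, ptN (γ.cyl a) muCyl v t ≤
    5 * E.C * ‖ω‖ * Real.exp (-(1 / 8 * ((γ.ze 1).re - (γ.ze t).re)))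
  p0 : ‖γ.piC a v 0‖ ≤ E.C * ‖ω‖ * κ
  y1 : ‖(tr 1 v.y2).c 0‖ ≤ 2000 * E.C * (‖ω‖ / ‖Om a (γ.ze 1)‖)

theorem layF {jc v : EJ} (hc : CutF E κ γ a jc) {ω : WD} (h1 : (γ.cyl a).IsJet v)
    (h2 : γ.Ecyl a (jc + v) = γ.Ecyl a jc) (h3 : fwd sdAll (tr 0 v.y2) = fwd sdAll 0)
    (h4 : γ.piC a v 1 = ω) (h5 : (γ.cyl a).nrm muCyl 1 (jc + v - 0) ≤ E.δ) :
    LayF E κ γ a jc v ω := by
  have hC := E.C0
  have b0 := E.small E.δ₁0.le E.hδ₁ (n := 1) (by norm_num)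
  have b1 := h.ap h.wt.2.2.2.2.2.2.2.2.1 hc.jet h1
    (by nlinarith [hc.one, E.δ₀_le, E.δ₀0, mul_pos hC E.δ₁0]) (by rwa [sub_zero] at h5)
  rw [h3, map_zero, norm_zero, zero_add, h2, sub_self, h.dsz_e, h4] at b1
  have e0 : tr 0 v.y2 = 0 := by rwa [fwd_sdAll, fwd_sdAll] at h3
  have e1 : ∀ x : ℝ, Real.exp x * Real.exp (-x) = 1 := fun x => by rw [← Real.exp_add]; simp
  refine ⟨h1, h2, e0, h4, ?_, fun t => ?_, ?_, ?_⟩
  · refine ((γ.cyl a).nrm_one_le _ φe p0 v).trans ((mul_le_mul h.Wt_e b1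
      ((γ.cyl a).nrm_nonneg _ _ _) (Real.exp_pos _).le).trans_eq ?_)
    linear_combination E.C * ‖ω‖ * e1 _
  · refine (ptN_le_Wt _ _ _ φe t).trans ((mul_le_mul_of_nonneg_left b1 (by positivity)).trans_eq ?_)
    rw [(h.wt.2.2.2.2.1 _ t).2, show -(1 / 8 * ((γ.ze 1).re - (γ.ze t).re)) =
      1 / 8 * ((γ.ze t).re - S.T) + -(1 / 8 * ((γ.ze 1).re - S.T)) by ring, Real.exp_add]
    ring
  · have := (tr_pi_le _ _ ((γ.cyl a).iW φe p0) v 0).trans b1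
    rw [(h.wt.2.2.2.2.1 _ 0).1, h.adm.st, ofReal_re, sub_self, mul_zero, neg_zero, Real.exp_zero,
      one_mul] at this
    refine this.trans ?_
    rw [mul_assoc, mul_comm ‖ω‖]
    gcongr
    exact h.exp_κ h.P_le
  · have := h.wt.2.2.2.2.2.2.2.2.2 v _ h1 ((op_le_nrm _ _ _ v).trans b1)
    rw [← c_tr, ← c_tr, e0, W.c_zero, sub_zero] at this
    refine this.trans_eq ?_
    rw [mul_div_assoc']
    congr 1
    linear_combination 2000 * E.C * ‖ω‖ * e1 (1 / 8 * ((γ.ze 1).re - S.T))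

/-- the size of the correction at the end of the path -/
def GG (E : Env S) (κ : ℝ) (γ : Path) (a : ℂ) (ω : WD) : ℝ :=
  2000 * E.C * (‖ω‖ / ‖Om a (γ.ze 1)‖) + E.C * (‖a‖ ^ 2 * uu a (γ.ze 1)) +
    19 * E.C ^ 5 * κ * uu a (γ.ze 1) ^ (3 / 5 : ℝ)

variable {jc v : EJ} {ω : WD}

theorem GG_le (hω : ‖ω‖ ≤ E.δ₀) : E.C * GG E κ γ a ω ≤ E.δ₁ := by
  have hC := E.C0
  have hK := E.K0
  have i1 : 1 / ‖Om a (γ.ze 1)‖ ≤ 1 / E.K := one_div_le_one_div_of_le hK (h.adm.big 1)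
  have i2 : 1 / ‖γ.ze 1‖ ≤ 1 / E.K := one_div_le_one_div_of_le hK
    (by linarith [re_le_norm (γ.ze 1), h.P_le, h.TP, E.K_le_T, E.T0])
  have i3 : ‖ω‖ / ‖Om a (γ.ze 1)‖ ≤ 1 / E.K := le_trans (div_le_div_of_nonneg_right
    (by linarith [E.δ₀_le, E.δ_le, E.δ₀0]) (norm_nonneg _)) i1
  have i4 : ‖a‖ ^ 2 * uu a (γ.ze 1) ≤ 60 * (1 / E.K) := by
    linarith [(h.wt.2.2.2.1 1).2.2, E.sa_K h.sa]
  have i5 := E.small (one_div_pos.2 hK).le E.inv_K (n := 2) (by norm_num)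
  have i6 := h.u_rpow 1 (3 / 5) (by norm_num)
  rw [show 2 * (3 / 5 : ℝ) = 6 / 5 by norm_num] at i6
  have i7 : E.C ^ 6 * κ * uu a (γ.ze 1) ^ (3 / 5 : ℝ) * 100000 ≤ E.μ := by
    refine le_trans ?_ h.sm
    have := h.κ0
    have := Real.rpow_nonneg (h.u_pos 1).le (3 / 5)
    calc _ = 100000 * E.C ^ 6 * κ * uu a (γ.ze 1) ^ (3 / 5 : ℝ) := by ring
      _ ≤ _ := by gcongr; exact E.num_le 6
  have i8 := mul_le_mul_of_nonneg_left i3 (sq_nonneg E.C)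
  have i9 := mul_le_mul_of_nonneg_left i4 (sq_nonneg E.C)
  unfold GG
  nlinarith [E.μ_le, E.μ0, E.δ₁0]

theorem ds9 (hc : CutF E κ γ a jc) (hl : LayF E κ γ a jc v ω) (hω : ‖ω‖ ≤ E.δ₀) :
    (γ.cyl a).dsz sdF (γ.pw a (9 / 10)) (-tr 1 v.y2) 0 (γ.Ecyl a (jc + v)) ≤ 3 * E.C * κ := by
  have hC := E.C1
  have hκ := h.κ0
  have hP := h.P0
  have hT := E.T_ge
  have u0 := h.u0
  have u00 := u0.1
  have u1 := h.u_pos 1
  have hO : 1 ≤ ‖Om a (γ.ze 1)‖ := by linarith [h.adm.big 1, E.K_ge]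
  have b0 := E.small E.δ₀0.le E.hδ₀ (n := 1) (by norm_num)
  have b1 : 2000 * E.C * (‖ω‖ / ‖Om a (γ.ze 1)‖) ≤ 1 / ‖Om a (γ.ze 1)‖ ^ (9 / 10 : ℝ) := by
    rw [mul_div_assoc']
    refine div_le_div₀ zero_le_one (by nlinarith [E.δ_le, mul_le_mul_of_nonneg_left hω E.C0.le])
      (by positivity) ?_
    simpa using Real.rpow_le_rpow_of_exponent_le hO (show (9 / 10 : ℝ) ≤ 1 by norm_num)
  have b2 : uu a S.T / uu a (γ.ze 1) / ‖Om a (γ.ze 1)‖ ≤ (7 * S.T / P) ^ 2 := by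
    rw [div_div, h.u_Om, div_pow]
    exact div_le_div₀ (by positivity) (by nlinarith)  (by positivity)
      (pow_le_pow_left₀ hP.le (h.P_le.trans (re_le_norm _)) 2)
  have b3 : (uu a S.T / uu a (γ.ze 1)) ^ (9 / 10 : ℝ) * (1 / ‖Om a (γ.ze 1)‖ ^ (9 / 10 : ℝ)) ≤ κ := by
    rw [mul_one_div, ← Real.div_rpow (by positivity) (by positivity)]
    refine (Real.rpow_le_rpow (by positivity) b2 (by norm_num)).trans (le_trans ?_ h.q)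
    rw [← Real.rpow_two, ← Real.rpow_mul (by positivity)]
    exact Real.rpow_le_rpow_of_exponent_ge (by positivity) ((div_le_one hP).2 h.TP) (by norm_num)
  have b4 := (mul_le_mul_of_nonneg_left (hl.y1.trans b1) (by positivity)).trans b3
  rw [Ctr.dsz, hl.eq, map_neg, norm_neg, norm_zero, add_zero, norm_bwd_sdF, h.iP_eq]
  nlinarith [hc.r9]

theorem ds6 (hc : CutF E κ γ a jc) (hl : LayF E κ γ a jc v ω) (t : ℝ) :
    ‖(γ.cyl a).Wt (γ.pw a (3 / 5)) p0 t‖ * (6 * (3 * E.C * κ * E.C ^ 4) +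
      (γ.cyl a).dsz sdF (γ.pw a (3 / 5)) (-tr 1 v.y2) 0 (γ.Ecyl a (jc + v))) ≤
      GG E κ γ a ω * (uu a (γ.ze t) / uu a (γ.ze 1)) ^ (3 / 5 : ℝ) := by
  have hC := E.C0
  have hκ := h.κ0
  have u0 := h.u0.1
  have u1 := h.u_pos 1
  have ut := h.u_pos t
  have e1 : (uu a (γ.ze t) / uu a S.T) ^ (3 / 5 : ℝ) * (uu a S.T / uu a (γ.ze 1)) ^ (3 / 5 : ℝ) =
      (uu a (γ.ze t) / uu a (γ.ze 1)) ^ (3 / 5 : ℝ) := by
    rw [← Real.mul_rpow (by positivity) (by positivity)]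
    congr 1
    field_simp
  have e2 : (uu a (γ.ze t) / uu a S.T) ^ (3 / 5 : ℝ) ≤
      uu a (γ.ze 1) ^ (3 / 5 : ℝ) * (uu a (γ.ze t) / uu a (γ.ze 1)) ^ (3 / 5 : ℝ) := by
    rw [← Real.mul_rpow (by positivity) (by positivity), mul_div_cancel₀ _ u1.ne']
    exact Real.rpow_le_rpow (by positivity) (div_le_self ut.le u0) (by norm_num)
  have b1 : E.C * κ ≤ E.C ^ 5 * κ := by
    gcongr
    simpa using E.pow_le (show 1 ≤ 5 by norm_num)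
  rw [Ctr.dsz, hl.eq, map_neg, norm_neg, norm_zero, add_zero, norm_bwd_sdF, h.iP_eq,
    (h.wt.1 _ t).2]
  have w0 : 0 ≤ (uu a (γ.ze t) / uu a S.T) ^ (3 / 5 : ℝ) := by positivity
  have w1 : 0 ≤ (uu a S.T / uu a (γ.ze 1)) ^ (3 / 5 : ℝ) := by positivity
  calc _ ≤ (uu a (γ.ze t) / uu a S.T) ^ (3 / 5 : ℝ) * (19 * E.C ^ 5 * κ +
        (uu a S.T / uu a (γ.ze 1)) ^ (3 / 5 : ℝ) * (2000 * E.C * (‖ω‖ / ‖Om a (γ.ze 1)‖) +
          E.C * (‖a‖ ^ 2 * uu a (γ.ze 1)))) := by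
        refine mul_le_mul_of_nonneg_left ?_ w0
        nlinarith [hc.r6, mul_le_mul_of_nonneg_left hl.y1 w1]
    _ ≤ _ := by
        rw [mul_add, ← mul_assoc, ← mul_assoc _ (_ ^ _), e1, GG]
        nlinarith [mul_le_mul_of_nonneg_left e2 (show 0 ≤ 19 * E.C ^ 5 * κ by positivity)]

theorem ds6' (hc : CutF E κ γ a jc) (hl : LayF E κ γ a jc v ω) (hω : ‖ω‖ ≤ E.δ₀) :
    E.C * ‖(γ.cyl a).Wt (γ.pw a (3 / 5)) p0‖ * (6 * (3 * E.C * κ * E.C ^ 4) +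
      (γ.cyl a).dsz sdF (γ.pw a (3 / 5)) (-tr 1 v.y2) 0 (γ.Ecyl a (jc + v))) ≤ E.δ₁ := by
  have hC := E.C0
  have hκ := h.κ0
  have hD := (γ.cyl a).dsz_nonneg sdF (γ.pw a (3 / 5)) (-tr 1 v.y2) 0 (γ.Ecyl a (jc + v))
  have u1 := h.u_pos 1
  refine le_trans ?_ (h.GG_le hω)
  rw [mul_assoc]
  refine mul_le_mul_of_nonneg_left ?_ hC.le
  rw [← le_div_iff₀ (by positivity)]
  refine norm_BC_le fun t => ?_
  rw [le_div_iff₀ (by positivity)]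
  refine (h.ds6 hc hl t).trans (mul_le_of_le_one_right (by unfold GG; positivity) ?_)
  exact Real.rpow_le_one (div_nonneg (h.u_pos t).le u1.le) ((div_le_one u1).2 (h.u_le t))
    (by norm_num)

omit h in
theorem one_le (hc : CutF E κ γ a jc) (hl : LayF E κ γ a jc v ω) (hω : ‖ω‖ ≤ E.δ₀) :
    (γ.cyl a).nrm muCyl 1 (jc + v) ≤ E.C * E.δ₁ + E.C * E.δ₀ :=
  ((γ.cyl a).nrm_add_le _ _ _ _).trans
    (add_le_add hc.one (hl.one.trans (mul_le_mul_of_nonneg_left hω E.C0.le)))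

omit h in
theorem half_le (E : Env S) : E.C * E.δ₁ + E.C * E.δ₀ ≤ E.δ / 2 := by
  have h1 := E.small E.δ₀0.le E.hδ₀ (n := 1) (by norm_num)
  nlinarith [mul_le_mul_of_nonneg_left E.δ₁_le E.C0.le, mul_pos E.C0 E.δ₀0, mul_pos E.C0 E.δ₁0]

/-- the shape of the solution -/
theorem prof (hc : CutF E κ γ a jc) (hl : LayF E κ γ a jc v ω) (hω : ‖ω‖ ≤ E.δ₀) {z : EJ}
    (h1 : (γ.cyl a).IsJet z) (h2 : ‖tr 0 z.y2‖ ≤ 6 * (3 * E.C * κ * E.C ^ 4))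
    (h3 : bwd sdF (tr 1 z.y2) = bwd sdF (-tr 1 v.y2)) (h4 : γ.piC a z 1 = 0)
    (h5 : γ.Ecyl a (jc + v + z) = 0) (h6 : (γ.cyl a).nrm muCyl 1 (jc + v + z) ≤ E.δ) :
    (γ.cyl a).nrm muCyl 1 (jc + v + z) ≤ 2 * E.C * E.δ₀ ∧ ∀ t,
      ptN (γ.cyl a) muCyl (jc + v + z) t ≤
        E.C ^ 2 * E.δ₁ * (uu a S.T / uu a (γ.ze t)) ^ (9 / 10 : ℝ) +
        E.C ^ 2 * ‖ω‖ * Real.exp (-(1 / 8 * ((γ.ze 1).re - (γ.ze t).re))) +
        (E.C ^ 4 * (‖ω‖ / ‖Om a (γ.ze 1)‖ + ‖a‖ ^ 2 * uu a (γ.ze 1)) +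
          100 * E.C ^ 6 * κ * uu a (γ.ze 1) ^ (3 / 5 : ℝ)) *
          (uu a (γ.ze t) / uu a (γ.ze 1)) ^ (3 / 5 : ℝ) := by
  have hC := E.C0
  have hκ := h.κ0
  have n1 := one_le hc hl hω
  have b1 := h.ap (h.wt.2.2.2.2.2.2.2.1 (3 / 5) ⟨by norm_num, by norm_num⟩) (hc.jet.add hl.jet) h1
    (by linarith [half_le E, E.δ0]) h6
  have e : (γ.cyl a).dsz sdF (γ.pw a (3 / 5)) (tr 1 z.y2) (γ.piC a z 1)
      (γ.Ecyl a (jc + v + z) - γ.Ecyl a (jc + v)) =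
      (γ.cyl a).dsz sdF (γ.pw a (3 / 5)) (-tr 1 v.y2) 0 (γ.Ecyl a (jc + v)) := by
    rw [Ctr.dsz, Ctr.dsz, h3, h4, h5, zero_sub, mul_neg, norm_neg]
  rw [e] at b1
  have b2 := b1.trans (mul_le_mul_of_nonneg_left
    (add_le_add ((norm_fwd_le _ _).trans h2) le_rfl) hC.le)
  refine ⟨?_, fun t => ?_⟩
  · have b3 := ((γ.cyl a).nrm_one_le _ _ p0 z).trans
      (mul_le_mul_of_nonneg_left b2 (norm_nonneg _))
    have b4 := h.ds6' hc hl hω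
    have b5 := (γ.cyl a).nrm_add_le muCyl 1 (jc + v) z
    nlinarith [mul_le_mul_of_nonneg_left E.δ₁_le hC.le, mul_pos hC E.δ₁0,
      mul_le_mul_of_nonneg_right E.C1 E.δ₁0.le]
  · have ut := h.u_pos t
    have u1 := h.u_pos 1
    have u0 := h.u0.1
    have c2 : 5 * E.C ≤ E.C ^ 2 := by nlinarith [E.hC]
    have c4 : 10000 * E.C ^ 2 ≤ E.C ^ 4 := by
      linarith [E.num_le 2, E.pow_le (show 2 + 1 ≤ 4 by norm_num), sq_nonneg E.C]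
    have b3 := (ptN_le_Wt _ _ jc _ t).trans (mul_le_mul_of_nonneg_left hc.dec (by positivity))
    rw [(h.wt.1 _ t).2, Real.rpow_neg (by positivity), ← Real.inv_rpow (by positivity),
      inv_div] at b3
    have b4 := (ptN_le_Wt _ _ z _ t).trans (mul_le_mul_of_nonneg_left b2 (by positivity))
    have b5 := mul_le_mul_of_nonneg_left (h.ds6 hc hl t) (show 0 ≤ 5 * E.C by positivity)
    have b6 : 5 * E.C * GG E κ γ a ω ≤ E.C ^ 4 * (‖ω‖ / ‖Om a (γ.ze 1)‖ + ‖a‖ ^ 2 * uu a (γ.ze 1)) +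
        100 * E.C ^ 6 * κ * uu a (γ.ze 1) ^ (3 / 5 : ℝ) := by
      have x1 : 0 ≤ ‖ω‖ / ‖Om a (γ.ze 1)‖ := by positivity
      have x2 : 0 ≤ ‖a‖ ^ 2 * uu a (γ.ze 1) := by positivity
      have x3 : 0 ≤ E.C ^ 6 * κ * uu a (γ.ze 1) ^ (3 / 5 : ℝ) := by positivity
      unfold GG
      nlinarith [mul_le_mul_of_nonneg_right c4 x1, mul_le_mul_of_nonneg_right c4 x2,
        mul_nonneg (sq_nonneg E.C) x2]
    have b7 := mul_le_mul_of_nonneg_right b6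
      (show 0 ≤ (uu a (γ.ze t) / uu a (γ.ze 1)) ^ (3 / 5 : ℝ) by positivity)
    have b8 := mul_le_mul_of_nonneg_right c2 (show 0 ≤ E.δ₁ *
      (uu a S.T / uu a (γ.ze t)) ^ (9 / 10 : ℝ) by have := E.δ₁0; positivity)
    have b9 := mul_le_mul_of_nonneg_right c2 (show 0 ≤ ‖ω‖ *
      Real.exp (-(1 / 8 * ((γ.ze 1).re - (γ.ze t).re))) by positivity)
    linarith [ptN_add_le (γ.cyl a) muCyl (jc + v) z t, ptN_add_le (γ.cyl a) muCyl jc v t, hl.pt t]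

end OE

end S2P

end Vale.Agent.P218N.Glue
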