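import Vale.Agent.P218N.Glue.Defs

/-! The glued problem: the statements of the steps. -/

open Filter Topology Metric Set Complex
open scoped ComplexConjugate

noncomputable section

namespace Vale.Agent.P218N.Glue

open Vale.Agent.P218N.End Vale.Agent.P218N.J

variable {J0 Cy Co : Type} [Fintype J0] [Fintype Cy] [Fintype Co]

namespace Env
variable {S : Sys J0 Cy Co} (E : Env S)

/-! ### Matched solutions -/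

/-- the loop estimate -/
def Loop : Prop := ∀ (p p' : CP J0 Cy Co) (s : ℤ → Icc (0 : ℝ) 1) (d π sh : Cy → WD)
  (Er D X X' : ℝ), ‖p‖ < E.r₀ → ‖p'‖ < E.r₀ → 0 ≤ Er → 0 ≤ D → ‖p.2.1 - p'.2.1‖ ≤ X → 0 ≤ X' →
  (∀ i, ‖low (p.2.1 i - p'.2.1 i) - sh i‖ ≤ X' ∧
    ‖(S.out p).1 i - (S.out p').1 i - d i - sh i‖ ≤ E.C * E.ε * ‖d i‖ + Er ∧
    ‖p.2.2.1 i - p'.2.2.1 i - π i‖ ≤ E.C * E.ε * (‖π i‖ + ‖d i‖) + Er ∧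
    ‖π i‖ + ‖bwd s (d i)‖ ≤ E.ε * ‖fwd s (d i)‖ + D) →
  (∀ e, ‖p.2.2.2 e - p'.2.2.2 e‖ ≤ E.ε * ‖(S.out p).2 e - (S.out p').2 e‖ +
    E.C * ‖ibr ((S.out p).2 e - (S.out p').2 e)‖ + D) →
  ∀ N, E.C ^ 3 * (E.ε * (X + X') + E.Cb * ‖p.1 - p'.1‖ + Er + D) ≤ N →
    ‖p.2.2 - p'.2.2‖ ≤ N ∧
    (∀ i, ‖bwd s (low (p.2.1 i - p'.2.1 i) - sh i)‖ ≤ N ∧ ‖d i‖ ≤ 2 * X' + N) ∧
    ∀ e, ‖(S.out p).2 e - (S.out p').2 e‖ ≤ N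

/-- comparison of two matched solutions with the same slopes on the same paths -/
def Cmp : Prop := ∀ (p p' : CP J0 Cy Co) (s : ℤ → Icc (0 : ℝ) 1) (a : Cy → ℂ) (γ : Cy → Path)
  (j j' : Cy → EJ) (γc : Co → Path) (k k' : Co → EJ) (φ : Cy → BC) (ψ : Co → BC) (D X : ℝ),
  S.MS E.δ E.r₀ p a γ j γc k → S.MS E.δ E.r₀ p' a γ j' γc k' → 0 ≤ D → ‖p.2.1 - p'.2.1‖ ≤ X →
  (∀ i, ‖a i‖ * S.T ≤ E.ε ∧ AdmP (1 / 100) E.K S.T (a i) (γ i) ∧ ((γ i).cyl (a i)).TypW s (φ i) ∧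
    ‖((γ i).cyl (a i)).iW (φ i) p0 1‖ * (‖bwd s (tr 1 (j i).y2 - tr 1 (j' i).y2)‖ +
      ‖(γ i).piC (a i) (j i) 1 - (γ i).piC (a i) (j' i) 1‖) ≤ D) →
  (∀ e, (γc e).RealP S.T ∧ (γc e).cone.WC (ψ e) E.Λ 0 (1 / 5) ∧ ‖(γc e).cone.iW (ψ e) p0 1‖ *
    ‖(γc e).piK (S.cc e) (k e) 1 - (γc e).piK (S.cc e) (k' e) 1‖ ≤ D) →
  ∀ N, E.C ^ 4 * (E.ε * X + E.Cb * ‖p.1 - p'.1‖ + D) ≤ N → ‖p.2.2 - p'.2.2‖ ≤ N ∧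
    (∀ i, ‖bwd s (low (p.2.1 i - p'.2.1 i))‖ ≤ N ∧ ((γ i).cyl (a i)).nrm muCyl
      (((γ i).cyl (a i)).iW (φ i) p0) (j i - j' i) ≤ 2 * E.C * (X + N)) ∧
    ∀ e, (γc e).cone.nrm (muCone (S.cc e)) ((γc e).cone.iW (ψ e) p0) (k e - k' e) ≤ 2 * E.C * N

/-- restriction to initial parts of the paths -/
def Restr : Prop := ∀ (δ : ℝ) (p : CP J0 Cy Co) (a : Cy → ℂ) (γ γ' : Cy → Path) (j : Cy → EJ)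
  (γc γc' : Co → Path) (k : Co → EJ) (φ : Cy → ℝ → ℝ) (ψ : Co → ℝ → ℝ), δ ≤ E.δ →
  S.MS δ E.r₀ p a γ j γc k →
  (∀ i, ‖a i‖ * S.T ≤ E.ε ∧ AdmP (1 / 200) (E.K / 2) S.T (a i) (γ i) ∧ (γ' i).Ok ∧
    Sub (φ i) (γ i) (γ' i) ∧ φ i 0 = 0) →
  (∀ e, (γc e).RealP S.T ∧ (γc' e).RealP S.T ∧ Sub (ψ e) (γc e) (γc' e) ∧ ψ e 0 = 0) →
  S.MS δ E.r₀ p a γ' (fun i => (j i).cmp (φ i)) γc' (fun e => (k e).cmp (ψ e)) ∧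
  (∀ i, ∀ t ∈ Icc (0 : ℝ) 1, tr t ((j i).cmp (φ i)).y2 = tr (φ i t) (j i).y2 ∧
    (γ' i).piC (a i) ((j i).cmp (φ i)) t = (γ i).piC (a i) (j i) (φ i t) ∧
    (γ' i).AA (a i) ((j i).cmp (φ i)) t = (γ i).AA (a i) (j i) (φ i t) ∧
    (γ' i).FCI (a i) ((j i).cmp (φ i)) 0 t = (γ i).FCI (a i) (j i) 0 (φ i t)) ∧
  ∀ e, ∀ t ∈ Icc (0 : ℝ) 1,
    (γc' e).piK (S.cc e) ((k e).cmp (ψ e)) t = (γc e).piK (S.cc e) (k e) (ψ e t) ∧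
    (γc' e).piK (S.cc e) (S.kS e (γc' e)) t = (γc e).piK (S.cc e) (S.kS e (γc e)) (ψ e t) ∧
    (γc' e).FKI (S.cc e) (S.ka e) ((k e).cmp (ψ e)) 0 t =
      (γc e).FKI (S.cc e) (S.ka e) (k e) 0 (ψ e t)

/-- change of the slopes (for `i ∈ A`) -/
def CvMS : Prop := ∀ (δ δ' θ : ℝ) (p : CP J0 Cy Co) (a a' : Cy → ℂ) (γ : Cy → Path)
  (j j' : Cy → EJ) (γc : Co → Path) (k : Co → EJ), S.MS δ E.r₀ p a γ j γc k → 0 ≤ θ →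
  E.C * (δ + θ) ≤ δ' → δ' ≤ E.δ →
  (∀ i, (a' i = a i ∧ j' i = j i) ∨ (‖a i‖ * S.T ≤ E.ε ∧ ‖a' i‖ * S.T ≤ E.ε ∧
    AdmP (1 / 100) E.K S.T (a i) (γ i) ∧ (∀ t, tht (a i) (a' i) ((γ i).ze t) ≤ θ) ∧
    j' i = (γ i).conv (a i) (a' i) (j i))) →
  S.MS δ' E.r₀ p a' γ j' γc k ∧ S.val p a' γ j' γc k = S.val p a γ j γc k

/-- the hypotheses of the existence theorem at one value of the parameter -/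
structure ExH (s : ℤ → Icc (0 : ℝ) 1) (μ m : ℝ) (b : J0 → ℂ) (a : Cy → ℂ) (γ : Cy → Path)
    (γc : Co → Path) (φ φ' : Cy → BC) (ψ ψ' : Co → BC) (j₁ : Cy → EJ) (k₁ : Co → EJ)
    (π₀ : Dat Cy Co) (χ : (Cy → WD) → Cy → WD) (d₁ ω : Cy → WD) (ωc : Co → WD) : Prop where
  sa : ∀ i, ‖a i‖ * S.T ≤ E.ε
  adm : ∀ i, AdmP (1 / 100) E.K S.T (a i) (γ i)
  ty : ∀ i, ((γ i).cyl (a i)).TypW s (φ i) ∧ ((γ i).cyl (a i)).TypW s (φ' i)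
  jet : ∀ i, ((γ i).cyl (a i)).IsJet (j₁ i) ∧ ((γ i).cyl (a i)).nrm muCyl 1 (j₁ i) ≤ E.δ / 2
  kjet : ∀ e, (γc e).cone.IsJet (k₁ e) ∧
    (γc e).cone.nrm (muCone (S.cc e)) 1 (k₁ e - S.kS e (γc e)) ≤ E.δ / 2
  hb : ‖b‖ < E.r₀
  hπ : ‖π₀‖ + μ < E.r₀
  hχ : ∀ η, ‖η‖ < μ → ‖χ η‖ < E.r₀ ∧ ‖χ η - χ 0‖ ≤ 2 * ‖η‖ ∧
    ∀ i, ‖bwd s (low (χ η i - χ 0 i) - η i)‖ ≤ ‖η‖ / 20
  my : ∀ i, ‖S.dS i S.T + (S.out (b, χ 0, π₀)).1 i - cvY (a i) 0 S.T (tr 0 (j₁ i).y2)‖ ≤ m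
  mp : ∀ i, ‖S.πS i S.T + π₀.1 i -
    cvP (a i) 0 S.T (tr 0 (j₁ i).y2) ((γ i).piC (a i) (j₁ i) 0)‖ ≤ m
  ky : ∀ e, ‖S.dK e S.T + (S.out (b, χ 0, π₀)).2 e - tr 0 (k₁ e).y2‖ ≤ m
  kp : ∀ e, ‖S.πK e S.T + π₀.2 e - (γc e).piK (S.cc e) (k₁ e) 0‖ ≤ m
  ds' : ∀ i, ((γ i).cyl (a i)).dsz s (φ' i) (d₁ i) (ω i) ((γ i).Ecyl (a i) (j₁ i)) ≤ m
  dk' : ∀ e, (γc e).cone.dsz sdAll (ψ' e) 0 (ωc e)
    ((γc e).Econe (S.cc e) (S.ka e) (S.kd e) (k₁ e)) ≤ m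
  ds : ∀ i, E.C * ‖((γ i).cyl (a i)).Wt (φ i) p0‖ * (6 * μ +
    ((γ i).cyl (a i)).dsz s (φ i) (d₁ i) (ω i) ((γ i).Ecyl (a i) (j₁ i))) ≤ E.δ / 2
  dk : ∀ e, E.C * ‖(γc e).cone.Wt (ψ e) p0‖ * (6 * μ + (γc e).cone.dsz sdAll (ψ e) 0 (ωc e)
    ((γc e).Econe (S.cc e) (S.ka e) (S.kd e) (k₁ e))) ≤ E.δ / 2

/-- the conclusion of the existence theorem at one value of the parameter -/
structure ExC (s : ℤ → Icc (0 : ℝ) 1) (μ : ℝ) (b : J0 → ℂ) (a : Cy → ℂ) (γ : Cy → Path)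
    (γc : Co → Path) (j₁ : Cy → EJ) (k₁ : Co → EJ) (π₀ : Dat Cy Co) (χ : (Cy → WD) → Cy → WD)
    (d₁ ω : Cy → WD) (ωc : Co → WD) (η : Cy → WD) (π : Dat Cy Co) (v : Cy → EJ) (vc : Co → EJ) :
    Prop where
  ms : S.MS E.δ E.r₀ (b, χ η, π) a γ (fun i => j₁ i + v i) γc (fun e => k₁ e + vc e)
  hη : ‖η‖ < μ
  hπ : ‖π - π₀‖ ≤ μ
  bw : ∀ i, bwd s (η i) = η i
  jet : ∀ i, ((γ i).cyl (a i)).IsJet (v i) ∧ ‖tr 0 (v i).y2‖ ≤ 6 * μ ∧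
    bwd s (tr 1 (v i).y2) = bwd s (d₁ i) ∧ (γ i).piC (a i) (v i) 1 = ω i
  kjet : ∀ e, (γc e).cone.IsJet (vc e) ∧ ‖tr 0 (vc e).y2‖ ≤ 6 * μ ∧
    (γc e).piK (S.cc e) (vc e) 1 = ωc e

/-- existence of matched solutions near an approximate one -/
def Exm : Prop := ∀ (X : Type) [NormedAddCommGroup X] [NormedSpace ℂ X] (U : Set X)
  (s : ℤ → Icc (0 : ℝ) 1) (μ m : ℝ) (b : X → J0 → ℂ) (a : X → Cy → ℂ) (γ : X → Cy → Path)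
  (γc : Co → Path) (φ φ' : X → Cy → BC) (ψ ψ' : Co → BC) (j₁ : X → Cy → EJ) (k₁ : X → Co → EJ)
  (π₀ : X → Dat Cy Co) (χ : X → (Cy → WD) → Cy → WD) (d₁ ω : X → Cy → WD) (ωc : X → Co → WD),
  IsOpen U → 0 < μ → m * E.C ^ 4 ≤ μ → DifferentiableOn ℂ b U → DifferentiableOn ℂ a U →
  (∀ i, DifferentiableOn ℂ (fun x => (γ x i).ze) U) →
  (∀ i, DifferentiableOn ℂ (fun x => (γ x i).g) U) → DifferentiableOn ℂ φ U →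
  DifferentiableOn ℂ j₁ U → DifferentiableOn ℂ k₁ U → DifferentiableOn ℂ π₀ U →
  DifferentiableOn ℂ (fun z : X × (Cy → WD) => χ z.1 z.2) (U ×ˢ ball 0 μ) →
  DifferentiableOn ℂ d₁ U → DifferentiableOn ℂ ω U → DifferentiableOn ℂ ωc U →
  (∀ e, (γc e).RealP S.T ∧ (γc e).cone.WC (ψ e) E.Λ 0 (1 / 5) ∧
    (γc e).cone.WC (ψ' e) E.Λ 0 (1 / 5)) →
  (∀ x ∈ U, E.ExH s μ m (b x) (a x) (γ x) γc (φ x) (φ' x) ψ ψ' (j₁ x) (k₁ x) (π₀ x) (χ x) (d₁ x)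
    (ω x) (ωc x)) →
  ∃ (η : X → Cy → WD) (π : X → Dat Cy Co) (v : X → Cy → EJ) (vc : X → Co → EJ),
    DifferentiableOn ℂ η U ∧ DifferentiableOn ℂ π U ∧ DifferentiableOn ℂ v U ∧
    DifferentiableOn ℂ vc U ∧ ∀ x ∈ U, E.ExC s μ (b x) (a x) (γ x) γc (j₁ x) (k₁ x) (π₀ x) (χ x)
      (d₁ x) (ω x) (ωc x) (η x) (π x) (v x) (vc x)

/-- holomorphy, bound and first variation of the Gaussian area -/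
def Fv : Prop := ∀ (X : Type) [NormedAddCommGroup X] [NormedSpace ℂ X] (U : Set X)
  (p : X → CP J0 Cy Co) (a : X → Cy → ℂ) (γ : X → Cy → Path) (j : X → Cy → EJ) (γc : Co → Path)
  (k : X → Co → EJ), IsOpen U → DifferentiableOn ℂ p U → DifferentiableOn ℂ a U →
  (∀ i, DifferentiableOn ℂ (fun x => (γ x i).ze) U) →
  (∀ i, DifferentiableOn ℂ (fun x => (γ x i).g) U) → DifferentiableOn ℂ j U →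
  DifferentiableOn ℂ k U → (∀ e, (γc e).RealP S.T) →
  (∀ x ∈ U, S.MS E.δ E.r₀ (p x) (a x) (γ x) (j x) γc (k x) ∧
    ∀ i, ‖a x i‖ * S.T ≤ E.ε ∧ AdmP (1 / 100) E.K S.T (a x i) (γ x i)) →
  DifferentiableOn ℂ (fun x => S.val (p x) (a x) (γ x) (j x) γc (k x)) U ∧
  ∀ γ₀ : Cy → Path, (∀ x ∈ U, γ x = γ₀) → ∀ x ∈ U, ∀ v,
    fderiv ℂ (fun x => S.val (p x) (a x) (γ x) (j x) γc (k x)) x v =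
      S.rest (p x) (fderiv ℂ p x v) +
      ∑ i, (γ₀ i).FluxCyl (a x i) (j x i) 1 (fderiv ℂ (fun x => a x i) x v)
        (fderiv ℂ (fun x => j x i) x v).y +
      ∑ e, (γc e).FluxCone (S.cc e) (S.ka e) (k x e) 1 (fderiv ℂ (fun x => k x e) x v).y

/-- conjugation of matched solutions on real paths -/
def CjMS : Prop := ∀ (δ P : ℝ) (p : CP J0 Cy Co) (a : Cy → ℂ) (γ : Cy → Path) (j : Cy → EJ)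
  (γc : Co → Path) (k : Co → EJ), δ ≤ E.δ → S.RS 0 P γ γc →
  (∀ i, ‖a i‖ ≤ 1 / (4 * P) ∧ ‖a i‖ * S.T ≤ E.ε) → S.MS δ E.r₀ p a γ j γc k →
  S.MS δ E.r₀ (cjP p) (star a) γ (fun i => (j i).cj) γc (fun e => (k e).cj) ∧
  S.val (cjP p) (star a) γ (fun i => (j i).cj) γc (fun e => (k e).cj) = conj (S.val p a γ j γc k) ∧
  (∀ i, (S.jS i (γ i)).cj = S.jS i (γ i)) ∧ ∀ e, (S.kS e (γc e)).cj = S.kS e (γc e)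

/-- two solutions with the same `(b, x)` are exponentially close -/
def Sl : Prop := ∀ (Q : ℝ) (p p' : CP J0 Cy Co) (a a' : Cy → ℂ) (γ : Cy → Path) (j j' : Cy → EJ)
  (γc : Co → Path) (k k' : Co → EJ), S.RS Q Q γ γc → S.T ≤ Q → p.1 = p'.1 → p.2.1 = p'.2.1 →
  S.MS (E.δ / E.C ^ 2) E.r₀ p a γ j γc k → S.MS (E.δ / E.C ^ 2) E.r₀ p' a' γ j' γc k' →
  (∀ i, ‖a i‖ * Q ≤ E.δ / E.C ^ 2 ∧ ‖a' i‖ * Q ≤ E.δ / E.C ^ 2) →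
  ‖p.2.2 - p'.2.2‖ ≤ Real.exp (-((Q - S.T) / 8)) ∧
  (∀ i, ((γ i).cyl 0).nrm muCyl (((γ i).cyl 0).iW (((1 / 8 : ℝ) : ℂ) • 1) p0)
      ((γ i).conv (a i) 0 (j i) - (γ i).conv (a' i) 0 (j' i)) ≤ Real.exp (-((Q - S.T) / 8)) ∧
    ∀ t, ‖(γ i).AA (a i) (j i) t - (γ i).AA (a' i) (j' i) t‖ ≤
      Real.exp (-((Q - ((γ i).ze t).re) / 8))) ∧
  ∀ e, (γc e).cone.nrm (muCone (S.cc e)) ((γc e).cone.iW (((1 / 8 : ℝ) : ℂ) • 1) p0) (k e - k' e) ≤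
    Real.exp (-((Q - S.T) / 8))

/-! ### The first stage -/

/-- existence -/
def S1ex : Prop := ∀ (P : ℝ) (γ : Cy → Path) (γc : Co → Path), S.T ≤ P → S.RS 0 P γ γc →
  ∃ (x : (Cy → ℂ) × (J0 → ℂ) → Cy → WD) (π : (Cy → ℂ) × (J0 → ℂ) → Dat Cy Co)
    (j : (Cy → ℂ) × (J0 → ℂ) → Cy → EJ) (k : (Cy → ℂ) × (J0 → ℂ) → Co → EJ),
    DifferentiableOn ℂ x (ball 0 (E.c₀ / P) ×ˢ ball 0 E.r) ∧
    DifferentiableOn ℂ π (ball 0 (E.c₀ / P) ×ˢ ball 0 E.r) ∧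
    DifferentiableOn ℂ j (ball 0 (E.c₀ / P) ×ˢ ball 0 E.r) ∧
    DifferentiableOn ℂ k (ball 0 (E.c₀ / P) ×ˢ ball 0 E.r) ∧
    ∀ a b, ‖a‖ < E.c₀ / P → ‖b‖ < E.r →
      E.S1 a b γ γc (x (a, b)) (π (a, b)) (j (a, b)) (k (a, b))

/-- consistency under truncation -/
def S1cons : Prop := ∀ (P P' : ℝ) (γ γ' : Cy → Path) (γc γc' : Co → Path) (φ : Cy → ℝ → ℝ)
  (ψ : Co → ℝ → ℝ) a b x π j k x' π' j' k', S.T ≤ P → P ≤ P' → S.RS P P' γ γc →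
  S.RS P P' γ' γc' → (∀ i, Sub (φ i) (γ i) (γ' i) ∧ φ i 0 = 0) →
  (∀ e, Sub (ψ e) (γc e) (γc' e) ∧ ψ e 0 = 0) → ‖a‖ < E.c₀ / P' → E.S1 a b γ γc x π j k →
  E.S1 a b γ' γc' x' π' j' k' → ‖x - x'‖ ≤ (S.T / P) ^ (27 / 20 : ℝ)

/-- dependence on the slopes -/
def S1lip : Prop := ∀ (P : ℝ) (γ : Cy → Path) (γc : Co → Path) a b x π j k x' π' j' k',
  S.T ≤ P → S.RS 0 P γ γc → ‖a‖ < E.c₀ / P → E.S1 a b γ γc x π j k →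
  E.S1 0 b γ γc x' π' j' k' →
  ∀ i, ‖x i - x' i - ((S.τ : ℂ) * a i) • (1 : WD)‖ ≤ S.τ / 100 * ‖a‖

/-- uniqueness, the base solution, conjugation -/
def S1sym : Prop := ∀ (P : ℝ) (γ : Cy → Path) (γc : Co → Path), S.T ≤ P → S.RS 0 P γ γc →
  E.S1 0 0 γ γc 0 0 (fun i => S.jS i (γ i)) (fun e => S.kS e (γc e)) ∧
  ∀ a b x π j k, ‖a‖ < E.c₀ / P → E.S1 a b γ γc x π j k →
    (∀ x' π' j' k', E.S1 a b γ γc x' π' j' k' → x = x') ∧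
    E.S1 (star a) (star b) γ γc (cjF x) (cjD π) (fun i => (j i).cj) (fun e => (k e).cj)

/-- the preliminary coordinates -/
def Coord0 : Prop := ∃ X c₁ CX P₀, E.Coord X (1 / 100) E.r c₁ CX P₀

/-! ### The second stage -/

/-- the shape of the solutions -/
structure Prof (CM ρ : ℝ) (d : TD Cy Co) (β : Cy → ℂ) (u : TU Cy Co) : Prop where
  sl : ‖β - u.a‖ ≤ CM * ρ ^ (27 / 20 : ℝ)
  nc : ∀ i, ((d.γ i).cyl (u.a i)).nrm muCyl 1 (u.j i) ≤ 2 * E.C * E.δ₀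
  nk : ∀ e, (sg S.T d.Rc).cone.nrm (muCone (S.cc e)) 1 (u.k e - S.kS e (sg S.T d.Rc)) ≤
    2 * E.δ₁ + 2 * E.C * ‖d.ωc e‖
  pt : ∀ i, ∀ t ∈ Icc (0 : ℝ) 1, ptN ((d.γ i).cyl (u.a i)) muCyl (u.j i) t ≤
    E.C ^ 2 * E.δ₁ * (uu (u.a i) S.T / uu (u.a i) ((d.γ i).ze t)) ^ (9 / 10 : ℝ) +
    E.C ^ 2 * ‖d.ω i‖ * Real.exp (-(1 / 8 * (((d.γ i).ze 1).re - ((d.γ i).ze t).re))) +
    (E.C ^ 4 * (‖d.ω i‖ / ‖Om (u.a i) ((d.γ i).ze 1)‖ + ‖u.a i‖ ^ 2 * uu (u.a i) ((d.γ i).ze 1)) +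
      CM * ρ ^ (27 / 20 : ℝ) * uu (u.a i) ((d.γ i).ze 1) ^ (3 / 5 : ℝ)) *
      (uu (u.a i) ((d.γ i).ze t) / uu (u.a i) ((d.γ i).ze 1)) ^ (3 / 5 : ℝ)

/-- existence for given slopes -/
def S2ex (X : XT J0 Cy) (rX : ℝ) : Prop := ∀ M, 1 ≤ M → ∃ CM ≥ 0, ∃ ρ₀ > 0, ∀ ρ, 0 < ρ → ρ ≤ ρ₀ →
  ∀ (Y : Type) [NormedAddCommGroup Y] [NormedSpace ℂ Y] (U : Set Y) (d : Y → TD Cy Co)
    (a : Y → Cy → ℂ) (b : Y → J0 → ℂ), HolD U (1 / (M * ρ)) d → DifferentiableOn ℂ a U →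
    DifferentiableOn ℂ b U → (∀ p ∈ U, E.Gd M ρ (d p) (a p) ∧ ‖b p‖ < E.r) →
    ∃ (β : Y → Cy → ℂ) (u : Y → TU Cy Co), DifferentiableOn ℂ β U ∧ HolU U u ∧ ∀ p ∈ U,
      (u p).a = a p ∧ ‖β p‖ < rX ∧ E.TS X (d p) (β p) (b p) (u p) ∧ E.Prof CM ρ (d p) (β p) (u p)

/-- uniqueness for given slopes -/
def S2uq (X : XT J0 Cy) (rX : ℝ) : Prop := ∀ (d : TD Cy Co) β β' b (u u' : TU Cy Co),
  S.T ≤ d.Rc → (∀ i, AdmP (1 / 100) E.K S.T (u.a i) (d.γ i)) → u'.a = u.a → ‖β‖ < rX →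
  ‖β'‖ < rX → ‖b‖ < E.r → E.TS X d β b u → E.TS X d β' b u' → β = β' ∧ u = u'

/-- the shape of all solutions -/
def S2pr (X : XT J0 Cy) (rX : ℝ) : Prop := ∀ M, 1 ≤ M → ∃ CM ≥ 0, ∃ ρ₀ > 0, ∀ ρ, 0 < ρ → ρ ≤ ρ₀ →
  ∀ (d : TD Cy Co) β b (u : TU Cy Co), E.Gd M ρ d u.a → ‖β‖ < rX → ‖b‖ < E.r → E.TS X d β b u →
    E.Prof CM ρ d β u

/-- the coordinates are the slopes at infinity, up to second order -/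
def AQ (X : XT J0 Cy) (rX : ℝ) : Prop := ∀ M, 1 ≤ M → ∃ CM ≥ 1, ∃ ρ₀ > 0, ∀ ρ, 0 < ρ → ρ ≤ ρ₀ →
  ∃ Q : ℝ, 1 / (CM * ρ) ≤ Q ∧ Q ≤ 1 / (2 * M * ρ) ∧
  ∀ (d : TD Cy Co) β b (u : TU Cy Co), E.Gd M ρ d u.a → ‖β‖ < rX → ‖b‖ < E.r → E.TS X d β b u →
    ∀ i, ∀ t ∈ Icc (0 : ℝ) 1, (d.γ i).ze t = Q →
      ‖(d.γ i).AA (u.a i) (u.j i) t + u.a i ^ 2 * sE (u.a i) Q - β i‖ ≤ CM * ρ ^ (23 / 10 : ℝ)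

/-- the final coordinates -/
def G2 : Prop := ∀ X rX c₁ CX P₀, E.Coord X (1 / 100) rX c₁ CX P₀ → E.S2ex X rX → E.S2pr X rX →
  ∃ X' rX' c₁' CX' P₀', E.Coord X' (1 / 50) rX' c₁' CX' P₀' ∧ E.AQ X' rX'

/-- asymptotics of the slopes -/
def AS (X : XT J0 Cy) (rX : ℝ) : Prop := ∀ M, 1 ≤ M → ∃ CM ≥ 0, ∀ η > 0, ∃ ρ₀ > 0, ∀ ρ, 0 < ρ →
  ρ ≤ ρ₀ → ∀ (d : TD Cy Co) β b (u : TU Cy Co), E.Gd M ρ d u.a → ‖β‖ < rX → ‖b‖ < E.r →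
    E.TS X d β b u → ∀ i,
    ‖u.a i + u.a i ^ 2 * sE (u.a i) ((d.γ i).ze 1) - β i‖ ≤
      ρ ^ 2 * (CM * (‖d.ω i‖ + ‖d.ω i‖ ^ 2 * ‖Om (u.a i) ((d.γ i).ze 1)‖ +
        1 / ‖Om (u.a i) ((d.γ i).ze 1)‖) + η) ∧
    (d.ω i = 0 → ∀ φ γ' t₀, γ'.Ok → Rep φ (d.γ i) γ' t₀ → 1 / (M * ρ) ≤ ((d.γ i).ze t₀).re →
      ‖(R0v (u.a i) (d.γ i) (u.j i) t₀ - 2) / ((d.γ i).ze t₀ - 2) +
        u.a i ^ 2 * sE (u.a i) ((d.γ i).ze t₀) - β i‖ ≤ CM * ρ ^ 2)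

/-- the far parts are almost symmetric -/
def NS (X : XT J0 Cy) (rX : ℝ) : Prop := ∀ M, 1 ≤ M → ∀ η > 0, ∃ ρ₀ > 0, ∀ ρ, 0 < ρ →
  ρ ≤ ρ₀ → ∀ (d : TD Cy Co) β b (u : TU Cy Co), E.Gd M ρ d u.a → ‖β‖ < rX → ‖b‖ < E.r →
    E.TS X d β b u → ∀ i t, 1 / (M * ρ) ≤ ((d.γ i).ze t).re →
      nsN (u.j i) t + ‖nsD ((d.γ i).piC (u.a i) (u.j i) t)‖ ≤ 5 * E.C * ‖nsD (d.ω i)‖ + η

/-- the data are admissible on the discs with centres `ah` and radii `rd` -/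
structure GdD (M K' ρ : ℝ) (ah : Cy → ℂ) (rd : Cy → ℝ) (d : TD Cy Co) : Prop where
  gd : ∀ a : Cy → ℂ, (∀ i, ‖a i - ah i‖ ≤ rd i) → E.Gd M ρ d a
  rad : ∀ i, K' * ρ ^ 2 * (1 + ‖d.ω i‖ ^ 2 * ‖Om (ah i) ((d.γ i).ze 1)‖) ≤ rd i

/-- existence and uniqueness for given coordinates -/
def Fin (X : XT J0 Cy) (rX : ℝ) : Prop := ∀ M, 1 ≤ M → ∃ K' > 0, ∃ ρ₀ > 0, ∀ ρ, 0 < ρ → ρ ≤ ρ₀ →
  (∀ (Y : Type) [NormedAddCommGroup Y] [NormedSpace ℂ Y] (U : Set Y) (d : Y → TD Cy Co)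
    (β : Y → Cy → ℂ) (b : Y → J0 → ℂ) (ah : Cy → ℂ) (rd : Cy → ℝ), HolD U (1 / (M * ρ)) d →
    DifferentiableOn ℂ β U → DifferentiableOn ℂ b U →
    (∀ p ∈ U, E.GdD M K' ρ ah rd (d p) ∧ ‖β p‖ < rX ∧ ‖b p‖ < E.r ∧
      ∀ i, ‖ah i + ah i ^ 2 * sE (ah i) (((d p).γ i).ze 1) - β p i‖ ≤ rd i / 4) →
    ∃ u : Y → TU Cy Co, HolU U u ∧ ∀ p ∈ U, E.TS X (d p) (β p) (b p) (u p) ∧
      ∀ i, ‖(u p).a i - ah i‖ ≤ rd i / 2) ∧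
  ∀ (d : TD Cy Co) β b ah rd (u u' : TU Cy Co), E.GdD M K' ρ ah rd d → ‖β‖ < rX → ‖b‖ < E.r →
    E.TS X d β b u → E.TS X d β b u' →
    (∀ i, ‖u.a i - ah i‖ ≤ 3 / 4 * rd i ∧ ‖u'.a i - ah i‖ ≤ 3 / 4 * rd i) → u = u'

/-- everything that is known about the final coordinates -/
structure Ctx (X : XT J0 Cy) (rX : ℝ) : Prop where
  cmp : E.Cmp
  restr : E.Restr
  cvms : E.CvMS
  fv : E.Fv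
  cjms : E.CjMS
  sl : E.Sl
  coord : ∃ c₁ CX P₀, E.Coord X (1 / 50) rX c₁ CX P₀
  s2ex : E.S2ex X rX
  s2uq : E.S2uq X rX
  s2pr : E.S2pr X rX
  as : E.AS X rX
  ns : E.NS X rX
  fin : E.Fin X rX

/-! ### The interface to the block JUMP -/

/-- the constants -/
def par (rX : ℝ) : Par (J0 ⊕ Cy) :=
  ⟨Finset.univ.map Function.Embedding.inr, 1 / 100, E.K, S.T, rX, E.δ, E.δ₀⟩

end Env

/-- the data of a configuration -/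
def td {J0 Cy : Type} (Co : Type) (x : Cfg (J0 ⊕ Cy)) : TD Cy Co :=
  ⟨fun i => x.γ (.inr i), fun i => x.ω (.inr i), x.Rc, 0⟩

/-- the unknowns -/
def tu {J0 Cy Co : Type} (o : Out (J0 ⊕ Cy)) (π : Dat Cy Co) (k : Co → EJ) : TU Cy Co :=
  ⟨fun i => o.a (.inr i), π, fun i => o.j (.inr i), k⟩

/-- `f M K' C ε ρ` holds for large `K', C` and small `ρ` -/
def Fld (f : ℝ → ℝ → ℝ → ℝ → ℝ → Prop) : Prop := ∀ M, 1 ≤ M → ∃ K₁ C₁ : ℝ, ∀ K' C, K₁ ≤ K' →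
  C₁ ≤ C → ∀ ε > 0, ∃ ρ₀ > 0, ∀ ρ, 0 < ρ → ρ ≤ ρ₀ → f M K' C ε ρ

section fields
variable {ι : Type} [Fintype ι] [DecidableEq ι] (P : Par ι)
  (Sol : Cfg ι → (ι → ℂ) → Out ι → Prop)

/-- the field `ex` of `Loc` -/
def LEx : Prop := Fld fun M K' _ _ ρ =>
  ∀ (E : Type) [NormedAddCommGroup E] [NormedSpace ℂ E] (U : Set E) (x : E → Cfg ι)
    (ξ : E → ι → ℂ) (ah : ι → ℂ) (rd : ι → ℝ), HolIn P U x ξ → Com P M ρ U x →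
    (∀ p ∈ U, Good P M K' ρ ah rd (x p) (ξ p) ∧ Ref P ah rd (x p) (ξ p)) →
    ∃ o : E → Out ι, HolOut P U o ∧ ∀ p ∈ U, Sol (x p) (ξ p) (o p) ∧ Half P ah rd (o p)

/-- the field `uq` of `Loc` -/
def LUq : Prop := Fld fun M K' _ _ ρ =>
  ∀ ah rd x ξ o o', Good P M K' ρ ah rd x ξ → Sol x ξ o → Sol x ξ o' → Half P ah rd o →
    Half P ah rd o' → o.v = o'.v ∧ ∀ i ∈ P.I, o.a i = o'.a i ∧ o.j i = o'.j i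

/-- the field `res` of `Loc` -/
def LRes : Prop := Fld fun M K' C ε ρ =>
  ∀ ah rd x ξ o, Good P M K' ρ ah rd x ξ → Sol x ξ o → Half P ah rd o →
    (∀ i ∈ P.I, x.ω i = 0) → ∀ i ∈ P.I, ∀ φ γ' t₀, γ'.Ok → Rep φ (x.γ i) γ' t₀ →
    1 / (M * ρ) ≤ ((x.γ i).ze t₀).re → ∃ (ω' : WD) (o' : Out ι), Sol (x.upd i γ' ω') ξ o' ∧
      ‖ω'‖ ≤ P.δ₀ / 4 ∧ ‖ω'‖ ≤ C / ‖Om (o.a i) ((x.γ i).ze 1)‖ + ε ∧ ‖nsD ω'‖ ≤ ε ∧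
      o'.v = o.v - tailF (o.a i) (x.γ i) (o.j i) t₀ ∧
      (∀ k ∈ P.I, k ≠ i → o'.a k = o.a k) ∧
      R0v (o'.a i) γ' (o'.j i) 1 = R0v (o.a i) (x.γ i) (o.j i) t₀ ∧
      R1v (o'.a i) γ' (o'.j i) 1 = R1v (o.a i) (x.γ i) (o.j i) t₀ ∧
      ‖o'.a i - o.a i‖ ≤ C * ρ ^ 2 *
        (1 + ‖sE (o.a i) ((x.γ i).ze 1) - sE (o.a i) ((x.γ i).ze t₀)‖)

/-- the field `fv` of `Loc` -/
def LFv : Prop := Fld fun M K' C _ ρ =>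
  ∀ ah rd (x : Cfg ι) ξ (ω : ℂ → ι → WD) (o : ℂ → Out ι) (s : ℝ), 0 < s →
    (∀ i ∈ P.I, DifferentiableOn ℂ (fun p => ω p i) (ball 0 s)) → HolOut P (ball 0 s) o →
    (∀ p ∈ ball (0 : ℂ) s, Good P M K' ρ ah rd ⟨x.Rc, x.γ, ω p⟩ ξ ∧
      Sol ⟨x.Rc, x.γ, ω p⟩ ξ (o p) ∧ Half P ah rd (o p)) →
    ∀ p ∈ ball (0 : ℂ) (s / 2), ‖deriv (fun q => (o q).v) p - ∑ i ∈ P.I,
      (x.γ i).FluxCyl ((o p).a i) ((o p).j i) 1 (deriv (fun q => (o q).a i) p)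
        (deriv (fun q => (o q).j i) p).y‖ ≤ C / s * Real.exp (-(x.Rc / 5))

/-- the field `cone` of `Loc` -/
def LCone : Prop := Fld fun M K' C _ ρ =>
  ∀ ah rd (x : Cfg ι) ξ o (R' : ℝ) o', Good P M K' ρ ah rd x ξ →
    Good P M K' ρ ah rd ⟨R', x.γ, x.ω⟩ ξ → Sol x ξ o → Sol ⟨R', x.γ, x.ω⟩ ξ o' →
    Half P ah rd o → Half P ah rd o' → (∀ i ∈ P.I, x.ω i = 0) →
    ‖o.v - o'.v‖ ≤ C * Real.exp (-(min x.Rc R' / 5)) +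
      C / ρ * ∑ i ∈ P.I, Real.exp (-(((x.γ i).ze 1).re / 4))

/-- the field `as0` of `Loc` -/
def LAs : Prop := Fld fun M K' C ε ρ =>
  ∀ ah rd x ξ o, Good P M K' ρ ah rd x ξ → Sol x ξ o → Half P ah rd o → ∀ i ∈ P.I,
    ‖o.a i + o.a i ^ 2 * sE (o.a i) ((x.γ i).ze 1) - ξ i‖ ≤
      ρ ^ 2 * (C * (‖x.ω i‖ + ‖x.ω i‖ ^ 2 * ‖Om (o.a i) ((x.γ i).ze 1)‖ +
        1 / ‖Om (o.a i) ((x.γ i).ze 1)‖) + ε)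

/-- the field `ns` of `Loc` -/
def LNs : Prop := Fld fun M K' C ε ρ =>
  ∀ ah rd x ξ o, Good P M K' ρ ah rd x ξ → Sol x ξ o → Half P ah rd o → ∀ i ∈ P.I,
    ∀ t, 1 / (M * ρ) ≤ ((x.γ i).ze t).re → nsN (o.j i) t ≤ C * ‖nsD (x.ω i)‖ + ε

/-- the field `bdd` of `Loc` -/
def LBdd : Prop := Fld fun M K' C _ ρ =>
  ∀ ah rd x ξ o, Good P M K' ρ ah rd x ξ → Sol x ξ o → Half P ah rd o → ‖o.v‖ ≤ C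

end fields

namespace Env
variable {S : Sys J0 Cy Co} (E : Env S)

/-- the solutions of the truncated problems -/
def Sol (X : XT J0 Cy) (x : Cfg (J0 ⊕ Cy)) (ξ : J0 ⊕ Cy → ℂ) (o : Out (J0 ⊕ Cy)) : Prop :=
  ∃ π k, E.TS X (td Co x) (fun i => ξ (.inr i)) (fun i => ξ (.inl i)) (tu o π k) ∧
    o.v = E.tv X (td Co x) (fun i => ξ (.inr i)) (fun i => ξ (.inl i)) (tu o π k)

end Env

end Vale.Agent.P218N.Glue
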